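import Vale.Agent.P057L.Defs

/-! Global structure of Freiman multi-homomorphisms: definitions and block statements. -/

set_option linter.all false

open Finset
open scoped BigOperators

namespace Vale.Agent.P057T.Gkh

open Vale.Agent.P057Z Vale.Agent.P057L

noncomputable section

variable {j q : ℕ}

/-- a bracket: its type and the real function that is rounded -/
abbrev Cd (j q : ℕ) := Finset (Fin j) × (Pt j q → ℝ)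

/-- multi-affine forms in the entries and in the brackets of the list -/
inductive Frm (L : List (Cd j q)) : Finset (Fin j) → (Pt j q → ℝ) → Prop
  | cst (t : Finset (Fin j)) (c : ℝ) : Frm L t (fun _ => c)
  | add {t : Finset (Fin j)} {F G : Pt j q → ℝ} : Frm L t F → Frm L t G →
      Frm L t (fun W => F W + G W)
  | ent {t : Finset (Fin j)} {F : Pt j q → ℝ} (i : Fin j) (l : Fin q) : i ∉ t → Frm L t F →
      Frm L (insert i t) (fun W => (W i l : ℝ) * F W)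
  | brk {t : Finset (Fin j)} {F : Pt j q → ℝ} (p : Cd j q) : p ∈ L → Disjoint p.1 t → Frm L t F →
      Frm L (p.1 ∪ t) (fun W => (round (p.2 W) : ℝ) * F W)
  | mono {t t' : Finset (Fin j)} {F : Pt j q → ℝ} : t ⊆ t' → Frm L t F → Frm L t' F

/-- every bracket is a form in the older ones -/
inductive Twr : List (Cd j q) → Prop
  | nil : Twr []
  | cons {L : List (Cd j q)} {t : Finset (Fin j)} {P : Pt j q → ℝ} : Twr L → Frm L t P →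
      Twr ((t, P) :: L)

/-- the cell of a tower -/
def Cel (L : List (Cd j q)) (W : Pt j q) : Prop :=
  ∀ p ∈ L, |p.2 W - round (p.2 W)| ≤ 1 / 100

/-- t is a lift of a / Q -/
def Rp (Q : ℕ) (a : ZMod Q) (t : ℝ) : Prop := ∃ n : ℤ, (n : ZMod Q) = a ∧ t = n / Q

/-- the classes in J from x, the others from w -/
def sb (J : Finset (Fin j)) (w x : Pt j q) : Pt j q := fun i => if i ∈ J then x i else w i

/-- the copy of a tower under a substitution -/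
def cp (J : Finset (Fin j)) (w : Pt j q) (L : List (Cd j q)) : List (Cd j q) :=
  L.map fun p => (p.1 ∩ J, fun x => p.2 (sb J w x))

/-- the copy of a tower on one more class -/
def tl (L : List (Cd j q)) : List (Cd (j + 1) q) :=
  L.map fun p => (p.1.map (Fin.succEmb j), fun W => p.2 (Fin.tail W))

def dt (a : Fin q → ℝ) (v : Vz q) : ℝ := ∑ l, a l * v l

/-- the main statement -/
def GKH (j : ℕ) : Prop :=
  ∃ C : ℕ, ∀ (Y : ℝ) (q N Q : ℕ) [Fact Q.Prime] (ι : Type) [Fintype ι] [DecidableEq ι]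
    (φ : Pt j q → ι → ZMod Q) (Ω : Finset (Pt j q)), (C : ℝ) ≤ Y → 1 ≤ q → (q : ℝ) ≤ Y → Y ^ C ≤ Real.log N → N ≤ Q →
    Dn Ω N Y → MH φ Ω →
    ∃ (L : List (Cd j q)) (Ω1 : Finset (Pt j q)) (F : ι → Pt j q → ℝ), Twr L ∧
      (L.length : ℝ) ≤ Y ^ C ∧ Ω1 ⊆ Ω ∧ Dn Ω1 N (Y ^ C) ∧ (∀ W ∈ Ω1, Cel L W) ∧
      (∀ a, Frm L univ (F a)) ∧ ∀ W ∈ Ω1, ∀ a, Rp Q (φ W a) (F a W)

/-! ### Tools -/

/-- basic facts on forms -/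
def FRM : Prop :=
  ∀ j q : ℕ,
  (∀ (L : List (Cd j q)) t F (c : ℝ), Frm L t F → Frm L t (fun W => c * F W)) ∧
  (∀ (L : List (Cd j q)) t (α : Type) (s : Finset α) (F : α → Pt j q → ℝ),
    (∀ a ∈ s, Frm L t (F a)) → Frm L t (fun W => ∑ a ∈ s, F a W)) ∧
  (∀ (L L' : List (Cd j q)) t F, L ⊆ L' → Frm L t F → Frm L' t F) ∧
  (∀ L L' : List (Cd j q), Twr L → Twr L' → Twr (L ++ L')) ∧
  (∀ (L : List (Cd j q)) (α : Type) (s : List α) (t : α → Finset (Fin j)) (P : α → Pt j q → ℝ),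
    Twr L → (∀ a ∈ s, Frm L (t a) (P a)) → Twr (s.map (fun a => (t a, P a)) ++ L)) ∧
  (∀ (L : List (Cd j q)) t F (W W' : Pt j q), Twr L → Frm L t F → (∀ i ∈ t, W i = W' i) →
    F W = F W') ∧
  (∀ (L : List (Cd j q)) t F (S : Finset (Pt j q)), Twr L → Frm L t F → (∀ W ∈ S, Cel L W) →
    MH F S) ∧
  (∀ (L : List (Cd j q)) J (w : Pt j q), Twr L → Twr (cp J w L)) ∧
  (∀ (L : List (Cd j q)) t F J (w : Pt j q), Frm L t F →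
    Frm (cp J w L) (t ∩ J) (fun x => F (sb J w x))) ∧
  (∀ L : List (Cd j q), Twr L → Twr (tl L)) ∧
  ∀ (L : List (Cd j q)) t F, Frm L t F →
    Frm (tl L) (t.map (Fin.succEmb j)) (fun W => F (Fin.tail W))

/-- a base point with all hybrids -/
def CUBE : Prop :=
  ∀ j : ℕ, ∃ C : ℕ, ∀ (Y : ℝ) (q N : ℕ) (S : Finset (Pt j q)), (C : ℝ) ≤ Y → 1 ≤ N → Dn S N Y →
    ∃ w ∈ S, ∃ S1 ⊆ S, Dn S1 N (C * Y) ∧ ∀ x ∈ S1, ∀ J, sb J w x ∈ S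

open Classical in
/-- a base point and a slice for a dense set of configurations -/
def GW : Prop :=
  ∀ j : ℕ, ∃ C : ℕ, ∀ (Y : ℝ) (q N : ℕ) (β : Type) (B : Finset β) (I : Finset (Fin j))
    (U : Finset (Pt j q × β)), (C : ℝ) ≤ Y → 1 ≤ N → B.Nonempty → U ⊆ bp j q N ×ˢ B →
    Real.exp (-Y) * (N : ℝ) ^ (j * q) * B.card ≤ U.card →
    ∃ (w : Pt j q) (p : β), Real.exp (-(C * Y)) * (N : ℝ) ^ (j * q) * B.card ≤
      (U.filter fun u => ∀ J ⊆ I, (sb J w u.1, p) ∈ U).card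

/-- short boxes and narrow arcs -/
def RF : Prop :=
  ∀ j : ℕ, ∃ C : ℕ, ∀ (Y : ℝ) (q N : ℕ) (κ : Type) [Fintype κ] (Ψ : κ → Pt j q → Fin q → ℝ)
    (Ω : Finset (Pt (j + 1) q)), (C : ℝ) ≤ Y → (q : ℝ) ≤ Y → (Fintype.card κ : ℝ) ≤ Y →
    Y ^ C ≤ Real.log N → Dn Ω N Y →
    ∃ (Ω' : Finset (Pt (j + 1) q)) (yc : Vz q) (s : κ → ℝ), Ω' ⊆ Ω ∧ Dn Ω' N (Y ^ C) ∧
      ∀ y x, cn y x ∈ Ω' → (∀ l, |((y l - yc l : ℤ) : ℝ)| ≤ Real.exp (-Y) * N) ∧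
        ∀ r, |dt (Ψ r x) (y - yc) - s r - round (dt (Ψ r x) (y - yc) - s r)| ≤ Real.exp (-Y)

/-- short relations for real frequencies with denominator Q' -/
def QD : Prop :=
  ∃ C : ℕ, ∀ (Y : ℝ) (q N Q Q' : ℕ) [Fact Q.Prime] [Fact Q'.Prime] (κ ι : Type) [Fintype κ]
    [DecidableEq κ] (Ψ : κ → Fin q → ℝ) (Z : Finset (Vz q)) (θ : Fin q → ι → ZMod Q)
    (c : κ → ι → ZMod Q), (C : ℝ) ≤ Y → (q : ℝ) ≤ Y → (Fintype.card κ : ℝ) ≤ Y →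
    Y ^ C ≤ Real.log N → N ≤ Q → N ≤ Q' → (∀ r l, ∃ n : ℤ, Ψ r l = n / Q') → Z ⊆ bz q N →
    Real.exp (-Y) * (N : ℝ) ^ q ≤ Z.card →
    (∀ y ∈ Z, ∀ y' ∈ Z, (∀ r, |dt (Ψ r) (y - y') - round (dt (Ψ r) (y - y'))| ≤ 1 / 100) ∧
      zd (y - y') θ + zd (fun r => round (dt (Ψ r) (y - y'))) c = 0) →
    ∃ b : κ → κ → ℤ, (∀ a r, |(b a r : ℝ)| ≤ Real.exp (Y ^ C)) ∧
      (∀ a l, ∃ n : ℤ, |∑ r, (b a r : ℝ) * Ψ r l - n| ≤ Real.exp (Y ^ C) / N) ∧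
      ∀ v : κ → ℤ, (∀ r, (v r : ℝ) ^ 2 * Real.exp (Y ^ C) ≤ N) → (∀ a, b a ⬝ᵥ v = 0) → zd v c = 0

/-- linear algebra of one round: relations b on the index set δ, dead indices D, the block is
the image of e on B -/
def LA : Prop :=
  ∃ C : ℕ, ∀ (Y : ℝ) (κ δ : Type) [Fintype κ] [DecidableEq κ] [Fintype δ] [DecidableEq δ]
    (b : δ → δ → ℤ) (D : Finset δ) (B : Finset κ) (e : κ → δ), (C : ℝ) ≤ Y →
    (Fintype.card κ : ℝ) ≤ Y → (Fintype.card δ : ℝ) ≤ Y → Function.Injective e →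
    (∀ a r, |(b a r : ℝ)| ≤ Real.exp Y) →
    ∃ (n : κ → δ → ℤ) (f g : κ → κ → ℤ) (D0 : ℤ), D0 ≠ 0 ∧
      |(D0 : ℝ)| ≤ Real.exp (Y ^ C) ∧ (∀ s a, |(n s a : ℝ)| ≤ Real.exp (Y ^ C)) ∧
      (∀ s, ∀ d ∈ D, ∑ a, n s a * b a d = 0) ∧
      (∀ s r, r ∉ B → f s r = 0 ∧ g s r = 0) ∧
      (∀ m : κ → ℤ, ∀ r ∈ B, D0 * m r =
        ∑ s, f s r * (∑ r' ∈ B, (∑ a, n s a * b a (e r')) * m r') + ∑ s ∈ B, g s r * m s) ∧
      ∀ (Q : ℕ) [Fact Q.Prime] (ι : Type) (τ : δ → ι → ZMod Q), Real.exp (Y ^ C) ≤ Q →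
        (∀ d ∈ D, τ d = 0) →
        (∀ v : δ → ℤ, (∀ d, |(v d : ℝ)| ≤ Real.exp (Y ^ C)) → (∀ a, b a ⬝ᵥ v = 0) → zd v τ = 0) →
        ∀ s ∈ B, zd (g s) (fun r => τ (e r)) = 0

/-! ### The state -/

/-- constant along the class i -/
def Cst {H : Type} (g : Pt j q → H) (X : Finset (Pt j q)) (i : Fin j) : Prop :=
  ∀ (x : Pt j q) (a b : Vz q), Function.update x i a ∈ X → Function.update x i b ∈ X →
    g (Function.update x i a) = g (Function.update x i b)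

/-- the data of a state -/
structure Dat (j q Q : ℕ) (κ ι : Type) where
  Ω : Finset (Pt (j + 1) q)
  X : Finset (Pt j q)
  L : List (Cd j q)
  ty : κ → Finset (Fin j)
  Ψ : κ → Pt j q → Fin q → ℝ
  θ : Pt j q → Fin q → ι → ZMod Q
  c : Pt j q → κ → ι → ZMod Q

structure St {Q : ℕ} {κ ι : Type} [Fintype κ] (Y : ℝ) (N Q' : ℕ)
    (φ : Pt (j + 1) q → ι → ZMod Q) (S : Dat j q Q κ ι) : Prop where
  hR : (Fintype.card κ : ℝ) ≤ Y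
  hL : (S.L.length : ℝ) ≤ Y
  dn : Dn S.Ω N Y
  mh : MH φ S.Ω
  hX : ∀ y x, cn y x ∈ S.Ω → x ∈ S.X
  twr : Twr S.L
  frm : ∀ r l, Frm S.L (S.ty r) (fun x => S.Ψ r x l)
  cel : ∀ x ∈ S.X, Cel S.L x
  rat : ∀ x ∈ S.X, ∀ r l, ∃ n : ℤ, S.Ψ r x l = n / Q'
  arc : ∀ x y y', cn y x ∈ S.Ω → cn y' x ∈ S.Ω → ∀ r,
    |dt (S.Ψ r x) (y - y') - round (dt (S.Ψ r x) (y - y'))| ≤ 1 / 100
  ch : ∀ x y y', cn y x ∈ S.Ω → cn y' x ∈ S.Ω → φ (cn y x) - φ (cn y' x) =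
    zd (y - y') (S.θ x) + zd (fun r => round (dt (S.Ψ r x) (y - y'))) (S.c x)

/-- the goal for the type I and the class i -/
def Gl {Q : ℕ} {κ ι : Type} (S : Dat j q Q κ ι) (I : Finset (Fin j)) (i : Fin j) : Prop :=
  ∀ r, S.ty r = I → (i ∈ I → Cst (fun x => S.c x r) S.X i) ∧ (i ∉ I → MHi (fun x => S.c x r) S.X i)

/-- the first state -/
def ST0 (j : ℕ) : Prop :=
  ∃ C : ℕ, ∀ (Y : ℝ) (q N Q : ℕ) [Fact Q.Prime] (ι : Type) [Fintype ι] [DecidableEq ι]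
    (φ : Pt (j + 1) q → ι → ZMod Q) (Ω : Finset (Pt (j + 1) q)), (C : ℝ) ≤ Y → 1 ≤ q → (q : ℝ) ≤ Y → Y ^ C ≤ Real.log N → N ≤ Q →
    Dn Ω N Y → MH φ Ω →
    ∃ (Q' : ℕ) (_ : Fact Q'.Prime) (R : ℕ) (S : Dat j q Q (Fin R) ι), N ≤ Q' ∧ S.Ω ⊆ Ω ∧
      St (Y ^ C) N Q' φ S

/-- the coefficients on a parallelogram in the class i: slot 0, 1, 2 -/
def tau {Q : ℕ} {κ ι : Type} (S : Dat j q Q κ ι) (i : Fin j) (x : Pt j q) (a b : Vz q) :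
    Fin 3 × κ → ι → ZMod Q := fun p =>
  if i ∈ S.ty p.2 then
    ![S.c x p.2 - S.c (x + ev i a + ev i b) p.2,
      S.c (x + ev i a + ev i b) p.2 - S.c (x + ev i a) p.2,
      S.c (x + ev i a + ev i b) p.2 - S.c (x + ev i b) p.2] p.1
  else ![S.c x p.2 - S.c (x + ev i a) p.2 - S.c (x + ev i b) p.2 + S.c (x + ev i a + ev i b) p.2,
      0, 0] p.1

/-- the frequencies on a parallelogram -/
def fq {Q : ℕ} {κ ι : Type} (S : Dat j q Q κ ι) (i : Fin j) (x : Pt j q) (a b : Vz q) :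
    Fin 3 × κ → Fin q → ℝ := fun p => S.Ψ p.2 (![x, x + ev i a, x + ev i b] p.1)

/-- the signed sum on the common part of four fibres -/
def PAR : Prop :=
  ∀ (j q N Q Q' : ℕ) (κ ι : Type) [Fintype κ] (Y : ℝ) (φ : Pt (j + 1) q → ι → ZMod Q)
    (S : Dat j q Q κ ι) (i : Fin j) (x : Pt j q) (a b y y' : Vz q), St Y N Q' φ S →
    (∀ u ∈ ({y, y'} : Set (Vz q)), cn u x ∈ S.Ω ∧ cn u (x + ev i a) ∈ S.Ω ∧
      cn u (x + ev i b) ∈ S.Ω ∧ cn u (x + ev i a + ev i b) ∈ S.Ω) →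
    zd (y - y') (S.θ x - S.θ (x + ev i a) - S.θ (x + ev i b) + S.θ (x + ev i a + ev i b)) +
      zd (fun p => round (dt (fq S i x a b p) (y - y'))) (tau S i x a b) = 0

open Classical in
/-- fixed relations on many parallelograms -/
def RQ : Prop :=
  ∀ j : ℕ, ∃ C : ℕ, ∀ (Y : ℝ) (q N Q Q' : ℕ) [Fact Q.Prime] [Fact Q'.Prime] (κ ι : Type)
    [Fintype κ] [DecidableEq κ] [Fintype ι] [DecidableEq ι] (φ : Pt (j + 1) q → ι → ZMod Q) (S : Dat j q Q κ ι) (i : Fin j),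
    (C : ℝ) ≤ Y → 1 ≤ q → (q : ℝ) ≤ Y → Y ^ C ≤ Real.log N → N ≤ Q → N ≤ Q' → St Y N Q' φ S →
    ∃ (b : Fin 3 × κ → Fin 3 × κ → ℤ) (U : Finset (Pt j q × Vz q × Vz q)),
      (∀ a r, |(b a r : ℝ)| ≤ Real.exp (Y ^ C)) ∧ U ⊆ bp j q N ×ˢ sz q N ×ˢ sz q N ∧
      Real.exp (-Y ^ C) * (N : ℝ) ^ (j * q + 2 * q) ≤ U.card ∧
      ∀ u ∈ U, (∀ x' ∈ ({u.1, u.1 + ev i u.2.1, u.1 + ev i u.2.2, u.1 + ev i u.2.1 + ev i u.2.2} :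
          Set (Pt j q)), x' ∈ S.X ∧ x' ∈ bp j q N ∧
          Real.exp (-Y ^ C) * (N : ℝ) ^ q ≤ (fb S.Ω N x').card) ∧
        (∀ a l, ∃ n : ℤ, |∑ p, (b a p : ℝ) * fq S i u.1 u.2.1 u.2.2 p l - n| ≤
          Real.exp (Y ^ C) / N) ∧
        ∀ v : Fin 3 × κ → ℤ, (∀ r, (v r : ℝ) ^ 2 * Real.exp (Y ^ C) ≤ N) → (∀ a, b a ⬝ᵥ v = 0) →
          zd v (tau S i u.1 u.2.1 u.2.2) = 0

open Classical in
/-- first half of a round: the relations, the base point, the new set of points -/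
def RA : Prop :=
  ∀ j : ℕ, ∃ C : ℕ, ∀ (Y : ℝ) (q N Q Q' : ℕ) [Fact Q.Prime] [Fact Q'.Prime] (κ ι : Type)
    [Fintype κ] [DecidableEq κ] [Fintype ι] [DecidableEq ι]
    (φ : Pt (j + 1) q → ι → ZMod Q) (S : Dat j q Q κ ι) (I : Finset (Fin j)) (i : Fin j),
    (C : ℝ) ≤ Y → 1 ≤ q → (q : ℝ) ≤ Y → Y ^ C ≤ Real.log N → N ≤ Q → N ≤ Q' → St Y N Q' φ S →
    (∀ t, I ⊂ t → Gl S t i) →
    ∃ (X' : Finset (Pt j q)) (w : Pt j q) (E f g : κ → κ → ℤ) (D0 : ℤ),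
      X' ⊆ S.X ∧ Dn X' N (Y ^ C) ∧
      (∀ x ∈ X', Real.exp (-Y ^ C) * (N : ℝ) ^ q ≤ (fb S.Ω N x).card) ∧
      (D0 : ZMod Q) ≠ 0 ∧ (∀ s r, |(E s r : ℝ)| ≤ Real.exp (Y ^ C)) ∧
      (∀ s r, S.ty r ≠ I → E s r = 0 ∧ f s r = 0 ∧ g s r = 0) ∧
      (∀ m : κ → ℤ, ∀ r, S.ty r = I → D0 * m r =
        ∑ s, f s r * (E s ⬝ᵥ m) + ∑ s ∈ univ.filter (fun s => S.ty s = I), g s r * m s) ∧
      (∀ x ∈ X', ∀ J ⊆ I, sb J w x ∈ S.X) ∧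
      (∀ x ∈ X', ∀ s l, ∃ n : ℤ,
        |∑ J ∈ I.powerset, (-1 : ℝ) ^ (I \ J).card * ∑ r, (E s r : ℝ) * S.Ψ r (sb J w x) l - n| ≤
          Real.exp (Y ^ C) / N) ∧
      ∀ s, S.ty s = I → (i ∈ I → Cst (fun x => zd (g s) (S.c x)) X' i) ∧
        (i ∉ I → MHi (fun x => zd (g s) (S.c x)) X' i)

/-- one round -/
def RND : Prop :=
  ∀ j : ℕ, ∃ C : ℕ, ∀ (Y : ℝ) (q N Q Q' : ℕ) [Fact Q.Prime] [Fact Q'.Prime] (κ ι : Type)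
    [Fintype κ] [DecidableEq κ] [Fintype ι] [DecidableEq ι]
    (φ : Pt (j + 1) q → ι → ZMod Q) (S : Dat j q Q κ ι) (I : Finset (Fin j)) (i : Fin j),
    (C : ℝ) ≤ Y → 1 ≤ q → (q : ℝ) ≤ Y → Y ^ C ≤ Real.log N → N ≤ Q → N ≤ Q' → St Y N Q' φ S →
    (∀ t, I ⊂ t → Gl S t i) →
    ∃ S' : Dat j q Q (κ ⊕ κ × Finset (Fin j)) ι, S'.Ω ⊆ S.Ω ∧ St (Y ^ C) N Q' φ S' ∧ Gl S' I i ∧
      ∀ t i', ¬ t ⊂ I → Gl S t i' → Gl S' t i'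

/-- all rounds -/
def ITER : Prop :=
  ∀ j : ℕ, ∃ C : ℕ, ∀ (Y : ℝ) (q N Q Q' : ℕ) [Fact Q.Prime] [Fact Q'.Prime] (κ ι : Type)
    [Fintype κ] [DecidableEq κ] [Fintype ι] [DecidableEq ι] (φ : Pt (j + 1) q → ι → ZMod Q) (S : Dat j q Q κ ι),
    (C : ℝ) ≤ Y → 1 ≤ q → (q : ℝ) ≤ Y → Y ^ C ≤ Real.log N → N ≤ Q → N ≤ Q' → St Y N Q' φ S →
    ∃ (κ' : Type) (_ : Fintype κ') (_ : DecidableEq κ') (S' : Dat j q Q κ' ι),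
      S'.Ω ⊆ S.Ω ∧ St (Y ^ C) N Q' φ S' ∧ ∀ t i, Gl S' t i

/-- the linear part becomes a multi-homomorphism -/
def TH : Prop :=
  ∀ j : ℕ, ∃ C : ℕ, ∀ (Y : ℝ) (q N Q Q' : ℕ) [Fact Q.Prime] (κ ι : Type) [Fintype κ]
    [DecidableEq κ] [Fintype ι] [DecidableEq ι] (φ : Pt (j + 1) q → ι → ZMod Q) (S : Dat j q Q κ ι),
    (C : ℝ) ≤ Y → 1 ≤ q → (q : ℝ) ≤ Y → Y ^ C ≤ Real.log N → N ≤ Q → St Y N Q' φ S →
    (∀ t i, Gl S t i) →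
    ∃ S' : Dat j q Q κ ι, S'.Ω ⊆ S.Ω ∧ St (Y ^ C) N Q' φ S' ∧ (∀ t i, Gl S' t i) ∧
      MH S'.θ S'.X

/-- the end of the step -/
def FIN (j : ℕ) : Prop :=
  ∃ C : ℕ, ∀ (Y : ℝ) (q N Q Q' : ℕ) [Fact Q.Prime] (κ ι : Type) [Fintype κ]
    [DecidableEq κ] [Fintype ι] [DecidableEq ι] (φ : Pt (j + 1) q → ι → ZMod Q) (S : Dat j q Q κ ι),
    (C : ℝ) ≤ Y → 1 ≤ q → (q : ℝ) ≤ Y → Y ^ C ≤ Real.log N → N ≤ Q → St Y N Q' φ S →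
    (∀ t i, Gl S t i) → MH S.θ S.X →
    ∃ (L : List (Cd (j + 1) q)) (Ω1 : Finset (Pt (j + 1) q)) (F : ι → Pt (j + 1) q → ℝ), Twr L ∧
      (L.length : ℝ) ≤ Y ^ C ∧ Ω1 ⊆ S.Ω ∧ Dn Ω1 N (Y ^ C) ∧ (∀ W ∈ Ω1, Cel L W) ∧
      (∀ a, Frm L univ (F a)) ∧ ∀ W ∈ Ω1, ∀ a, Rp Q (φ W a) (F a W)

end

end Vale.Agent.P057T.Gkh
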