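import Vale.Agent.P057T.Gkh.Defs

/-! Basic facts on forms and towers. -/

set_option linter.all false

open Finset
open scoped BigOperators

namespace Vale.Agent.P057T.Gkh

open Vale.Agent.P057Z Vale.Agent.P057L

noncomputable section

namespace FrmP

variable {j q : ℕ}

theorem congr' {L : List (Cd j q)} {t t' : Finset (Fin j)} {F G : Pt j q → ℝ} (h : Frm L t F)
    (ht : t = t') (e : ∀ W, F W = G W) : Frm L t' G := by
  have : F = G := funext e
  subst this; subst ht; exact h

theorem smul {L : List (Cd j q)} {t : Finset (Fin j)} {F : Pt j q → ℝ} (c : ℝ) (h : Frm L t F) :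
    Frm L t (fun W => c * F W) := by
  induction h with
  | cst t d => exact Frm.cst t (c * d)
  | add _ _ h1 h2 => exact congr' (Frm.add h1 h2) rfl (fun W => by ring)
  | ent i l hi _ h1 => exact congr' (Frm.ent i l hi h1) rfl (fun W => by ring)
  | brk p hp hd _ h1 => exact congr' (Frm.brk p hp hd h1) rfl (fun W => by ring)
  | mono ht _ h1 => exact Frm.mono ht h1

theorem sum {L : List (Cd j q)} {t : Finset (Fin j)} {α : Type} (s : Finset α)
    (F : α → Pt j q → ℝ) (h : ∀ a ∈ s, Frm L t (F a)) : Frm L t (fun W => ∑ a ∈ s, F a W) := by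
  classical
  induction s using Finset.induction_on with
  | empty => exact congr' (Frm.cst t 0) rfl (fun W => by simp)
  | insert a s ha ih =>
    exact congr' (Frm.add (h a (mem_insert_self _ _))
      (ih fun b hb => h b (mem_insert_of_mem hb))) rfl (fun W => by rw [sum_insert ha])

theorem wk {L L' : List (Cd j q)} {t : Finset (Fin j)} {F : Pt j q → ℝ} (hL : L ⊆ L')
    (h : Frm L t F) : Frm L' t F := by
  induction h with
  | cst t d => exact Frm.cst t d
  | add _ _ h1 h2 => exact Frm.add h1 h2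
  | ent i l hi _ h1 => exact Frm.ent i l hi h1
  | brk p hp hd _ h1 => exact Frm.brk p (hL hp) hd h1
  | mono ht _ h1 => exact Frm.mono ht h1

theorem app {L L' : List (Cd j q)} (h : Twr L) (h' : Twr L') : Twr (L ++ L') := by
  induction h with
  | nil => exact h'
  | cons _ hf ih => exact Twr.cons ih (wk (List.subset_append_left _ _) hf)

theorem many {L : List (Cd j q)} {α : Type} (s : List α) (t : α → Finset (Fin j))
    (P : α → Pt j q → ℝ) (h : Twr L) (hs : ∀ a ∈ s, Frm L (t a) (P a)) :
    Twr (s.map (fun a => (t a, P a)) ++ L) := by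
  induction s with
  | nil => exact h
  | cons a s ih =>
    exact Twr.cons (ih fun b hb => hs b (List.mem_cons_of_mem _ hb))
      (wk (List.subset_append_right _ _) (hs a List.mem_cons_self))

/-- depends only on the classes in t -/
def Dep (t : Finset (Fin j)) (F : Pt j q → ℝ) : Prop :=
  ∀ W W' : Pt j q, (∀ i ∈ t, W i = W' i) → F W = F W'

theorem depA {L : List (Cd j q)} (hL : ∀ p ∈ L, Dep p.1 p.2) {t : Finset (Fin j)}
    {F : Pt j q → ℝ} (h : Frm L t F) : Dep t F := by
  induction h with
  | cst t d => exact fun _ _ _ => rfl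
  | add _ _ h1 h2 =>
    intro W W' e
    show _ + _ = _ + _
    rw [h1 W W' e, h2 W W' e]
  | ent i l hi _ h1 =>
    intro W W' e
    show _ * _ = _ * _
    rw [h1 W W' (fun k hk => e k (mem_insert_of_mem hk)), e i (mem_insert_self _ _)]
  | brk p hp hd _ h1 =>
    intro W W' e
    show _ * _ = _ * _
    rw [h1 W W' (fun k hk => e k (mem_union_right _ hk)),
      hL p hp W W' (fun k hk => e k (mem_union_left _ hk))]
  | mono ht _ h1 => exact fun W W' e => h1 W W' (fun k hk => e k (ht hk))

theorem depB {L : List (Cd j q)} (h : Twr L) : ∀ p ∈ L, Dep p.1 p.2 := by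
  induction h with
  | nil => intro p hp; exact absurd hp List.not_mem_nil
  | cons _ hf ih =>
    intro p hp
    rcases List.mem_cons.1 hp with rfl | hp
    · exact depA ih hf
    · exact ih p hp

theorem Dep.upd {t : Finset (Fin j)} {F : Pt j q → ℝ} (h : Dep t F) {i : Fin j} (hi : i ∉ t)
    (W : Pt j q) (a : Vz q) : F (Function.update W i a) = F W :=
  h _ _ (fun k hk => Function.update_of_ne (fun (e : k = i) => hi (e ▸ hk)) _ _)

theorem mhC {L : List (Cd j q)} (hL : ∀ p ∈ L, Dep p.1 p.2) (S : Finset (Pt j q)) (i : Fin j)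
    (hr : ∀ p ∈ L, MHi (fun W => (round (p.2 W) : ℝ)) S i) {t : Finset (Fin j)}
    {F : Pt j q → ℝ} (h : Frm L t F) : MHi F S i := by
  induction h with
  | cst t d => exact fun _ _ _ _ _ _ => rfl
  | add _ _ h1 h2 =>
    intro W s t hs ht e
    rw [sum_add_distrib, sum_add_distrib, h1 W s t hs ht e, h2 W s t hs ht e]
  | ent k l hk hF h1 =>
    intro W s t hs ht e
    by_cases hki : k = i
    · subst hki
      have hd := depA hL hF
      have e1 : ∑ a, ((s a l : ℤ) : ℝ) = ∑ a, ((t a l : ℤ) : ℝ) := by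
        have := congrFun e l
        rw [Finset.sum_apply, Finset.sum_apply] at this
        exact_mod_cast this
      simp only [Function.update_self, hd.upd hk]
      rw [← sum_mul, ← sum_mul, e1]
    · simp only [Function.update_of_ne hki]
      rw [← mul_sum, ← mul_sum, h1 W s t hs ht e]
  | brk p hp hd hF h1 =>
    intro W s t hs ht e
    by_cases hi : i ∈ p.1
    · have hd' := depA hL hF
      simp only [hd'.upd (Finset.disjoint_left.1 hd hi)]
      rw [← sum_mul, ← sum_mul, hr p hp W s t hs ht e]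
    · simp only [(hL p hp).upd hi]
      rw [← mul_sum, ← mul_sum, h1 W s t hs ht e]
  | mono _ _ h1 => exact h1

theorem rnd6 (x y : Fin 6 → ℝ) (hx : ∀ a, |x a - round (x a)| ≤ 1 / 100)
    (hy : ∀ a, |y a - round (y a)| ≤ 1 / 100) (e : ∑ a, x a = ∑ a, y a) :
    ∑ a, (round (x a) : ℝ) = ∑ a, (round (y a) : ℝ) := by
  have h1 : |∑ a, (x a - round (x a))| ≤ 6 / 100 := by
    refine (abs_sum_le_sum_abs _ _).trans ((sum_le_sum fun a _ => hx a).trans ?_)
    simp; norm_num
  have h2 : |∑ a, (y a - round (y a))| ≤ 6 / 100 := by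
    refine (abs_sum_le_sum_abs _ _).trans ((sum_le_sum fun a _ => hy a).trans ?_)
    simp; norm_num
  rw [sum_sub_distrib] at h1 h2
  have h3 : |((∑ a, round (x a) - ∑ a, round (y a) : ℤ) : ℝ)| < 1 := by
    push_cast
    rw [abs_le] at h1 h2
    rw [abs_lt]
    constructor <;> linarith [h1.1, h1.2, h2.1, h2.2]
  have h4 : |∑ a, round (x a) - ∑ a, round (y a)| < 1 := by exact_mod_cast h3
  have h5 : ∑ a, round (x a) = ∑ a, round (y a) := by
    have := Int.abs_lt_one_iff.1 h4
    omega
  exact_mod_cast h5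

theorem mhD {L : List (Cd j q)} (h : Twr L) (S : Finset (Pt j q)) (i : Fin j)
    (hS : ∀ W ∈ S, Cel L W) : ∀ p ∈ L, MHi (fun W => (round (p.2 W) : ℝ)) S i := by
  induction h with
  | nil => intro p hp; exact absurd hp List.not_mem_nil
  | cons hT hf ih =>
    have ih' := ih (fun W hW p hp => hS W hW p (List.mem_cons_of_mem _ hp))
    intro p hp
    rcases List.mem_cons.1 hp with rfl | hp'
    · intro W s t hs ht e
      exact rnd6 _ _ (fun a => hS _ (hs a) _ hp) (fun a => hS _ (ht a) _ hp)
        (mhC (depB hT) S i ih' hf W s t hs ht e)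
    · exact ih' p hp'

theorem cpF {L : List (Cd j q)} {t : Finset (Fin j)} {F : Pt j q → ℝ} (J : Finset (Fin j))
    (w : Pt j q) (h : Frm L t F) : Frm (cp J w L) (t ∩ J) (fun x => F (sb J w x)) := by
  induction h with
  | cst t d => exact Frm.cst _ d
  | add _ _ h1 h2 => exact Frm.add h1 h2
  | ent i l hi _ h1 =>
    by_cases hJ : i ∈ J
    · refine congr' (Frm.ent i l (fun hh => hi (mem_inter.1 hh).1) h1)
        (Finset.insert_inter_of_mem hJ).symm (fun W => ?_)
      simp only [sb, if_pos hJ]
    · refine congr' (smul (w i l : ℝ) h1) (Finset.insert_inter_of_notMem hJ).symm (fun W => ?_)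
      simp only [sb, if_neg hJ]
  | brk p hp hd _ h1 =>
    refine congr' (Frm.brk (p.1 ∩ J, fun x => p.2 (sb J w x)) (List.mem_map.2 ⟨p, hp, rfl⟩)
      (hd.mono inter_subset_left inter_subset_left) h1) (union_inter_distrib_right _ _ _).symm
      (fun W => rfl)
  | mono ht _ h1 => exact Frm.mono (inter_subset_inter_right ht) h1

theorem cpT {L : List (Cd j q)} (J : Finset (Fin j)) (w : Pt j q) (h : Twr L) :
    Twr (cp J w L) := by
  induction h with
  | nil => exact Twr.nil
  | cons _ hf ih => exact Twr.cons ih (cpF J w hf)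

theorem tlF {L : List (Cd j q)} {t : Finset (Fin j)} {F : Pt j q → ℝ} (h : Frm L t F) :
    Frm (tl L) (t.map (Fin.succEmb j)) (fun W => F (Fin.tail W)) := by
  induction h with
  | cst t d => exact Frm.cst _ d
  | add _ _ h1 h2 => exact Frm.add h1 h2
  | ent i l hi _ h1 =>
    exact congr' (Frm.ent (Fin.succEmb j i) l (fun hh => hi ((Finset.mem_map' _).1 hh)) h1)
      (Finset.map_insert _ _ _).symm (fun W => rfl)
  | brk p hp hd _ h1 =>
    exact congr' (Frm.brk (p.1.map (Fin.succEmb j), fun W => p.2 (Fin.tail W))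
      (List.mem_map.2 ⟨p, hp, rfl⟩) ((Finset.disjoint_map _).2 hd) h1)
      (Finset.map_union _ _).symm (fun W => rfl)
  | mono ht _ h1 => exact Frm.mono (Finset.map_subset_map.2 ht) h1

theorem tlT {L : List (Cd j q)} (h : Twr L) : Twr (tl L) := by
  induction h with
  | nil => exact Twr.nil
  | cons _ hf ih => exact Twr.cons ih (tlF hf)

end FrmP

theorem frm : FRM := fun j q =>
  ⟨fun _ _ _ c h => FrmP.smul c h, fun _ _ _ s F h => FrmP.sum s F h,
    fun _ _ _ _ hL h => FrmP.wk hL h, fun _ _ h h' => FrmP.app h h',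
    fun _ _ s t P h hs => FrmP.many s t P h hs,
    fun _ _ _ W W' hT h e => FrmP.depA (FrmP.depB hT) h W W' e,
    fun _ _ _ S hT h hS i => FrmP.mhC (FrmP.depB hT) S i (FrmP.mhD hT S i hS) h,
    fun _ J w h => FrmP.cpT J w h, fun _ _ _ J w h => FrmP.cpF J w h,
    fun _ h => FrmP.tlT h, fun _ _ _ h => FrmP.tlF h⟩

end

end Vale.Agent.P057T.Gkh
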