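import Vale.Agent.P057L.Defs

/-! Popular base vertex of cubes in a dense subset of a product, and alternating sums. -/

set_option linter.all false

open Finset
open scoped BigOperators

namespace Vale.Agent.P057T.Cube

variable {j : ℕ} {α : Type} [DecidableEq α]

theorem upd_mem {B : Finset α} {y : Fin j → α} (hy : y ∈ Fintype.piFinset fun _ : Fin j => B)
    (i : Fin j) {a : α} (ha : a ∈ B) :
    Function.update y i a ∈ Fintype.piFinset fun _ : Fin j => B := by
  rw [Fintype.mem_piFinset] at hy ⊢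
  intro l
  by_cases h : l = i
  · subst h; simpa using ha
  · rw [Function.update_of_ne h]; exact hy l

theorem sum_upd (B : Finset α) (i : Fin j) (f : (Fin j → α) → ℝ) :
    ∑ y ∈ Fintype.piFinset (fun _ : Fin j => B), ∑ a ∈ B, f (Function.update y i a) =
      (B.card : ℝ) * ∑ x ∈ Fintype.piFinset (fun _ : Fin j => B), f x := by
  have h1 : (B.card : ℝ) * ∑ x ∈ Fintype.piFinset (fun _ : Fin j => B), f x =
      ∑ x ∈ Fintype.piFinset (fun _ : Fin j => B), ∑ _a ∈ B, f x := by
    rw [mul_sum]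
    refine sum_congr rfl fun x _ => ?_
    rw [sum_const, nsmul_eq_mul]
  rw [h1, ← sum_product', ← sum_product']
  refine sum_nbij' (fun p => (Function.update p.1 i p.2, p.1 i))
    (fun p => (Function.update p.1 i p.2, p.1 i)) ?_ ?_ ?_ ?_ ?_
  · intro p hp
    rw [mem_product] at hp ⊢
    exact ⟨upd_mem hp.1 i hp.2, Fintype.mem_piFinset.1 hp.1 i⟩
  · intro p hp
    rw [mem_product] at hp ⊢
    exact ⟨upd_mem hp.1 i hp.2, Fintype.mem_piFinset.1 hp.1 i⟩
  · intro p _
    simp
  · intro p _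
    simp
  · intro p _
    rfl

/-- one Cauchy-Schwarz step -/
theorem step (B : Finset α) (hB : B.Nonempty) (i : Fin j) (X : Finset (Fin j → α))
    (hX : X ⊆ Fintype.piFinset fun _ : Fin j => B) :
    ∃ a ∈ B, (X.card : ℝ) ^ 2 ≤
      (B.card : ℝ) ^ j * (X.filter fun x => Function.update x i a ∈ X).card := by
  let P := Fintype.piFinset fun _ : Fin j => B
  let u : (Fin j → α) → ℝ := fun x => if x ∈ X then 1 else 0
  let c : (Fin j → α) → ℝ := fun y => ∑ a ∈ B, u (Function.update y i a)
  have hP : (P.card : ℝ) = (B.card : ℝ) ^ j := by simp [P]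
  have hu : ∀ g : (Fin j → α) → ℝ, ∑ x ∈ P, u x * g x = ∑ x ∈ X, g x := by
    intro g
    rw [← sum_subset hX (f := fun x => u x * g x)]
    · refine sum_congr rfl fun x hx => ?_
      simp [u, hx]
    · intro x _ hx
      simp [u, hx]
  have h1 : ∑ y ∈ P, c y = (B.card : ℝ) * X.card := by
    have := sum_upd B i u
    have h2 := hu fun _ => 1
    simp only [mul_one, sum_const, nsmul_eq_mul] at h2
    rw [← h2]
    exact this
  have h2 : ∑ y ∈ P, c y ^ 2 = (B.card : ℝ) * ∑ x ∈ X, c x := by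
    rw [← hu c, ← sum_upd B i fun x => u x * c x]
    refine sum_congr rfl fun y _ => ?_
    have : ∀ a, c (Function.update y i a) = c y := by
      intro a
      simp only [c, Function.update_idem]
    simp only [this]
    rw [← sum_mul, sq]
  have h3 : ∑ x ∈ X, c x = ∑ a ∈ B, ((X.filter fun x => Function.update x i a ∈ X).card : ℝ) := by
    simp only [c]
    rw [sum_comm]
    refine sum_congr rfl fun a _ => ?_
    simp only [u]
    rw [sum_boole]
  have h4 : (∑ y ∈ P, c y) ^ 2 ≤ P.card * ∑ y ∈ P, c y ^ 2 := sq_sum_le_card_mul_sum_sq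
  rw [h1, h2, h3, hP] at h4
  have hb : (0 : ℝ) < B.card := by exact_mod_cast hB.card_pos
  apply exists_le_of_sum_le hB
  rw [sum_const, nsmul_eq_mul, ← mul_sum]
  refine le_of_mul_le_mul_left ?_ hb
  calc (B.card : ℝ) * (B.card * (X.card : ℝ) ^ 2) = (B.card * X.card) ^ 2 := by ring
    _ ≤ _ := h4
    _ = _ := by ring

theorem pw_ins (i : Fin j) (J : Finset (Fin j)) (x0 x : Fin j → α) :
    (insert i J).piecewise x0 x = Function.update (J.piecewise x0 x) i (x0 i) :=
  piecewise_insert _ _ _ _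

theorem pw_upd (i : Fin j) (J : Finset (Fin j)) (hi : i ∉ J) (x0 x : Fin j → α) (a : α) :
    J.piecewise (Function.update x0 i a) x = J.piecewise x0 x := by
  funext l
  by_cases h : l ∈ J
  · rw [piecewise_eq_of_mem _ _ _ h, piecewise_eq_of_mem _ _ _ h, Function.update_of_ne]
    rintro rfl
    exact hi h
  · rw [piecewise_eq_of_notMem _ _ _ h, piecewise_eq_of_notMem _ _ _ h]

/-- a popular base vertex: all hybrids of x with x0 along subsets of I lie in X -/
theorem cube (B : Finset α) (hB : B.Nonempty) (I : Finset (Fin j)) :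
    ∀ (X : Finset (Fin j → α)) (δ : ℝ), (X ⊆ Fintype.piFinset fun _ : Fin j => B) → 0 ≤ δ →
      δ * (B.card : ℝ) ^ j ≤ X.card →
      ∃ x0 ∈ Fintype.piFinset fun _ : Fin j => B, ∃ X1 ⊆ X,
        δ ^ (2 ^ I.card) * (B.card : ℝ) ^ j ≤ X1.card ∧
        ∀ x ∈ X1, ∀ J ⊆ I, J.piecewise x0 x ∈ X := by
  induction I using Finset.induction_on with
  | empty =>
    intro X δ hX h0 h
    obtain ⟨b, hb⟩ := hB
    refine ⟨fun _ => b, Fintype.mem_piFinset.2 fun _ => hb, X, Subset.rfl, by simpa using h, ?_⟩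
    intro x hx J hJ
    rw [subset_empty.1 hJ]
    simpa using hx
  | insert i I hi ih =>
    intro X δ hX h0 h
    obtain ⟨a, ha, h1⟩ := step B hB i X hX
    have hb : (0 : ℝ) < (B.card : ℝ) ^ j := by
      have : (0 : ℝ) < B.card := by exact_mod_cast hB.card_pos
      positivity
    have h2 : δ ^ 2 * (B.card : ℝ) ^ j ≤ (X.filter fun x => Function.update x i a ∈ X).card := by
      refine le_of_mul_le_mul_left ?_ hb
      calc (B.card : ℝ) ^ j * (δ ^ 2 * (B.card : ℝ) ^ j) = (δ * (B.card : ℝ) ^ j) ^ 2 := by ring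
        _ ≤ (X.card : ℝ) ^ 2 := pow_le_pow_left₀ (by positivity) h 2
        _ ≤ _ := h1
    obtain ⟨x0, hx0, X1, hX1, h3, h4⟩ :=
      ih _ (δ ^ 2) ((filter_subset _ _).trans hX) (by positivity) h2
    refine ⟨Function.update x0 i a, upd_mem hx0 i ha, X1, hX1.trans (filter_subset _ _), ?_, ?_⟩
    · rw [card_insert_of_notMem hi, pow_succ', pow_mul]
      exact h3
    · intro x hx J hJ
      have hJ' : J.erase i ⊆ I := by
        intro l hl
        rcases mem_insert.1 (hJ (mem_of_mem_erase hl)) with h | h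
        · exact absurd h (ne_of_mem_erase hl)
        · exact h
      have h5 := mem_filter.1 (h4 x hx _ hJ')
      by_cases hiJ : i ∈ J
      · rw [← insert_erase hiJ, pw_ins, pw_upd i _ (notMem_erase i J), Function.update_self]
        exact h5.2
      · rw [pw_upd i _ hiJ]
        rw [erase_eq_of_notMem hiJ] at h5
        exact h5.1

/-- the alternating sum kills a function which ignores one class of I -/
theorem alt {H : Type} [AddCommGroup H] (I : Finset (Fin j)) (i : Fin j) (hi : i ∈ I)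
    (g : (Fin j → α) → H) (hg : ∀ x a, g (Function.update x i a) = g x) (x0 x : Fin j → α) :
    ∑ J ∈ I.powerset, (-1 : ℤ) ^ J.card • g (J.piecewise x0 x) = 0 := by
  rw [← insert_erase hi, sum_powerset_insert (notMem_erase i I), ← sum_add_distrib]
  refine sum_eq_zero fun J hJ => ?_
  have hiJ : i ∉ J := fun h => notMem_erase i I (mem_powerset.1 hJ h)
  rw [pw_ins, hg, card_insert_of_notMem hiJ, pow_succ, mul_smul]
  simp

/-- the same for a finite family of functions, each ignoring some class of I -/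
theorem alt_sum {H κ : Type} [AddCommGroup H] (I : Finset (Fin j)) (S : Finset κ)
    (g : κ → (Fin j → α) → H)
    (hg : ∀ r ∈ S, ∃ i ∈ I, ∀ x a, g r (Function.update x i a) = g r x) (x0 x : Fin j → α) :
    ∑ J ∈ I.powerset, (-1 : ℤ) ^ J.card • ∑ r ∈ S, g r (J.piecewise x0 x) = 0 := by
  simp only [smul_sum]
  rw [sum_comm]
  refine sum_eq_zero fun r hr => ?_
  obtain ⟨i, hi, h⟩ := hg r hr
  exact alt I i hi (g r) h x0 x

/-- the vertex x is expressed by the other vertices -/
theorem alt_split {H : Type} [AddCommGroup H] (I : Finset (Fin j)) (F : (Fin j → α) → H)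
    (x0 x : Fin j → α) :
    ∑ J ∈ I.powerset, (-1 : ℤ) ^ J.card • F (J.piecewise x0 x) =
      F x + ∑ J ∈ I.powerset.erase ∅, (-1 : ℤ) ^ J.card • F (J.piecewise x0 x) := by
  rw [← add_sum_erase _ _ (empty_mem_powerset I)]
  simp

/-- substitution identity: if F plus functions missing a class of I is an integer up to e on X,
then F at x is the signed sum of F at the other vertices plus an integer, up to 2^|I| e -/
theorem subst {κ : Type} (I : Finset (Fin j)) (S : Finset κ) (F : (Fin j → α) → ℝ)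
    (g : κ → (Fin j → α) → ℝ) (n : (Fin j → α) → ℤ) (e : ℝ) (X : Finset (Fin j → α))
    (hg : ∀ r ∈ S, ∃ i ∈ I, ∀ x a, g r (Function.update x i a) = g r x)
    (h : ∀ x ∈ X, |F x + ∑ r ∈ S, g r x + n x| ≤ e) (x0 x : Fin j → α)
    (hx : ∀ J ⊆ I, J.piecewise x0 x ∈ X) :
    |F x + ∑ J ∈ I.powerset.erase ∅, (-1 : ℤ) ^ J.card • F (J.piecewise x0 x) +
      ((∑ J ∈ I.powerset, (-1 : ℤ) ^ J.card * n (J.piecewise x0 x) : ℤ) : ℝ)| ≤
      2 ^ I.card * e := by
  have h1 := alt_sum I S g hg x0 x
  rw [← alt_split I F x0 x]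
  have h2 : ∑ J ∈ I.powerset, (-1 : ℤ) ^ J.card • F (J.piecewise x0 x) +
      ((∑ J ∈ I.powerset, (-1 : ℤ) ^ J.card * n (J.piecewise x0 x) : ℤ) : ℝ) =
      ∑ J ∈ I.powerset, (-1 : ℝ) ^ J.card * (F (J.piecewise x0 x) +
        ∑ r ∈ S, g r (J.piecewise x0 x) + n (J.piecewise x0 x)) := by
    simp only [mul_add, sum_add_distrib]
    simp only [zsmul_eq_mul, Int.cast_pow, Int.cast_neg, Int.cast_one] at h1 ⊢
    rw [h1]
    push_cast
    ring
  rw [h2]
  refine (abs_sum_le_sum_abs _ _).trans ?_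
  refine (sum_le_card_nsmul _ _ e fun J hJ => ?_).trans ?_
  · rw [abs_mul, abs_pow, abs_neg, abs_one, one_pow, one_mul]
    exact h _ (hx J (mem_powerset.1 hJ))
  · rw [card_powerset, nsmul_eq_mul]
    push_cast
    exact le_rfl

end Vale.Agent.P057T.Cube
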