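import Vale.Agent.P057T.Gkh.Defs

/-! Fixed relations on many parallelograms. -/

set_option linter.all false

open Finset
open scoped BigOperators

namespace Vale.Agent.P057T.Gkh

open Vale.Agent.P057Z Vale.Agent.P057L

noncomputable section

namespace RqAux

theorem pigeon {α β : Type} [DecidableEq β] (s : Finset α) (t : Finset β) (f : α → β)
    (ht : t.Nonempty) (hf : ∀ a ∈ s, f a ∈ t) :
    ∃ y ∈ t, s.card ≤ t.card * (s.filter fun a => f a = y).card := by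
  obtain ⟨y, hy, hm⟩ := exists_max_image t (fun y => (s.filter fun a => f a = y).card) ht
  refine ⟨y, hy, ?_⟩
  rw [card_eq_sum_card_fiberwise (f := f) (s := s) (t := t) (fun a ha => hf a ha)]
  exact (sum_le_card_nsmul _ _ _ hm).trans (le_of_eq (smul_eq_mul _ _))

theorem cardprod {α β : Type} (s : Finset α) (t : Finset β) (P : α → β → Prop)
    [∀ a b, Decidable (P a b)] (c : ℝ) (h : ∀ a ∈ s, c ≤ (t.filter fun b => P a b).card) :
    s.card * c ≤ ((s ×ˢ t).filter fun u => P u.1 u.2).card := by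
  have e : ((s ×ˢ t).filter fun u => P u.1 u.2).card =
      ∑ a ∈ s, (t.filter fun b => P a b).card := by
    rw [card_filter, sum_product]
    exact sum_congr rfl fun a _ => (card_filter _ _).symm
  rw [e]
  push_cast
  calc (s.card : ℝ) * c = ∑ _a ∈ s, c := by rw [sum_const, nsmul_eq_mul]
    _ ≤ _ := sum_le_sum h

theorem tail_mem {j q N : ℕ} {y : Vz q} {x : Pt j q} (h : cn y x ∈ bp (j + 1) q N) :
    x ∈ bp j q N := by
  unfold bp at h ⊢
  rw [Fintype.mem_piFinset] at h ⊢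
  intro i
  have := h i.succ
  simpa [cn] using this

theorem mem_fb {j q N : ℕ} {Ω : Finset (Pt (j + 1) q)} {x : Pt j q} {y : Vz q} :
    y ∈ fb Ω N x ↔ y ∈ bz q N ∧ cn y x ∈ Ω := by
  unfold fb
  rw [mem_filter]

theorem count (n : ℕ) (E W : ℝ) (hE : 1 ≤ E) (hW : 3 ≤ W) (hn : (n : ℝ) ≤ W) :
    ((((2 * ⌊Real.exp E⌋₊ + 1) ^ n) ^ n : ℕ) : ℝ) ≤ Real.exp (E * W ^ 3) := by
  have h1 : (⌊Real.exp E⌋₊ : ℝ) ≤ Real.exp E := Nat.floor_le (Real.exp_pos _).le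
  have h2 : (1 : ℝ) ≤ Real.exp E := Real.one_le_exp (by linarith)
  have h3 : (3 : ℝ) ≤ Real.exp 2 := by
    have := Real.add_one_le_exp (2 : ℝ); linarith
  have h4 : (2 * (⌊Real.exp E⌋₊ : ℝ) + 1) ≤ Real.exp (E + 2) := by
    rw [Real.exp_add]; nlinarith
  have h0 : (0 : ℝ) ≤ n := Nat.cast_nonneg _
  push_cast
  calc ((2 * (⌊Real.exp E⌋₊ : ℝ) + 1) ^ n) ^ n ≤ ((Real.exp (E + 2)) ^ n) ^ n := by
        gcongr
    _ = Real.exp (n * (n * (E + 2))) := by rw [Real.exp_nat_mul, Real.exp_nat_mul]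
    _ ≤ _ := by
        apply Real.exp_le_exp.2
        have a1 : E + 2 ≤ E * W := by nlinarith
        have a2 : (n : ℝ) * (n * (E + 2)) ≤ W * (W * (E * W)) := by gcongr
        calc _ ≤ _ := a2
          _ = _ := by ring

end RqAux

open RqAux

open Classical in
theorem rq (hP : POOR) (hA : PAR) (hD : QD) : RQ := by
  intro j
  obtain ⟨C1, hC1⟩ := hP j
  obtain ⟨C2, hC2⟩ := hD
  refine ⟨(C1 + 2) * (C2 + 4), ?_⟩
  intro Y q N Q Q' _ _ κ ι _ _ _ _ φ S i hC hq1 hq hN hQ hQ' hS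
  have c1 : (0 : ℝ) ≤ C1 := Nat.cast_nonneg _
  have c2 : (0 : ℝ) ≤ C2 := Nat.cast_nonneg _
  push_cast at hC
  have hY3 : 3 ≤ Y := by nlinarith [mul_nonneg c1 c2]
  have hY1 : (C1 : ℝ) ≤ Y := by nlinarith [mul_nonneg c1 c2]
  have hY2 : (C2 : ℝ) ≤ Y := by nlinarith [mul_nonneg c1 c2]
  have h1Y : (1 : ℝ) ≤ Y := by linarith
  set W : ℝ := Y ^ (C1 + 2) with hW
  have hWC : Y ^ ((C1 + 2) * (C2 + 4)) = W ^ (C2 + 4) := pow_mul _ _ _
  rw [hWC] at hN ⊢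
  have hP1 : (1 : ℝ) ≤ Y ^ C1 := one_le_pow₀ h1Y
  have hWe : W = Y ^ C1 * (Y * Y) := by rw [hW]; ring
  have hYY : 3 * Y ≤ Y * Y := by nlinarith
  have hW3Y : 3 * Y ≤ W := by rw [hWe]; nlinarith
  have hWP : Y ^ C1 ≤ W := by rw [hWe]; nlinarith
  have hW3 : 3 ≤ W := by linarith
  have h1W : (1 : ℝ) ≤ W := by linarith
  have hE1 : (1 : ℝ) ≤ W ^ C2 := one_le_pow₀ h1W
  have hEC : W ^ C2 ≤ W ^ (C2 + 4) := pow_le_pow_right₀ h1W (by omega)
  have hWC' : W ≤ W ^ (C2 + 4) := by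
    calc W = W ^ 1 := (pow_one _).symm
      _ ≤ _ := pow_le_pow_right₀ h1W (by omega)
  have hN1 : 1 ≤ N := by
    rcases Nat.eq_zero_or_pos N with h | h
    · subst h; simp at hN; linarith
    · exact h
  have hNp : (0 : ℝ) < N := by exact_mod_cast hN1
  obtain ⟨X0, hX0, hX⟩ := hC1 Y q N S.Ω hY1 hq hN1 hS.dn
  let Z : Pt j q → Vz q × Vz q → Finset (Vz q) := fun x p =>
    fb S.Ω N x ∩ fb S.Ω N (x + ev i p.1) ∩ fb S.Ω N (x + ev i p.2) ∩
      fb S.Ω N (x + ev i p.1 + ev i p.2)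
  let U0 : Finset (Pt j q × Vz q × Vz q) := (X0 ×ˢ sz q N ×ˢ sz q N).filter fun u =>
    Real.exp (-Y ^ C1) * (N : ℝ) ^ q ≤ (Z u.1 u.2).card
  have hU0 : (X0.card : ℝ) * (Real.exp (-Y ^ C1) * (N : ℝ) ^ (2 * q)) ≤ U0.card :=
    cardprod X0 (sz q N ×ˢ sz q N) (fun x p => Real.exp (-Y ^ C1) * (N : ℝ) ^ q ≤ (Z x p).card) _
      (fun x hx => (hX x hx).2 i)
  have hZ : ∀ x p y, y ∈ Z x p → y ∈ bz q N ∧ cn y x ∈ S.Ω ∧ cn y (x + ev i p.1) ∈ S.Ω ∧
      cn y (x + ev i p.2) ∈ S.Ω ∧ cn y (x + ev i p.1 + ev i p.2) ∈ S.Ω := by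
    intro x p y hy
    simp only [Z, mem_inter, mem_fb] at hy
    exact ⟨hy.1.1.1.1, hy.1.1.1.2, hy.1.1.2.2, hy.1.2.2, hy.2.2⟩
  have hne : ∀ u ∈ U0, (Z u.1 u.2).Nonempty := by
    intro u hu
    have h := (mem_filter.1 hu).2
    have : (0 : ℝ) < (Z u.1 u.2).card := lt_of_lt_of_le (by positivity) h
    exact card_pos.1 (by exact_mod_cast this)
  have key : ∀ u : Pt j q × Vz q × Vz q, ∃ b : Fin 3 × κ → Fin 3 × κ → ℤ, u ∈ U0 →
      (∀ a r, |(b a r : ℝ)| ≤ Real.exp (W ^ C2)) ∧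
      (∀ a l, ∃ n : ℤ, |∑ r, (b a r : ℝ) * fq S i u.1 u.2.1 u.2.2 r l - n| ≤
        Real.exp (W ^ C2) / N) ∧
      ∀ v : Fin 3 × κ → ℤ, (∀ r, (v r : ℝ) ^ 2 * Real.exp (W ^ C2) ≤ N) →
        (∀ a, b a ⬝ᵥ v = 0) → zd v (tau S i u.1 u.2.1 u.2.2) = 0 := by
    intro u
    by_cases hu : u ∈ U0
    swap
    · exact ⟨0, fun h => absurd h hu⟩
    obtain ⟨x, a, b⟩ := u
    obtain ⟨y0, hy0⟩ := hne _ hu
    obtain ⟨-, g1, g2, g3, -⟩ := hZ _ _ _ hy0
    have hd := (mem_filter.1 hu).2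
    obtain ⟨b0, hb0⟩ := hC2 W q N Q Q' (Fin 3 × κ) ι (fq S i x a b) (Z x (a, b))
      (S.θ x - S.θ (x + ev i a) - S.θ (x + ev i b) + S.θ (x + ev i a + ev i b)) (tau S i x a b)
      (by linarith) (by linarith)
      (by rw [Fintype.card_prod, Fintype.card_fin]; push_cast; linarith [hS.hR])
      (hEC.trans hN) hQ hQ'
      (by
        rintro ⟨s, r⟩ l
        fin_cases s
        · exact hS.rat _ (hS.hX _ _ g1) r l
        · exact hS.rat _ (hS.hX _ _ g2) r l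
        · exact hS.rat _ (hS.hX _ _ g3) r l)
      (fun y hy => (hZ _ _ _ hy).1)
      (le_trans (by gcongr) hd)
      (by
        intro y hy y' hy'
        obtain ⟨-, k1, k2, k3, k4⟩ := hZ _ _ _ hy
        obtain ⟨-, k1', k2', k3', k4'⟩ := hZ _ _ _ hy'
        refine ⟨?_, ?_⟩
        · rintro ⟨s, r⟩
          fin_cases s
          · exact hS.arc _ _ _ k1 k1' r
          · exact hS.arc _ _ _ k2 k2' r
          · exact hS.arc _ _ _ k3 k3' r
        · refine hA j q N Q Q' κ ι Y φ S i x a b y y' hS ?_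
          rintro u (rfl | rfl)
          · exact ⟨k1, k2, k3, k4⟩
          · exact ⟨k1', k2', k3', k4'⟩)
    exact ⟨b0, fun _ => hb0⟩
  choose B hB using key
  let M : ℕ := ⌊Real.exp (W ^ C2)⌋₊
  let T : Finset (Fin 3 × κ → Fin 3 × κ → ℤ) :=
    Fintype.piFinset fun _ => Fintype.piFinset fun _ => Icc (-(M : ℤ)) M
  have hT : T.card = ((2 * M + 1) ^ Fintype.card (Fin 3 × κ)) ^ Fintype.card (Fin 3 × κ) := by
    simp only [T, Fintype.card_piFinset, prod_const, card_univ, Int.card_Icc]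
    congr 2
    omega
  have hTn : T.Nonempty := ⟨0, by simp [T]⟩
  have hBT : ∀ u ∈ U0, B u ∈ T := by
    intro u hu
    simp only [T, Fintype.mem_piFinset, mem_Icc]
    intro a r
    have h := (hB u hu).1 a r
    have h' : ((B u a r).natAbs : ℝ) ≤ Real.exp (W ^ C2) := by
      rw [Nat.cast_natAbs]; push_cast; exact h
    have h'' : (B u a r).natAbs ≤ M := Nat.le_floor h'
    omega
  obtain ⟨b, hbT, hb⟩ := pigeon U0 T B hTn hBT
  have hTc : (T.card : ℝ) ≤ Real.exp (W ^ C2 * W ^ 3) := by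
    rw [hT]
    exact count _ _ _ hE1 hW3
      (by rw [Fintype.card_prod, Fintype.card_fin]; push_cast; linarith [hS.hR])
  have hee : Real.exp (W ^ C2) ≤ Real.exp (W ^ (C2 + 4)) := Real.exp_le_exp.2 hEC
  refine ⟨b, U0.filter fun u => B u = b, ?_, ?_, ?_, ?_⟩
  · intro a r
    simp only [T, Fintype.mem_piFinset, mem_Icc] at hbT
    have h := hbT a r
    have h' : |(b a r : ℝ)| ≤ (M : ℝ) := by
      rw [abs_le]; exact_mod_cast h
    exact h'.trans ((Nat.floor_le (Real.exp_pos _).le).trans hee)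
  · intro u hu
    have h := (mem_filter.1 (mem_filter.1 hu).1).1
    rw [mem_product] at h ⊢
    exact ⟨hX0.1 h.1, h.2⟩
  · have hb' : (U0.card : ℝ) ≤ Real.exp (W ^ C2 * W ^ 3) * (U0.filter fun u => B u = b).card :=
      le_trans (by exact_mod_cast hb) (mul_le_mul_of_nonneg_right hTc (Nat.cast_nonneg _))
    have h1 : Real.exp (-Y ^ C1) * (N : ℝ) ^ (j * q) * (Real.exp (-Y ^ C1) * (N : ℝ) ^ (2 * q)) ≤
        U0.card := le_trans (mul_le_mul_of_nonneg_right hX0.2 (by positivity)) hU0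
    have h2 : W ^ C2 * W ^ 3 + 2 * Y ^ C1 ≤ W ^ (C2 + 4) := by
      have e : W ^ (C2 + 4) = W ^ C2 * W ^ 3 * W := by ring
      have e3 : W ≤ W ^ 3 := by
        calc W = W ^ 1 := (pow_one _).symm
          _ ≤ _ := pow_le_pow_right₀ h1W (by omega)
      have e4 : W ≤ W ^ C2 * W ^ 3 := by nlinarith
      rw [e]; nlinarith
    have h3 : Real.exp (W ^ C2 * W ^ 3) * Real.exp (-W ^ (C2 + 4)) ≤
        Real.exp (-Y ^ C1) * Real.exp (-Y ^ C1) := by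
      rw [← Real.exp_add, ← Real.exp_add]; exact Real.exp_le_exp.2 (by linarith)
    refine le_of_mul_le_mul_left (a := Real.exp (W ^ C2 * W ^ 3)) ?_ (Real.exp_pos _)
    refine le_trans ?_ (h1.trans hb')
    calc _ = (Real.exp (W ^ C2 * W ^ 3) * Real.exp (-W ^ (C2 + 4))) * (N : ℝ) ^ (j * q + 2 * q) := by
          ring
      _ ≤ (Real.exp (-Y ^ C1) * Real.exp (-Y ^ C1)) * (N : ℝ) ^ (j * q + 2 * q) := by gcongr
      _ = _ := by ring
  · intro u hu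
    obtain ⟨hu0, rfl⟩ := mem_filter.1 hu
    obtain ⟨-, k2, k3⟩ := hB u hu0
    obtain ⟨y0, hy0⟩ := hne _ hu0
    obtain ⟨-, g1, g2, g3, g4⟩ := hZ _ _ _ hy0
    have hd : Real.exp (-W ^ (C2 + 4)) * (N : ℝ) ^ q ≤ (Z u.1 u.2).card :=
      le_trans (by gcongr; linarith) (mem_filter.1 hu0).2
    have hs : ∀ F : Finset (Vz q), Z u.1 u.2 ⊆ F →
        Real.exp (-W ^ (C2 + 4)) * (N : ℝ) ^ q ≤ F.card := fun F hF =>
      hd.trans (by exact_mod_cast card_le_card hF)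
    refine ⟨?_, ?_, ?_⟩
    · rintro x' (rfl | rfl | rfl | rfl)
      · exact ⟨hS.hX _ _ g1, tail_mem (hS.dn.1 g1),
          hs _ fun y hy => mem_fb.2 ⟨(hZ _ _ _ hy).1, (hZ _ _ _ hy).2.1⟩⟩
      · exact ⟨hS.hX _ _ g2, tail_mem (hS.dn.1 g2),
          hs _ fun y hy => mem_fb.2 ⟨(hZ _ _ _ hy).1, (hZ _ _ _ hy).2.2.1⟩⟩
      · exact ⟨hS.hX _ _ g3, tail_mem (hS.dn.1 g3),
          hs _ fun y hy => mem_fb.2 ⟨(hZ _ _ _ hy).1, (hZ _ _ _ hy).2.2.2.1⟩⟩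
      · exact ⟨hS.hX _ _ g4, tail_mem (hS.dn.1 g4),
          hs _ fun y hy => mem_fb.2 ⟨(hZ _ _ _ hy).1, (hZ _ _ _ hy).2.2.2.2⟩⟩
    · intro a l
      obtain ⟨n, hn⟩ := k2 a l
      exact ⟨n, hn.trans (by gcongr)⟩
    · intro v hv hv'
      exact k3 v (fun r => le_trans (by gcongr) (hv r)) hv'

end

end Vale.Agent.P057T.Gkh
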