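import Vale.Agent.P057L.Fact
import Vale.Agent.P057L.Crq

/-! Linear algebra of short integer vectors, tensored with a vector space over a prime field. -/

set_option linter.all false

open Finset
open scoped BigOperators

namespace Vale.Agent.P057T.Lin

open Vale.Agent.P057L

variable {κ α : Type} [Fintype κ] [DecidableEq κ] [Fintype α]

/-- c lies in the span of the family f tensored with H -/
def Sp {H : Type} [AddCommGroup H] (f : α → κ → ℤ) (c : κ → H) : Prop :=
  ∃ h : α → H, ∀ r, c r = ∑ a, f a r • h a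

theorem crqR {Y : ℝ} (f : α → κ → ℤ) (hY : 4 ≤ Y) (hR : (Fintype.card κ : ℝ) ≤ Y)
    (hf : ∀ a r, |(f a r : ℝ)| ≤ Real.exp Y) :
    ∃ (t : ℕ) (sel : Fin t → α) (w : Fin t → κ → ℤ) (D : ℤ), t ≤ Fintype.card κ ∧ D ≠ 0 ∧
      |(D : ℝ)| ≤ Real.exp (2 * Y ^ 2) ∧ (∀ i r, |(w i r : ℝ)| ≤ Real.exp (2 * Y ^ 2)) ∧
      (∀ i i', f (sel i) ⬝ᵥ w i' = if i = i' then D else 0) ∧
      ∀ a, D • f a = ∑ i, (w i ⬝ᵥ f a) • f (sel i) := by
  have e1 : 1 ≤ Real.exp Y := Real.one_le_exp (by linarith)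
  have e2 : Y ≤ Real.exp Y := by linarith [Real.add_one_le_exp Y]
  obtain ⟨t, sel, w, D, ht, D0, hD, hw, hd, hs⟩ := crq κ α f ⌊Real.exp Y⌋₊
    (Nat.le_floor (by simpa using e1)) (fun a r => by
      have h1 : ((f a r).natAbs : ℝ) ≤ Real.exp Y := by
        rw [Nat.cast_natAbs, Int.cast_abs]
        exact hf a r
      have h2 := Nat.le_floor h1
      rw [← Int.natCast_natAbs]
      exact_mod_cast h2)
  generalize Fintype.card κ = R at *
  have hF : ((R.factorial * ⌊Real.exp Y⌋₊ ^ R : ℕ) : ℝ) ≤ Real.exp (2 * Y ^ 2) := by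
    have a : (R.factorial : ℝ) ≤ (R : ℝ) ^ R := by exact_mod_cast Nat.factorial_le_pow R
    have b : (R : ℝ) ^ R ≤ Real.exp Y ^ R := pow_le_pow_left₀ (by positivity) (hR.trans e2) R
    have c : (⌊Real.exp Y⌋₊ : ℝ) ^ R ≤ Real.exp Y ^ R :=
      pow_le_pow_left₀ (by positivity) (Nat.floor_le (by positivity)) R
    have d : Real.exp Y ^ R ≤ Real.exp (Y ^ 2) := by
      rw [← Real.exp_nat_mul]
      exact Real.exp_le_exp.2 (by nlinarith)
    rw [Nat.cast_mul, Nat.cast_pow, two_mul, Real.exp_add]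
    exact mul_le_mul (a.trans (b.trans d)) (c.trans d) (by positivity) (by positivity)
  have cst : ∀ z : ℤ, |z| ≤ ((R.factorial * ⌊Real.exp Y⌋₊ ^ R : ℕ) : ℤ) →
      |(z : ℝ)| ≤ Real.exp (2 * Y ^ 2) := by
    intro z hz
    refine le_trans ?_ hF
    rw [← Int.cast_abs, ← Int.cast_natCast]
    exact Int.cast_le.2 hz
  exact ⟨t, sel, w, D, ht, D0, cst D hD, fun i r => cst _ (hw i r), hd, hs⟩

theorem num1 {Y : ℝ} (hY : 4 ≤ Y) :
    Real.exp (2 * Y ^ 2) + Y * (Y * (Real.exp (2 * Y ^ 2) * Real.exp Y)) < Real.exp (Y ^ 3) := by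
  have e1 : 1 ≤ Real.exp Y := Real.one_le_exp (by linarith)
  have e2 : Y ≤ Real.exp Y := by linarith [Real.add_one_le_exp Y]
  have h3 : 2 * Y ^ 2 + (Y + Y + Y + 1) < Y ^ 3 := by nlinarith [sq_nonneg Y]
  refine lt_of_le_of_lt ?_ (Real.exp_lt_exp.2 h3)
  have h2 : (2 : ℝ) ≤ Real.exp 1 := by linarith [Real.add_one_le_exp (1 : ℝ)]
  have a : Y * (Y * Real.exp Y) ≤ Real.exp Y * (Real.exp Y * Real.exp Y) :=
    mul_le_mul e2 (mul_le_mul_of_nonneg_right e2 (by positivity)) (by positivity) (by positivity)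
  have b : 1 ≤ Real.exp Y * (Real.exp Y * Real.exp Y) :=
    one_le_mul_of_one_le_of_one_le e1 (one_le_mul_of_one_le_of_one_le e1 e1)
  have c : 1 + Y * (Y * Real.exp Y) ≤ Real.exp (Y + Y + Y + 1) := by
    rw [Real.exp_add, Real.exp_add, Real.exp_add]
    nlinarith
  rw [Real.exp_add]
  have := mul_le_mul_of_nonneg_left c (Real.exp_pos (2 * Y ^ 2)).le
  linarith

theorem num2 {Y : ℝ} (hY : 4 ≤ Y) : Real.exp (2 * Y ^ 2) < Real.exp (Y ^ 3) := by
  refine lt_of_le_of_lt ?_ (num1 hY)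
  have : 0 ≤ Y * (Y * (Real.exp (2 * Y ^ 2) * Real.exp Y)) := by positivity
  linarith

theorem dot_le {Y A B : ℝ} (hR : (Fintype.card κ : ℝ) ≤ Y) (hA : 0 ≤ A) (hB : 0 ≤ B)
    (u v : κ → ℤ) (hu : ∀ r, |(u r : ℝ)| ≤ A) (hv : ∀ r, |(v r : ℝ)| ≤ B) :
    |((u ⬝ᵥ v : ℤ) : ℝ)| ≤ Y * (A * B) := by
  rw [dotProduct, Int.cast_sum]
  refine (abs_sum_le_sum_abs _ _).trans ((sum_le_card_nsmul _ _ (A * B) fun r _ => ?_).trans ?_)
  · rw [Int.cast_mul, abs_mul]
    exact mul_le_mul (hu r) (hv r) (abs_nonneg _) hA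
  · rw [card_univ, nsmul_eq_mul]
    exact mul_le_mul_of_nonneg_right hR (by positivity)

section M

variable {Q : ℕ} [Fact Q.Prime] {H : Type} [AddCommGroup H] [Module (ZMod Q) H]

theorem inv_smul {D : ℤ} (hD : (D : ZMod Q) ≠ 0) (x : H) : (D : ZMod Q)⁻¹ • (D • x) = x := by
  rw [← Int.cast_smul_eq_zsmul (ZMod Q), smul_smul, inv_mul_cancel₀ hD, one_smul]

theorem smul_inv {D : ℤ} (hD : (D : ZMod Q) ≠ 0) (x : H) : D • ((D : ZMod Q)⁻¹ • x) = x := by
  rw [smul_comm, inv_smul hD]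

end M

theorem zd_fh {H : Type} [AddCommGroup H] (v u : κ → ℤ) (h : H) :
    zd v (fun r => u r • h) = (v ⬝ᵥ u) • h := by
  simp only [zd, dotProduct, sum_smul, mul_smul]

/-- elements of the span kill the orthogonal vectors -/
theorem sp_dual {H : Type} [AddCommGroup H] {f : α → κ → ℤ} {c : κ → H} (h : Sp f c) (v : κ → ℤ)
    (hv : ∀ a, f a ⬝ᵥ v = 0) : zd v c = 0 := by
  obtain ⟨g, hg⟩ := h
  simp only [zd, hg, smul_sum]
  rw [sum_comm]
  refine sum_eq_zero fun a _ => ?_
  have := zd_fh v (f a) (g a)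
  rw [dotProduct_comm, hv, zero_smul] at this
  exact this

/-- the pairing with a fixed integer vector -/
def zdH {H : Type} [AddCommGroup H] (v : κ → ℤ) : (κ → H) →+ H where
  toFun c := zd v c
  map_zero' := by simp [zd]
  map_add' c c' := by simp [zd, sum_add_distrib]

/-- projection along the span: all old frequencies stay, t integer combinations are added -/
theorem proj {Y : ℝ} (f : α → κ → ℤ) (hY : 4 ≤ Y) (hR : (Fintype.card κ : ℝ) ≤ Y)
    (hf : ∀ a r, |(f a r : ℝ)| ≤ Real.exp Y) :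
    ∃ (t : ℕ) (sel : Fin t → α), t ≤ Fintype.card κ ∧
      ∀ (Q : ℕ) [Fact Q.Prime] (H : Type) [AddCommGroup H] [Module (ZMod Q) H],
        Real.exp (Y ^ 3) ≤ Q →
        ∃ (P : (κ → H) →+ (κ → H)) (S : Fin t → (κ → H) →+ H),
          (∀ c m, zd m c = zd m (P c) + ∑ i, (f (sel i) ⬝ᵥ m) • S i c) ∧
          ∀ c, Sp f c → P c = 0 := by
  obtain ⟨t, sel, w, D, ht, D0, hD, -, -, hs⟩ := crqR f hY hR hf
  refine ⟨t, sel, ht, fun Q _ H _ _ hQ => ?_⟩
  have hu : (D : ZMod Q) ≠ 0 := fact_unit D0 (hD.trans_lt ((num2 hY).trans_le hQ))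
  let S : Fin t → (κ → H) →+ H := fun i =>
    { toFun := fun c => (D : ZMod Q)⁻¹ • zd (w i) c
      map_zero' := by simp [zd]
      map_add' := fun c c' => by simp [zd, sum_add_distrib] }
  let P : (κ → H) →+ (κ → H) :=
    { toFun := fun c r => c r - ∑ i, f (sel i) r • S i c
      map_zero' := by funext r; simp
      map_add' := fun c c' => by
        funext r
        simp only [Pi.add_apply, map_add, smul_add, sum_add_distrib]
        abel }
  have hP : ∀ c r, P c r = c r - ∑ i, f (sel i) r • S i c := fun _ _ => rfl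
  have hS : ∀ i c, S i c = (D : ZMod Q)⁻¹ • zd (w i) c := fun _ _ => rfl
  refine ⟨P, S, fun c m => ?_, fun c hc => ?_⟩
  · simp only [zd, hP, smul_sub, sum_sub_distrib, smul_sum]
    rw [sum_comm (s := univ) (t := univ) (f := fun r i => m r • f (sel i) r • S i c)]
    have : ∀ i, ∑ r, m r • f (sel i) r • S i c = (f (sel i) ⬝ᵥ m) • S i c := by
      intro i
      rw [dotProduct_comm]
      exact zd_fh m (f (sel i)) (S i c)
    simp only [this]
    abel
  · obtain ⟨g, hg⟩ := hc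
    have e : c = ∑ a, fun r => f a r • g a := by
      funext r
      rw [hg, Finset.sum_apply]
    rw [e, map_sum]
    refine sum_eq_zero fun a _ => ?_
    funext r
    rw [hP, Pi.zero_apply, sub_eq_zero]
    simp only [hS, zd_fh]
    have h1 := congrFun (hs a) r
    rw [Pi.smul_apply, Finset.sum_apply, smul_eq_mul] at h1
    rw [← inv_smul hu (f a r • g a), smul_smul, h1, sum_smul, smul_sum]
    refine sum_congr rfl fun i _ => ?_
    rw [Pi.smul_apply, smul_eq_mul, mul_comm, mul_smul, smul_comm]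

/-- if c kills all short vectors orthogonal to the family, it lies in the span -/
theorem dual_span {Y : ℝ} (f : α → κ → ℤ) (hY : 4 ≤ Y) (hR : (Fintype.card κ : ℝ) ≤ Y)
    (hf : ∀ a r, |(f a r : ℝ)| ≤ Real.exp Y) (Q : ℕ) [Fact Q.Prime] (H : Type) [AddCommGroup H]
    [Module (ZMod Q) H] (hQ : Real.exp (Y ^ 3) ≤ Q) (c : κ → H)
    (hc : ∀ v : κ → ℤ, (∀ r, |(v r : ℝ)| ≤ Real.exp (Y ^ 3)) → (∀ a, f a ⬝ᵥ v = 0) → zd v c = 0) :
    Sp f c := by
  classical
  obtain ⟨t, sel, w, D, ht, D0, hD, hw, -, hs⟩ := crqR f hY hR hf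
  have hu : (D : ZMod Q) ≠ 0 := fact_unit D0 (hD.trans_lt ((num2 hY).trans_le hQ))
  have Y1 : 1 ≤ Y := by linarith
  have key : ∀ l, D • c l = ∑ i, f (sel i) l • zd (w i) c := by
    intro l
    have h1 := hc (D • Pi.single l (1 : ℤ) - ∑ b, f (sel b) l • w b) (fun r => ?_) (fun a => ?_)
    · rw [← sub_eq_zero, ← h1]
      simp only [zd, Pi.sub_apply, sub_smul, sum_sub_distrib, Finset.sum_apply, Pi.smul_apply,
        smul_eq_mul, sum_smul, smul_sum, mul_smul]
      rw [sum_comm (s := univ) (t := univ) (f := fun r b => f (sel b) l • w b r • c r)]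
      congr 1
      rw [sum_eq_single l]
      · simp
      · intro b _ hb
        simp [hb]
      · simp
    · have a : |((D • Pi.single l (1 : ℤ) : κ → ℤ) r : ℝ)| ≤ Real.exp (2 * Y ^ 2) := by
        rw [Pi.smul_apply, smul_eq_mul, Pi.single_apply]
        split_ifs
        · rw [mul_one]
          exact hD
        · simp [Real.exp_nonneg]
      have b : |((∑ b, f (sel b) l • w b : κ → ℤ) r : ℝ)| ≤
          Y * (Y * (Real.exp (2 * Y ^ 2) * Real.exp Y)) := by
        rw [Finset.sum_apply, Int.cast_sum]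
        refine (abs_sum_le_sum_abs _ _).trans ((sum_le_card_nsmul _ _
          (Real.exp Y * Real.exp (2 * Y ^ 2)) fun b _ => ?_).trans ?_)
        · rw [Pi.smul_apply, smul_eq_mul, Int.cast_mul, abs_mul]
          exact mul_le_mul (hf _ _) (hw b r) (abs_nonneg _) (by positivity)
        · rw [card_univ, Fintype.card_fin, nsmul_eq_mul]
          have ht' : (t : ℝ) ≤ Y := le_trans (by exact_mod_cast ht) hR
          refine mul_le_mul ht' ?_ (by positivity) (by positivity)
          rw [mul_comm]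
          exact le_mul_of_one_le_left (by positivity) Y1
      rw [Pi.sub_apply, Int.cast_sub]
      exact (abs_sub _ _).trans ((add_le_add a b).trans (num1 hY).le)
    · rw [dotProduct_sub, dotProduct_smul, dotProduct_single, dotProduct_sum, mul_one, smul_eq_mul,
        sub_eq_zero]
      have h1 := congrFun (hs a) l
      rw [Pi.smul_apply, Finset.sum_apply, smul_eq_mul] at h1
      rw [h1]
      refine sum_congr rfl fun b _ => ?_
      rw [Pi.smul_apply, dotProduct_smul, smul_eq_mul, smul_eq_mul, mul_comm, dotProduct_comm]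
  refine ⟨fun a => ∑ i, if sel i = a then (D : ZMod Q)⁻¹ • zd (w i) c else 0, fun r => ?_⟩
  simp only [smul_sum]
  rw [sum_comm, ← inv_smul hu (c r), key, smul_sum]
  refine sum_congr rfl fun i _ => ?_
  rw [sum_eq_single (sel i)]
  · rw [if_pos rfl, smul_comm]
  · intro b _ hb
    rw [if_neg (Ne.symm hb), smul_zero]
  · simp

/-- the part of the span which vanishes on the coordinates F is spanned by short combinations -/
theorem ker1 {Y : ℝ} (f : α → κ → ℤ) (F : κ → Prop) (hY : 4 ≤ Y)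
    (hR : (Fintype.card κ : ℝ) ≤ Y) (hf : ∀ a r, |(f a r : ℝ)| ≤ Real.exp Y) :
    ∃ n : α → α → ℤ, (∀ a, ∑ a', |(n a a' : ℝ)| ≤ Real.exp (Y ^ 3)) ∧
      (∀ a r, F r → ∑ a', n a a' * f a' r = 0) ∧
      ∀ (Q : ℕ) [Fact Q.Prime] (H : Type) [AddCommGroup H] [Module (ZMod Q) H],
        Real.exp (Y ^ 3) ≤ Q → ∀ c : κ → H, Sp f c → (∀ r, F r → c r = 0) →
        Sp (fun a r => ∑ a', n a a' * f a' r) c := by
  classical
  let f' : α → κ → ℤ := fun a r => if F r then f a r else 0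
  have hf' : ∀ a r, |(f' a r : ℝ)| ≤ Real.exp Y := by
    intro a r
    simp only [f']
    split_ifs
    · exact hf a r
    · simp [Real.exp_nonneg]
  obtain ⟨t, sel, w, D, ht, D0, hD, hw, -, hs⟩ := crqR f' hY hR hf'
  let n : α → α → ℤ := fun a a' =>
    (if a' = a then D else 0) - ∑ i, if sel i = a' then w i ⬝ᵥ f' a else 0
  have hn : ∀ a r, ∑ a', n a a' * f a' r = D * f a r - ∑ i, (w i ⬝ᵥ f' a) * f (sel i) r := by
    intro a r
    simp only [n, sub_mul, sum_sub_distrib, sum_mul, ite_mul, zero_mul]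
    rw [sum_comm (s := univ) (t := univ)
      (f := fun a' i => if sel i = a' then (w i ⬝ᵥ f' a) * f a' r else 0)]
    simp
  refine ⟨n, fun a => ?_, fun a r hr => ?_, fun Q _ H _ _ hQ c hc h0 => ?_⟩
  · have h1 : ∀ a', |(n a a' : ℝ)| ≤ (if a' = a then |(D : ℝ)| else 0) +
        ∑ i, if sel i = a' then |((w i ⬝ᵥ f' a : ℤ) : ℝ)| else 0 := by
      intro a'
      simp only [n]
      rw [Int.cast_sub, Int.cast_sum]
      refine (abs_sub _ _).trans (add_le_add ?_ ((abs_sum_le_sum_abs _ _).trans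
        (sum_le_sum fun i _ => ?_)))
      · split_ifs <;> simp
      · split_ifs <;> simp
    refine (sum_le_sum fun a' _ => h1 a').trans ?_
    rw [sum_add_distrib, sum_comm]
    simp only [sum_ite_eq, sum_ite_eq', mem_univ, if_true]
    refine (add_le_add hD ((sum_le_card_nsmul _ _ (Y * (Real.exp (2 * Y ^ 2) * Real.exp Y))
      fun i _ => dot_le hR (by positivity) (by positivity) _ _ (hw i) (hf' a)).trans ?_)).trans
      (num1 hY).le
    rw [card_univ, Fintype.card_fin, nsmul_eq_mul]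
    exact mul_le_mul_of_nonneg_right (le_trans (by exact_mod_cast ht) hR) (by positivity)
  · rw [hn, sub_eq_zero]
    have h1 := congrFun (hs a) r
    rw [Pi.smul_apply, Finset.sum_apply, smul_eq_mul] at h1
    simp only [Pi.smul_apply, smul_eq_mul] at h1
    have e : ∀ b, f' b r = f b r := fun b => if_pos hr
    simp only [e] at h1
    exact h1
  · have hu : (D : ZMod Q) ≠ 0 := fact_unit D0 (hD.trans_lt ((num2 hY).trans_le hQ))
    obtain ⟨g, hg⟩ := hc
    have hz : ∀ i, ∑ a, (w i ⬝ᵥ f' a) • g a = 0 := by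
      intro i
      simp only [dotProduct, sum_smul, mul_smul]
      rw [sum_comm]
      refine sum_eq_zero fun r _ => ?_
      rw [← smul_sum]
      by_cases hr : F r
      · have e : ∀ b, f' b r = f b r := fun b => if_pos hr
        simp only [e]
        rw [← hg, h0 r hr, smul_zero]
      · have e : ∀ b, f' b r = 0 := fun b => if_neg hr
        simp [e]
    refine ⟨fun a => (D : ZMod Q)⁻¹ • g a, fun r => ?_⟩
    simp only [hn, sub_smul, sum_sub_distrib, sum_smul]
    rw [sum_comm (s := univ) (t := univ)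
      (f := fun a i => ((w i ⬝ᵥ f' a) * f (sel i) r) • (D : ZMod Q)⁻¹ • g a)]
    have h2 : ∀ i, ∑ a, ((w i ⬝ᵥ f' a) * f (sel i) r) • (D : ZMod Q)⁻¹ • g a = 0 := by
      intro i
      have : ∀ a, ((w i ⬝ᵥ f' a) * f (sel i) r) • (D : ZMod Q)⁻¹ • g a =
          f (sel i) r • (D : ZMod Q)⁻¹ • (w i ⬝ᵥ f' a) • g a := by
        intro a
        rw [mul_comm, mul_smul, smul_comm (w i ⬝ᵥ f' a)]
      simp only [this]
      rw [← smul_sum, ← smul_sum, hz, smul_zero, smul_zero]
    simp only [h2, sum_const_zero, sub_zero]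
    rw [hg]
    refine sum_congr rfl fun a _ => ?_
    rw [mul_comm, mul_smul, smul_inv hu]

end Vale.Agent.P057T.Lin
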