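import Vale.Agent.P057T.Gkh.Defs
import Vale.Agent.P057T.Gkh.Cube

/-! First half of a round. -/

set_option linter.all false

open Finset
open scoped BigOperators

namespace Vale.Agent.P057T.Gkh

open Vale.Agent.P057Z Vale.Agent.P057L

namespace Ra

variable {j q : ℕ}

theorem card_bz (m N : ℕ) : (bz m N).card = N ^ m := by
  simp [bz, rg]

theorem add_ev (x : Pt j q) (i : Fin j) (a : Vz q) :
    x + ev i a = Function.update x i (x i + a) := by
  funext l
  by_cases h : l = i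
  · subst h; simp [ev]
  · simp [ev, h]

theorem add_ev2 (x : Pt j q) (i : Fin j) (a b : Vz q) :
    x + ev i a + ev i b = Function.update x i (x i + a + b) := by
  rw [add_ev, add_ev]; simp

theorem bp_mem {N : ℕ} {x : Pt j q} (h : x ∈ bp j q N) (i : Fin j) : x i ∈ bz q N :=
  Fintype.mem_piFinset.1 h i

theorem mhi_par {H : Type} [AddCommGroup H] {g : Pt j q → H} {X : Finset (Pt j q)} {i : Fin j}
    (h : MHi g X i) {x : Pt j q} {a b : Vz q} (h1 : x ∈ X) (h2 : x + ev i a ∈ X)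
    (h3 : x + ev i b ∈ X) (h4 : x + ev i a + ev i b ∈ X) :
    g x - g (x + ev i a) - g (x + ev i b) + g (x + ev i a + ev i b) = 0 := by
  rw [add_ev2] at h4 ⊢
  rw [add_ev] at h2 h3
  rw [add_ev, add_ev]
  have h0 : Function.update x i (x i) ∈ X := by simpa using h1
  have := h x ![x i, x i + a + b, x i, x i, x i, x i] ![x i + a, x i + b, x i, x i, x i, x i]
    (by intro c; fin_cases c <;> simpa) (by intro c; fin_cases c <;> simpa)
    (by simp [Fin.sum_univ_succ]; abel)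
  simp only [Fin.sum_univ_succ, Matrix.cons_val_zero, Matrix.cons_val_succ, Function.update_eq_self,
    Finset.univ_eq_empty, sum_empty, add_zero] at this
  have e : g x - g (Function.update x i (x i + a)) - g (Function.update x i (x i + b)) +
      g (Function.update x i (x i + a + b)) =
      (g x + (g (Function.update x i (x i + a + b)) + (g x + (g x + (g x + g x))))) -
      (g (Function.update x i (x i + a)) + (g (Function.update x i (x i + b)) +
        (g x + (g x + (g x + g x))))) := by abel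
  rw [e, this, sub_self]

/-- the coefficients vanish on the dead indices -/
theorem tau_dead {Q : ℕ} {κ ι : Type} (S : Dat j q Q κ ι) (I : Finset (Fin j)) (i : Fin j)
    (hG : ∀ t, I ⊂ t → Gl S t i) {x : Pt j q} {a b : Vz q} (h1 : x ∈ S.X) (h2 : x + ev i a ∈ S.X)
    (h3 : x + ev i b ∈ S.X) (h4 : x + ev i a + ev i b ∈ S.X) (d : Fin 3 × κ)
    (hd : I ⊂ S.ty d.2 ∨ (d.1 ≠ 0 ∧ i ∉ S.ty d.2)) : tau S i x a b d = 0 := by
  obtain ⟨σ, r⟩ := d
  unfold tau
  by_cases hi : i ∈ S.ty r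
  · have hI : I ⊂ S.ty r := by
      rcases hd with h | h
      · exact h
      · exact absurd hi h.2
    have hc := (hG _ hI r rfl).1 hi
    have h0 : Function.update x i (x i) ∈ S.X := by simpa using h1
    rw [add_ev2] at h4
    rw [add_ev] at h2 h3
    have e1 := hc x _ _ h0 h4
    have e2 := hc x _ _ h4 h2
    have e3 := hc x _ _ h4 h3
    simp only [Function.update_eq_self] at e1
    simp only [hi, if_true, add_ev2]
    rw [add_ev, add_ev]
    fin_cases σ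
    · simp [e1]
    · simp [e2]
    · simp [e3]
  · simp only [hi, if_false]
    fin_cases σ
    · have hI : I ⊂ S.ty r := by
        rcases hd with h | h
        · exact h
        · exact absurd rfl h.1
      simpa using mhi_par ((hG _ hI r rfl).2 hi) h1 h2 h3 h4
    · simp
    · simp

theorem sb_eq (J : Finset (Fin j)) (w x : Pt j q) : sb J w x = J.piecewise x w := by
  funext i
  simp [sb, piecewise]

theorem sb_congr {I J : Finset (Fin j)} (hJ : J ⊆ I) (w : Pt j q) {x x' : Pt j q}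
    (h : ∀ l ∈ I, x l = x' l) : sb J w x = sb J w x' := by
  funext l
  by_cases hl : l ∈ J
  · simp [sb, hl, h l (hJ hl)]
  · simp [sb, hl]

theorem alt0 (I : Finset (Fin j)) (i : Fin j) (hi : i ∈ I) (G : Pt j q → ℝ)
    (hG : ∀ x a, G (Function.update x i a) = G x) (w x : Pt j q) :
    ∑ J ∈ I.powerset, (-1 : ℝ) ^ (I \ J).card * G (sb J w x) = 0 := by
  have h := Cube.alt I i hi G hG x w
  have e : ∑ J ∈ I.powerset, (-1 : ℝ) ^ (I \ J).card * G (sb J w x) =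
      (-1 : ℝ) ^ I.card * ∑ J ∈ I.powerset, (-1 : ℤ) ^ J.card • G (J.piecewise x w) := by
    rw [mul_sum]
    refine sum_congr rfl fun J hJ => ?_
    have hJ' := mem_powerset.1 hJ
    have e1 : I.card = (I \ J).card + J.card := (card_sdiff_add_card_eq_card hJ').symm
    rw [sb_eq, e1, pow_add, zsmul_eq_mul]
    push_cast
    have : (-1 : ℝ) ^ J.card * (-1) ^ J.card = 1 := by rw [← mul_pow]; simp
    calc _ = (-1 : ℝ) ^ (I \ J).card * ((-1 : ℝ) ^ J.card * (-1) ^ J.card) * G (J.piecewise x w) := by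
          rw [this, mul_one]
      _ = _ := by ring
  rw [e, h, mul_zero]

/-- integer combinations of near integers -/
theorem comb {δ : Type} [Fintype δ] (n : δ → ℤ) (t : δ → ℝ) (A e : ℝ) (hn : ∀ a, |(n a : ℝ)| ≤ A)
    (ht : ∀ a, ∃ m : ℤ, |t a - m| ≤ e) :
    ∃ m : ℤ, |∑ a, (n a : ℝ) * t a - m| ≤ Fintype.card δ * (A * e) := by
  choose m hm using ht
  refine ⟨∑ a, n a * m a, ?_⟩
  push_cast
  rw [← sum_sub_distrib]
  refine (abs_sum_le_sum_abs _ _).trans ?_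
  refine (sum_le_card_nsmul _ _ (A * e) fun a _ => ?_).trans (by simp)
  rw [← mul_sub, abs_mul]
  exact mul_le_mul (hn a) (hm a) (abs_nonneg _) ((abs_nonneg _).trans (hn a))

theorem altc (I : Finset (Fin j)) (t : Finset (Fin j) → ℝ) (e : ℝ)
    (ht : ∀ J ⊆ I, ∃ m : ℤ, |t J - m| ≤ e) :
    ∃ m : ℤ, |∑ J ∈ I.powerset, (-1 : ℝ) ^ (I \ J).card * t J - m| ≤ 2 ^ j * e := by
  choose! m hm using ht
  have he : 0 ≤ e := (abs_nonneg _).trans (hm ∅ (empty_subset _))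
  refine ⟨∑ J ∈ I.powerset, (-1) ^ (I \ J).card * m J, ?_⟩
  push_cast
  rw [← sum_sub_distrib]
  refine (abs_sum_le_sum_abs _ _).trans ?_
  refine (sum_le_card_nsmul _ _ e fun J hJ => ?_).trans ?_
  · rw [← mul_sub, abs_mul, abs_pow, abs_neg, abs_one, one_pow, one_mul]
    exact hm J (mem_powerset.1 hJ)
  · rw [card_powerset, nsmul_eq_mul]
    push_cast
    refine mul_le_mul_of_nonneg_right (pow_le_pow_right₀ (by norm_num) ?_) he
    simpa using card_le_univ I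

/-- the substitution identity -/
theorem subst {Q : ℕ} {κ ι : Type} [Fintype κ] [DecidableEq κ] (S : Dat j q Q κ ι)
    (hdep : ∀ r l (W W' : Pt j q), (∀ i ∈ S.ty r, W i = W' i) → S.Ψ r W l = S.Ψ r W' l)
    (I : Finset (Fin j)) (i : Fin j) (k : Fin 3 × κ → ℤ)
    (hk : ∀ d : Fin 3 × κ, I ⊂ S.ty d.2 ∨ (d.1 ≠ 0 ∧ i ∉ S.ty d.2) → k d = 0)
    (w x : Pt j q) (p1 p2 : Vz q) (l : Fin q) :
    ∑ J ∈ I.powerset, (-1 : ℝ) ^ (I \ J).card *
        ∑ r, ((if S.ty r = I then k (0, r) else 0 : ℤ) : ℝ) * S.Ψ r (sb J w x) l =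
      ∑ J ∈ I.powerset, (-1 : ℝ) ^ (I \ J).card * ∑ d, (k d : ℝ) *
        fq S i (sb J w x) (p1 - sb J w x i) (p2 - sb J w x i) d l := by
  let G : Fin 3 × κ → Pt j q → ℝ := fun d z => fq S i z (p1 - z i) (p2 - z i) d l
  have hG0 : ∀ r z, G (0, r) z = S.Ψ r z l := fun r z => by simp [G, fq]
  have hG1 : ∀ r z, G (1, r) z = S.Ψ r (Function.update z i p1) l := fun r z => by
    simp [G, fq, add_ev]
  have hG2 : ∀ r z, G (2, r) z = S.Ψ r (Function.update z i p2) l := fun r z => by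
    simp [G, fq, add_ev]
  have hmiss : ∀ r, S.ty r ≠ I → ¬ I ⊂ S.ty r → ∃ i' ∈ I, i' ∉ S.ty r := by
    intro r h1 h2
    by_contra h3
    push Not at h3
    exact h2 (Finset.ssubset_iff_subset_ne.2 ⟨h3, h1.symm⟩)
  have hupd : ∀ r (p : Vz q), ¬ I ⊂ S.ty r → i ∈ S.ty r → ∃ i' ∈ I, ∀ (z : Pt j q) a,
      S.Ψ r (Function.update (Function.update z i' a) i p) l = S.Ψ r (Function.update z i p) l := by
    intro r p h1 h2
    by_cases hi : i ∈ I
    · exact ⟨i, hi, fun z a => by simp⟩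
    · obtain ⟨i', h3, h4⟩ := hmiss r (fun h => hi (h ▸ h2)) h1
      refine ⟨i', h3, fun z a => hdep _ _ _ _ fun c hc => ?_⟩
      have : c ≠ i' := fun h => h4 (h ▸ hc)
      by_cases h5 : c = i
      · subst h5; simp
      · simp [h5, this]
  have key : ∀ d : Fin 3 × κ, ∑ J ∈ I.powerset, (-1 : ℝ) ^ (I \ J).card * ((k d : ℝ) * G d (sb J w x)) =
      if d.1 = 0 then ∑ J ∈ I.powerset, (-1 : ℝ) ^ (I \ J).card *
        (((if S.ty d.2 = I then k (0, d.2) else 0 : ℤ) : ℝ) * S.Ψ d.2 (sb J w x) l) else 0 := by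
    rintro ⟨σ, r⟩
    by_cases hd : I ⊂ S.ty r ∨ (σ ≠ 0 ∧ i ∉ S.ty r)
    · have h0 := hk (σ, r) hd
      by_cases hσ : σ = 0
      · subst hσ
        simp [h0]
      · simp [h0, hσ]
    · push Not at hd
      have hz : (∃ i' ∈ I, ∀ (z : Pt j q) a, G (σ, r) (Function.update z i' a) = G (σ, r) z) →
          ∑ J ∈ I.powerset, (-1 : ℝ) ^ (I \ J).card * ((k (σ, r) : ℝ) * G (σ, r) (sb J w x)) = 0 := by
        rintro ⟨i', h1, h2⟩
        exact alt0 I i' h1 (fun z => (k (σ, r) : ℝ) * G (σ, r) z) (fun z a => by simp only [h2]) w x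
      by_cases hσ : σ = 0
      · subst hσ
        by_cases hr : S.ty r = I
        · simp [hr, hG0]
        · obtain ⟨i', h3, h4⟩ := hmiss r hr hd.1
          rw [hz ⟨i', h3, fun z a => ?_⟩]
          · simp [hr]
          · rw [hG0, hG0]
            refine hdep _ _ _ _ fun c hc => ?_
            have : c ≠ i' := fun h => h4 (h ▸ hc)
            simp [this]
      · simp only [hσ, if_false]
        apply hz
        have hi := hd.2 hσ
        fin_cases σ
        · exact absurd rfl hσ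
        · obtain ⟨i', h3, h4⟩ := hupd r p1 hd.1 hi
          exact ⟨i', h3, fun z a => (hG1 r _).trans ((h4 z a).trans (hG1 r _).symm)⟩
        · obtain ⟨i', h3, h4⟩ := hupd r p2 hd.1 hi
          exact ⟨i', h3, fun z a => (hG2 r _).trans ((h4 z a).trans (hG2 r _).symm)⟩
  have e : ∑ J ∈ I.powerset, (-1 : ℝ) ^ (I \ J).card * ∑ d, (k d : ℝ) *
        fq S i (sb J w x) (p1 - sb J w x i) (p2 - sb J w x i) d l =
      ∑ d, ∑ J ∈ I.powerset, (-1 : ℝ) ^ (I \ J).card * ((k d : ℝ) * G d (sb J w x)) := by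
    rw [sum_comm]
    exact sum_congr rfl fun J _ => mul_sum _ _ _
  rw [e]
  simp only [key]
  rw [Fintype.sum_prod_type, Fin.sum_univ_three]
  simp only [if_true, show ((1 : Fin 3) = 0) = False by decide,
    show ((2 : Fin 3) = 0) = False by decide, if_false, sum_const_zero, add_zero]
  rw [sum_comm]
  exact sum_congr rfl fun J _ => mul_sum _ _ _

theorem img_le {α β : Type} [DecidableEq β] (ρ : α → β) (U : Finset α) (P : β → Prop)
    (P' : α → Prop) {_ : DecidablePred P} {_ : DecidablePred P'} (h : ∀ v ∈ U, P (ρ v) → P' v) :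
    ((U.image ρ).filter P).card ≤ (U.filter P').card := by
  refine le_trans (card_le_card ?_) (card_image_le (f := ρ))
  intro u hu
  obtain ⟨hu1, hu2⟩ := mem_filter.1 hu
  obtain ⟨v, hv, rfl⟩ := mem_image.1 hu1
  exact mem_image.2 ⟨v, mem_filter.2 ⟨hv, h v hv hu2⟩, rfl⟩

open Classical in
/-- base point and slice in the original coordinates -/
theorem gw' {C : ℕ} (hgw : ∀ (Y : ℝ) (q N : ℕ) (β : Type) (B : Finset β) (I : Finset (Fin j))
    (U : Finset (Pt j q × β)), (C : ℝ) ≤ Y → 1 ≤ N → B.Nonempty → U ⊆ bp j q N ×ˢ B →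
    Real.exp (-Y) * (N : ℝ) ^ (j * q) * B.card ≤ U.card →
    ∃ (w : Pt j q) (p : β), Real.exp (-(C * Y)) * (N : ℝ) ^ (j * q) * B.card ≤
      (U.filter fun u => ∀ J ⊆ I, (sb J w u.1, p) ∈ U).card)
    (Y : ℝ) (N : ℕ) (I : Finset (Fin j)) (i : Fin j) (U : Finset (Pt j q × Vz q × Vz q))
    (hY : (C : ℝ) ≤ Y) (hN : 1 ≤ N)
    (hU : ∀ u ∈ U, u.1 ∈ bp j q N ∧ u.1 + ev i u.2.1 ∈ bp j q N ∧ u.1 + ev i u.2.2 ∈ bp j q N)
    (hc : Real.exp (-Y) * (N : ℝ) ^ (j * q + 2 * q) ≤ U.card) :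
    ∃ (w : Pt j q) (p1 p2 : Vz q), Real.exp (-(C * Y)) * (N : ℝ) ^ (j * q + 2 * q) ≤
      (U.filter fun u => ∀ J ⊆ I, (sb J w u.1, p1 - sb J w u.1 i, p2 - sb J w u.1 i) ∈ U).card := by
  let ρ : Pt j q × Vz q × Vz q → Pt j q × Vz q × Vz q := fun u => (u.1, u.1 i + u.2.1, u.1 i + u.2.2)
  have hρ : Function.Injective ρ := by
    rintro ⟨x, a, b⟩ ⟨x', a', b'⟩ h
    simp only [ρ, Prod.mk.injEq] at h
    obtain ⟨rfl, h1, h2⟩ := h
    simp only [add_right_inj] at h1 h2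
    rw [h1, h2]
  have hB : ((bz q N ×ˢ bz q N).card : ℝ) = (N : ℝ) ^ (2 * q) := by
    rw [card_product, card_bz]; push_cast; ring
  have hne : (bz q N ×ˢ bz q N).Nonempty := by
    rw [← card_pos, card_product, card_bz]; positivity
  obtain ⟨w, p, h⟩ := hgw Y q N (Vz q × Vz q) (bz q N ×ˢ bz q N) I (U.image ρ) hY hN hne
    (by
      intro u hu
      obtain ⟨v, hv, rfl⟩ := mem_image.1 hu
      obtain ⟨h1, h2, h3⟩ := hU v hv
      have h4 := bp_mem h2 i
      have h5 := bp_mem h3 i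
      rw [add_ev, Function.update_self] at h4 h5
      exact mem_product.2 ⟨h1, mem_product.2 ⟨h4, h5⟩⟩)
    (by rw [hB, card_image_of_injective _ hρ, mul_assoc, ← pow_add]; exact hc)
  refine ⟨w, p.1, p.2, ?_⟩
  rw [hB, mul_assoc, ← pow_add] at h
  refine h.trans (Nat.cast_le.2 ?_)
  refine img_le ρ U _ _ fun v _ hu2 J hJ => ?_
  obtain ⟨⟨x, a, b⟩, hv', h1⟩ := mem_image.1 (hu2 J hJ)
  have h2 : x = sb J w v.1 := congrArg Prod.fst h1
  have h5 : (x i + a, x i + b) = p := congrArg Prod.snd h1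
  have h3 : a = p.1 - x i := by rw [← h5]; simp
  have h4 : b = p.2 - x i := by rw [← h5]; simp
  rw [← h2, ← h3, ← h4]
  exact hv'

/-- a popular value of the last vertex -/
theorem pop (N : ℕ) (hN : 1 ≤ N) (i : Fin j) (U : Finset (Pt j q × Vz q × Vz q)) (c : ℝ)
    (hU : ∀ u ∈ U, u.1 + ev i u.2.1 ∈ bp j q N ∧ u.1 + ev i u.2.1 + ev i u.2.2 ∈ bp j q N)
    (hc : c * (N : ℝ) ^ (j * q + 2 * q) ≤ U.card) :
    ∃ (w4 : Vz q) (X : Finset (Pt j q)), c * (N : ℝ) ^ (j * q) ≤ X.card ∧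
      ∀ x ∈ X, ∃ a b, (x, a, b) ∈ U ∧ x i + a + b = w4 := by
  classical
  let F : Vz q → Finset (Pt j q × Vz q × Vz q) := fun v => U.filter fun u => u.1 i + u.2.1 + u.2.2 = v
  have hne : (bz q N).Nonempty := by
    rw [← card_pos, card_bz]; positivity
  have h1 : U.card = ∑ v ∈ bz q N, (F v).card := by
    refine card_eq_sum_card_fiberwise fun u hu => ?_
    have := bp_mem (hU u (mem_coe.1 hu)).2 i
    rw [add_ev2, Function.update_self] at this
    exact mem_coe.2 this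
  have h2 : ∀ v, (F v).card ≤ ((F v).image Prod.fst).card * N ^ q := by
    intro v
    rw [← card_bz q N, ← card_product]
    refine card_le_card_of_injOn (fun u => (u.1, u.1 i + u.2.1)) (fun u hu => ?_) ?_
    · have hu' := mem_coe.1 hu
      have := bp_mem (hU u (mem_filter.1 hu').1).1 i
      rw [add_ev, Function.update_self] at this
      exact mem_coe.2 (mem_product.2 ⟨mem_image_of_mem _ hu', this⟩)
    · rintro ⟨x, a, b⟩ hu ⟨x', a', b'⟩ hu' h
      have e1 := (mem_filter.1 (mem_coe.1 hu)).2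
      have e2 := (mem_filter.1 (mem_coe.1 hu')).2
      simp only [Prod.mk.injEq] at h e1 e2
      obtain ⟨rfl, h⟩ := h
      have : a = a' := add_left_cancel h
      subst this
      have : b = b' := add_left_cancel (e1.trans e2.symm)
      rw [this]
  have hq : (0 : ℝ) < (N : ℝ) ^ q := by positivity
  obtain ⟨v, -, hv⟩ : ∃ v ∈ bz q N, c * (N : ℝ) ^ (j * q) * N ^ q ≤ (F v).card := by
    apply exists_le_of_sum_le hne
    rw [sum_const, card_bz, nsmul_eq_mul, ← Nat.cast_sum, ← h1]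
    refine le_trans (le_of_eq ?_) hc
    push_cast
    ring
  refine ⟨v, (F v).image Prod.fst, le_of_mul_le_mul_right (hv.trans ?_) hq, fun x hx => ?_⟩
  · exact_mod_cast h2 v
  · obtain ⟨⟨x', a, b⟩, hu, rfl⟩ := mem_image.1 hx
    exact ⟨a, b, (mem_filter.1 hu).1, (mem_filter.1 hu).2⟩

theorem env_ge {H : Type} [AddCommGroup H] (φ : Pt j q → H) (Ω : Finset (Pt j q)) (N : ℕ)
    (hN : 1 ≤ N) (i : Fin j) (U : Finset (Pt j q × Vz q × Vz q)) (c : ℝ)
    (hU : ∀ u ∈ U, u.2.1 ∈ sz q N ∧ u.2.2 ∈ sz q N ∧ Pg φ Ω u.1 (ev i u.2.1) (ev i u.2.2))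
    (hc : c * (N : ℝ) ^ (j * q + 2 * q) ≤ U.card) : c ≤ env φ Ω N i := by
  classical
  unfold env
  rw [le_div_iff₀ (by positivity)]
  refine hc.trans (Nat.cast_le.2 (card_le_card fun u hu => ?_))
  obtain ⟨h1, h2, h3⟩ := hU u hu
  exact mem_filter.2 ⟨mem_product.2 ⟨h3.1, mem_product.2 ⟨h1, h2⟩⟩, h3⟩

theorem zd_sub {α H : Type} [Fintype α] [AddCommGroup H] (v : α → ℤ) (θ θ' : α → H) :
    zd v (fun r => θ r - θ' r) = zd v θ - zd v θ' := by
  simp [zd, smul_sub, sum_sub_distrib]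

theorem zd_par {α H : Type} [Fintype α] [AddCommGroup H] (v : α → ℤ) (θ1 θ2 θ3 θ4 : α → H) :
    zd v (fun r => θ1 r - θ2 r - θ3 r + θ4 r) = zd v θ1 - zd v θ2 - zd v θ3 + zd v θ4 := by
  simp [zd, smul_sub, smul_add, sum_sub_distrib, sum_add_distrib]

theorem zd_congr {α H : Type} [Fintype α] [AddCommGroup H] (v : α → ℤ) (θ θ' : α → H)
    (h : ∀ r, v r ≠ 0 → θ r = θ' r) : zd v θ = zd v θ' := by
  refine sum_congr rfl fun r _ => ?_
  by_cases hr : v r = 0
  · simp [hr]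
  · rw [h r hr]

end Ra

open Ra in
theorem ra (hF : FRM) (hRQ : RQ) (hLA : LA) (hGW : GW) (hE : EXD) : RA := by
  classical
  intro j
  obtain ⟨C1, hRQ⟩ := hRQ j
  obtain ⟨C2, hLA⟩ := hLA
  obtain ⟨C3, hGW⟩ := hGW j
  obtain ⟨C4, hE⟩ := hE j
  refine ⟨(C1 + 3) * (C2 + C4 + 1) + C1 + C2 + C3 + C4 + j + 6, ?_⟩
  intro Y q N Q Q' _ _ κ ι _ _ _ _ φ S I i hY hq1 hq hN hNQ hNQ' hS hG
  set K := (C1 + 3) * (C2 + C4 + 1) with hK
  set C := K + C1 + C2 + C3 + C4 + j + 6 with hC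
  have hCY : (K : ℝ) + C1 + C2 + C3 + C4 + j + 6 ≤ Y := by
    have : ((C : ℕ) : ℝ) = (K : ℝ) + C1 + C2 + C3 + C4 + j + 6 := by rw [hC]; push_cast; ring
    linarith
  have p0 : (0 : ℝ) ≤ K := Nat.cast_nonneg _
  have p1 : (0 : ℝ) ≤ C1 := Nat.cast_nonneg _
  have p2 : (0 : ℝ) ≤ C2 := Nat.cast_nonneg _
  have p3 : (0 : ℝ) ≤ C3 := Nat.cast_nonneg _
  have p4 : (0 : ℝ) ≤ C4 := Nat.cast_nonneg _
  have p5 : (0 : ℝ) ≤ j := Nat.cast_nonneg _
  have hY1 : 1 ≤ Y := by linarith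
  have pw : ∀ a b : ℕ, a ≤ b → Y ^ a ≤ Y ^ b := fun a b h => pow_le_pow_right₀ hY1 h
  have hK1 : C1 + 3 ≤ K := Nat.le_mul_of_pos_right _ (by omega)
  have hYZ : Y ≤ Y ^ K := by simpa using pw 1 K (by omega)
  have hZC : 6 * Y ^ K ≤ Y ^ C := by
    calc 6 * Y ^ K ≤ Y * Y ^ K := mul_le_mul_of_nonneg_right (by linarith) (by positivity)
      _ = Y ^ (K + 1) := by ring
      _ ≤ _ := pw _ _ (by omega)
  have hZ0 : 0 < Y ^ K := by positivity
  have h1Z : Y ^ C1 ≤ Y ^ K := pw _ _ (by omega)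
  have h12 : Y ^ C1 ≤ Y ^ (C1 + 2) := pw _ _ (by omega)
  have h32 : 3 * Y ≤ Y ^ (C1 + 2) := by
    calc 3 * Y ≤ Y * Y := mul_le_mul_of_nonneg_right (by linarith) (by linarith)
      _ = Y ^ 2 := by ring
      _ ≤ _ := pw _ _ (by omega)
  have h3Z : (Y ^ (C1 + 2)) ^ C2 ≤ Y ^ K := by
    rw [← pow_mul]
    exact pw _ _ (Nat.mul_le_mul (by omega) (by omega))
  have h4 : C3 * Y ^ (C1 + 2) ≤ Y ^ (C1 + 3) := by
    calc C3 * Y ^ (C1 + 2) ≤ Y * Y ^ (C1 + 2) :=
          mul_le_mul_of_nonneg_right (by linarith) (by positivity)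
      _ = _ := by ring
  have h4Z : Y ^ (C1 + 3) ≤ Y ^ K := pw _ _ hK1
  have hY4 : Y ≤ Y ^ (C1 + 3) := by simpa using pw 1 (C1 + 3) (by omega)
  have h5Z : (Y ^ (C1 + 3)) ^ C4 ≤ Y ^ K := by
    rw [← pow_mul]
    exact pw _ _ (Nat.mul_le_mul le_rfl (by omega))
  have hN0 : (0 : ℝ) < N := by
    rcases Nat.eq_zero_or_pos N with h | h
    · rw [h] at hN; simp at hN; linarith
    · exact_mod_cast h
  have hN1 : 1 ≤ N := by exact_mod_cast hN0
  have hNe : Real.exp (Y ^ C) ≤ N := (Real.le_log_iff_exp_le hN0).1 hN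
  have hNQr : (N : ℝ) ≤ Q := by exact_mod_cast hNQ
  have hdep : ∀ r l (W W' : Pt j q), (∀ i ∈ S.ty r, W i = W' i) → S.Ψ r W l = S.Ψ r W' l :=
    fun r l W W' h => (hF j q).2.2.2.2.2.1 S.L _ _ W W' hS.twr (hS.frm r l) h
  obtain ⟨b, U, hb, hUs, hUc, hU⟩ := hRQ Y q N Q Q' κ ι φ S i (by linarith) hq1 hq
    (by linarith) hNQ hNQ' hS
  have hcd : (Fintype.card (Fin 3 × κ) : ℝ) ≤ 3 * Y := by
    rw [Fintype.card_prod, Fintype.card_fin]
    push_cast
    linarith [hS.hR]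
  obtain ⟨n, f, g, D0, hD0, hD1, hn, hnD, hfg, hid, hτ⟩ := hLA (Y ^ (C1 + 2)) κ (Fin 3 × κ) b
    (univ.filter fun d => I ⊂ S.ty d.2 ∨ (d.1 ≠ 0 ∧ i ∉ S.ty d.2))
    (univ.filter fun s => S.ty s = I) (fun r => (0, r)) (by linarith) (by linarith [hS.hR])
    (by linarith) (fun r r' h => (Prod.mk.inj h).2)
    (fun a r => (hb a r).trans (Real.exp_le_exp.2 h12))
  have hv : ∀ u ∈ U, (u.1 ∈ S.X ∧ u.1 ∈ bp j q N ∧
        Real.exp (-Y ^ C1) * (N : ℝ) ^ q ≤ (fb S.Ω N u.1).card) ∧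
      (u.1 + ev i u.2.1 ∈ S.X ∧ u.1 + ev i u.2.1 ∈ bp j q N ∧
        Real.exp (-Y ^ C1) * (N : ℝ) ^ q ≤ (fb S.Ω N (u.1 + ev i u.2.1)).card) ∧
      (u.1 + ev i u.2.2 ∈ S.X ∧ u.1 + ev i u.2.2 ∈ bp j q N ∧
        Real.exp (-Y ^ C1) * (N : ℝ) ^ q ≤ (fb S.Ω N (u.1 + ev i u.2.2)).card) ∧
      (u.1 + ev i u.2.1 + ev i u.2.2 ∈ S.X ∧ u.1 + ev i u.2.1 + ev i u.2.2 ∈ bp j q N ∧
        Real.exp (-Y ^ C1) * (N : ℝ) ^ q ≤ (fb S.Ω N (u.1 + ev i u.2.1 + ev i u.2.2)).card) :=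
    fun u hu => ⟨(hU u hu).1 _ (Or.inl rfl), (hU u hu).1 _ (Or.inr (Or.inl rfl)),
      (hU u hu).1 _ (Or.inr (Or.inr (Or.inl rfl))), (hU u hu).1 _ (Or.inr (Or.inr (Or.inr rfl)))⟩
  have hg0 : ∀ s r, g s r ≠ 0 → S.ty r = I := fun s r h => by
    by_contra h1
    exact h (hfg s r (by simpa using h1)).2
  have hz : ∀ u ∈ U, ∀ s, S.ty s = I →
      zd (g s) (fun r => tau S i u.1 u.2.1 u.2.2 (0, r)) = 0 := by
    intro u hu s hs
    obtain ⟨v1, v2, v3, v4⟩ := hv u hu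
    refine hτ Q ι (tau S i u.1 u.2.1 u.2.2) ?_ (fun d hd => ?_) (fun v h1 h2 => ?_) s (by simpa using hs)
    · exact (Real.exp_le_exp.2 (by linarith)).trans (hNe.trans hNQr)
    · exact tau_dead S I i hG v1.1 v2.1 v3.1 v4.1 d (mem_filter.1 hd).2
    · refine (hU u hu).2.2 v (fun r => ?_) h2
      have e1 : (v r : ℝ) ^ 2 ≤ Real.exp (Y ^ K) ^ 2 := by
        rw [← sq_abs]
        exact pow_le_pow_left₀ (abs_nonneg _) ((h1 r).trans (Real.exp_le_exp.2 h3Z)) 2
      calc (v r : ℝ) ^ 2 * Real.exp (Y ^ C1) ≤ Real.exp (Y ^ K) ^ 2 * Real.exp (Y ^ K) :=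
            mul_le_mul e1 (Real.exp_le_exp.2 h1Z) (by positivity) (by positivity)
        _ = Real.exp (3 * Y ^ K) := by
            rw [show 3 * Y ^ K = Y ^ K + Y ^ K + Y ^ K by ring, Real.exp_add, Real.exp_add]; ring
        _ ≤ _ := (Real.exp_le_exp.2 (by linarith)).trans hNe
  obtain ⟨w, p1', p2', hw⟩ := gw' hGW (Y ^ (C1 + 2)) N I i U (by linarith) hN1
    (fun u hu => ⟨(hv u hu).1.2.1, (hv u hu).2.1.2.1, (hv u hu).2.2.1.2.1⟩)
    (le_trans (mul_le_mul_of_nonneg_right (Real.exp_le_exp.2 (by linarith)) (by positivity)) hUc)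
  obtain ⟨P, hP⟩ : ∃ P : Pt j q → Prop, ∀ x, P x ↔
      ∀ J ⊆ I, (sb J w x, p1' - sb J w x i, p2' - sb J w x i) ∈ U := ⟨_, fun _ => Iff.rfl⟩
  obtain ⟨U', hU'c, hU'⟩ : ∃ U' : Finset (Pt j q × Vz q × Vz q),
      Real.exp (-Y ^ (C1 + 3)) * (N : ℝ) ^ (j * q + 2 * q) ≤ U'.card ∧ ∀ u ∈ U', u ∈ U ∧ P u.1 :=
    ⟨_, le_trans (mul_le_mul_of_nonneg_right (Real.exp_le_exp.2 (by linarith)) (by positivity)) hw,
      fun u hu => ⟨(mem_filter.1 hu).1, (hP _).2 (mem_filter.1 hu).2⟩⟩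
  have hPc : ∀ x x', (∀ l ∈ I, x l = x' l) → P x → P x' := by
    intro x x' h h1
    rw [hP] at h1 ⊢
    intro J hJ
    rw [← sb_congr hJ w h]
    exact h1 J hJ
  obtain ⟨X', hX1, hX2, hX3⟩ : ∃ X' : Finset (Pt j q), Dn X' N (Y ^ K) ∧
      (∀ x ∈ X', x ∈ S.X ∧ Real.exp (-Y ^ C1) * (N : ℝ) ^ q ≤ (fb S.Ω N x).card ∧ P x) ∧
      ∀ s, S.ty s = I → (i ∈ I → Cst (fun x => zd (g s) (S.c x)) X' i) ∧
        (i ∉ I → MHi (fun x => zd (g s) (S.c x)) X' i) := by
    by_cases hi : i ∈ I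
    · obtain ⟨w4, X', h1, h2⟩ := pop N hN1 i U' _
        (fun u hu => ⟨(hv u (hU' u hu).1).2.1.2.1, (hv u (hU' u hu).1).2.2.2.2.1⟩) hU'c
      refine ⟨X', ⟨fun x hx => ?_, le_trans (mul_le_mul_of_nonneg_right
        (Real.exp_le_exp.2 (by linarith)) (by positivity)) h1⟩, fun x hx => ?_,
        fun s hs => ⟨fun _ => ?_, fun h => absurd hi h⟩⟩
      · obtain ⟨a, b', h3, -⟩ := h2 x hx
        exact (hv _ (hU' _ h3).1).1.2.1
      · obtain ⟨a, b', h3, -⟩ := h2 x hx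
        exact ⟨(hv _ (hU' _ h3).1).1.1, (hv _ (hU' _ h3).1).1.2.2, (hU' _ h3).2⟩
      · have key : ∀ x ∈ X', zd (g s) (S.c x) = zd (g s) (S.c (Function.update x i w4)) := by
          intro x hx
          obtain ⟨a, b', h3, h5⟩ := h2 x hx
          have h6 := hz _ (hU' _ h3).1 s hs
          rw [zd_congr (g s) _ (fun r => S.c x r - S.c (x + ev i a + ev i b') r)
            (fun r hr => by simp [tau, hg0 s r hr, hi]), zd_sub, add_ev2, h5] at h6
          exact sub_eq_zero.1 h6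
        intro x a b' h3 h5
        simp only
        rw [key _ h3, key _ h5]
        simp
    · let Ω0 := (bp j q N).filter fun x =>
        x ∈ S.X ∧ Real.exp (-Y ^ C1) * (N : ℝ) ^ q ≤ (fb S.Ω N x).card ∧ P x
      let φ' : Pt j q → κ × ι → ZMod Q := fun x d =>
        if S.ty d.1 = I then zd (g d.1) (S.c x) d.2 else 0
      have hev : ∀ (x : Pt j q) (a : Vz q), ∀ l ∈ I, x l = (x + ev i a : Pt j q) l :=
          fun x a l hl => by
        rw [add_ev, Function.update_of_ne]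
        rintro rfl
        exact hi hl
      have henv := env_ge φ' Ω0 N hN1 i U' _ (fun u hu => by
        obtain ⟨hu1, hu2⟩ := hU' u hu
        obtain ⟨v1, v2, v3, v4⟩ := hv u hu1
        have m := mem_product.1 (mem_product.1 (hUs hu1)).2
        refine ⟨m.1, m.2, mem_filter.2 ⟨v1.2.1, v1.1, v1.2.2, hu2⟩,
          mem_filter.2 ⟨v2.2.1, v2.1, v2.2.2, hPc _ _ (hev _ _) hu2⟩,
          mem_filter.2 ⟨v3.2.1, v3.1, v3.2.2, hPc _ _ (hev _ _) hu2⟩,
          mem_filter.2 ⟨v4.2.1, v4.1, v4.2.2, hPc _ _ (hev _ _) (hPc _ _ (hev _ _) hu2)⟩, ?_⟩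
        funext d
        by_cases hs : S.ty d.1 = I
        · have h6 := hz _ hu1 d.1 hs
          rw [zd_congr (g d.1) _ (fun r => S.c u.1 r - S.c (u.1 + ev i u.2.1) r -
            S.c (u.1 + ev i u.2.2) r + S.c (u.1 + ev i u.2.1 + ev i u.2.2) r)
            (fun r hr => by simp [tau, hg0 _ r hr, hi]), zd_par] at h6
          have h7 := congrFun h6 d.2
          simp only [Pi.add_apply, Pi.sub_apply, Pi.zero_apply] at h7
          simp only [φ', hs, if_true, Pi.add_apply]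
          linear_combination h7
        · simp [φ', hs]) hU'c
      obtain ⟨E', h1, h2, h3⟩ := hE (Y ^ (C1 + 3)) q N Q (κ × ι) φ' Ω0 i (by linarith)
        (by linarith) hN1 (filter_subset _ _) henv
      refine ⟨E', ⟨h2.1, le_trans (mul_le_mul_of_nonneg_right
          (Real.exp_le_exp.2 (by linarith)) (by positivity)) h2.2⟩,
          fun x hx => (mem_filter.1 (h1 hx)).2, fun s hs => ⟨fun h => absurd h hi, fun _ => ?_⟩⟩
      intro W s' t' a1 a2 a3
      funext a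
      have := congrFun (h3 W s' t' a1 a2 a3) (s, a)
      simpa [φ', hs, Finset.sum_apply] using this
  have hex : ∀ t : ℝ, t ≤ Real.exp t := fun t => by linarith [Real.add_one_le_exp t]
  have hbig : 2 ^ j * (Fintype.card (Fin 3 × κ) * (Real.exp ((Y ^ (C1 + 2)) ^ C2) *
      Real.exp (Y ^ C1))) ≤ Real.exp (Y ^ C) := by
    have e1 : (2 : ℝ) ^ j ≤ Real.exp (Y ^ K) := by
      calc (2 : ℝ) ^ j ≤ Real.exp 1 ^ j :=
            pow_le_pow_left₀ (by norm_num) (by linarith [Real.add_one_le_exp 1]) j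
        _ = Real.exp j := by rw [← Real.exp_nat_mul, mul_one]
        _ ≤ _ := Real.exp_le_exp.2 (by linarith)
    have e2 : (Fintype.card (Fin 3 × κ) : ℝ) ≤ Real.exp (3 * Y ^ K) :=
      hcd.trans ((by linarith : 3 * Y ≤ 3 * Y ^ K).trans (hex _))
    calc _ ≤ Real.exp (Y ^ K) * (Real.exp (3 * Y ^ K) * (Real.exp (Y ^ K) * Real.exp (Y ^ K))) := by
          gcongr
      _ = Real.exp (6 * Y ^ K) := by
          rw [← Real.exp_add, ← Real.exp_add, ← Real.exp_add]; congr 1; ring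
      _ ≤ _ := Real.exp_le_exp.2 hZC
  have h2j : (1 : ℝ) ≤ 2 ^ j := one_le_pow₀ (by norm_num)
  refine ⟨X', w, fun s r => if S.ty r = I then ∑ a, n s a * b a (0, r) else 0, f, g, D0,
    fun x hx => (hX2 x hx).1, ⟨hX1.1, le_trans (mul_le_mul_of_nonneg_right
      (Real.exp_le_exp.2 (by linarith)) (by positivity)) hX1.2⟩,
    fun x hx => le_trans (mul_le_mul_of_nonneg_right
      (Real.exp_le_exp.2 (by linarith)) (by positivity)) (hX2 x hx).2.1, ?_, fun s r => ?_,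
    fun s r hr => ⟨by simp [hr], hfg s r (by simpa using hr)⟩, fun m r hr => ?_,
    fun x hx J hJ => (hv _ ((hP x).1 (hX2 x hx).2.2 J hJ)).1.1, fun x hx s l => ?_, hX3⟩
  · rw [Ne, ZMod.intCast_zmod_eq_zero_iff_dvd]
    intro h
    have e1 := Int.le_of_dvd (abs_pos.2 hD0) ((dvd_abs _ _).2 h)
    have e2 : (Q : ℝ) ≤ |(D0 : ℝ)| := by exact_mod_cast e1
    have e3 : Real.exp ((Y ^ (C1 + 2)) ^ C2) < Real.exp (Y ^ C) := Real.exp_lt_exp.2 (by linarith)
    linarith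
  · by_cases hr : S.ty r = I
    · simp only [hr, if_true]
      push_cast
      refine (abs_sum_le_sum_abs _ _).trans ?_
      refine (sum_le_card_nsmul _ _ (Real.exp ((Y ^ (C1 + 2)) ^ C2) * Real.exp (Y ^ C1))
        fun a _ => ?_).trans ?_
      · rw [abs_mul]
        exact mul_le_mul (hn s a) (hb a _) (abs_nonneg _) (by positivity)
      · rw [card_univ, nsmul_eq_mul]
        exact le_trans (le_mul_of_one_le_left (by positivity) h2j) hbig
    · simp only [hr, if_false]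
      simp
      positivity
  · rw [hid m r (by simpa using hr)]
    congr 1
    refine sum_congr rfl fun s _ => ?_
    congr 1
    rw [sum_filter, dotProduct]
    refine sum_congr rfl fun r' _ => ?_
    by_cases h : S.ty r' = I <;> simp [h]
  · have e := subst S hdep I i (fun d => ∑ a, n s a * b a d)
      (fun d hd => hnD s d (mem_filter.2 ⟨mem_univ _, hd⟩)) w x p1' p2' l
    simp only at e ⊢
    rw [e]
    obtain ⟨m, hm⟩ := altc I (fun J => ∑ d, ((∑ a, n s a * b a d : ℤ) : ℝ) *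
        fq S i (sb J w x) (p1' - sb J w x i) (p2' - sb J w x i) d l) _ (fun J hJ => by
      have h1 := (hU _ ((hP x).1 (hX2 x hx).2.2 J hJ)).2.1
      obtain ⟨m, hm⟩ := comb (n s) _ _ _ (hn s) (fun a => h1 a l)
      refine ⟨m, le_trans (le_of_eq ?_) hm⟩
      congr 2
      push_cast
      simp only [sum_mul, mul_sum]
      rw [sum_comm]
      exact sum_congr rfl fun a _ => sum_congr rfl fun d _ => by ring)
    refine ⟨m, hm.trans ?_⟩
    rw [le_div_iff₀ hN0]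
    refine le_trans (le_of_eq ?_) hbig
    field_simp

end Vale.Agent.P057T.Gkh
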