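import Vale.Agent.P057T.Gkh.All1
import Vale.Agent.P057T.Gkh.Ra

/-! The closed structure theorem for Freiman multi-homomorphisms. -/

namespace Vale.Agent.P057T.Gkh

theorem gkh : ∀ j, GKH j := gkh_ra ra

end Vale.Agent.P057T.Gkh
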