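import Vale.Agent.P057T.Gkh.Defs
import Vale.Agent.P057L.Num

/-! The induction on the number of classes. -/

set_option linter.all false

open Finset
open scoped BigOperators

namespace Vale.Agent.P057T.Gkh

open Vale.Agent.P057Z Vale.Agent.P057L

theorem gkh_zero : GKH 0 := by
  refine ⟨1, fun Y q N Q _ ι _ _ φ Ω hY _ _ _ _ hD _ => ?_⟩
  have Qp : 0 < Q := (Fact.out : Q.Prime).pos
  haveI : NeZero Q := ⟨Qp.ne'⟩
  push_cast at hY
  refine ⟨[], Ω, fun a _ => (((φ default a).val : ℤ) : ℝ) / Q, Twr.nil, by simp; linarith,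
    subset_rfl, by simpa using hD, fun W _ p hp => by simp at hp, fun a => Frm.cst _ _,
    fun W _ a => ⟨(φ default a).val, ?_, rfl⟩⟩
  rw [Subsingleton.elim W default]
  simp

theorem gkh_step {j : ℕ} (h0 : ST0 j) (hI : ITER) (hT : TH) (hF : FIN j) : GKH (j + 1) := by
  obtain ⟨A, h0⟩ := h0
  obtain ⟨B, hI⟩ := hI j
  obtain ⟨D, hT⟩ := hT j
  obtain ⟨E, hF⟩ := hF
  refine ⟨(A + 1) * (B + 1) * (D + 1) * (E + 1) + A + B + D + E + 2,
    fun Y q N Q _ ι _ _ φ Ω hY q1 hq hN NQ hD hφ => ?_⟩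
  push_cast at hY
  have A0 : (0 : ℝ) ≤ A := Nat.cast_nonneg _
  have B0 : (0 : ℝ) ≤ B := Nat.cast_nonneg _
  have D0 : (0 : ℝ) ≤ D := Nat.cast_nonneg _
  have E0 : (0 : ℝ) ≤ E := Nat.cast_nonneg _
  have P0 : (0 : ℝ) ≤ (A + 1) * (B + 1) * (D + 1) * (E + 1) := by positivity
  have Y1 : 1 ≤ Y := by linarith
  set C := (A + 1) * (B + 1) * (D + 1) * (E + 1) + A + B + D + E + 2 with hC
  have mono : ∀ {κ : Type} [Fintype κ] {Q' : ℕ} {S : Dat j q Q κ ι} {a b : ℝ}, a ≤ b →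
      St a N Q' φ S → St b N Q' φ S := fun hab h =>
    ⟨h.hR.trans hab, h.hL.trans hab, h.dn.mono hab, h.mh, h.hX, h.twr, h.frm, h.cel, h.rat, h.arc,
      h.ch⟩
  have l1 : A + 1 ≤ (A + 1) * (B + 1) := Nat.le_mul_of_pos_right _ (by omega)
  have l2 : (A + 1) * (B + 1) ≤ (A + 1) * (B + 1) * (D + 1) := Nat.le_mul_of_pos_right _ (by omega)
  have l3 : (A + 1) * (B + 1) * (D + 1) ≤ (A + 1) * (B + 1) * (D + 1) * (E + 1) :=
    Nat.le_mul_of_pos_right _ (by omega)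
  have m1 : (A + 1) * B ≤ (A + 1) * (B + 1) := Nat.mul_le_mul_left _ (by omega)
  have m2 : (A + 1) * (B + 1) * D ≤ (A + 1) * (B + 1) * (D + 1) := Nat.mul_le_mul_left _ (by omega)
  have m3 : (A + 1) * (B + 1) * (D + 1) * E ≤ (A + 1) * (B + 1) * (D + 1) * (E + 1) :=
    Nat.mul_le_mul_left _ (by omega)
  have up : ∀ a : ℕ, 1 ≤ a → Y ≤ Y ^ a := fun a ha => le_pw Y1 ha
  have lg : ∀ a : ℕ, a ≤ C → Y ^ a ≤ Real.log N := fun a ha => (pw_le Y1 ha).trans hN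
  obtain ⟨Q', _, R, S0, NQ', s0, t0⟩ := h0 Y q N Q ι φ Ω (by linarith) q1 hq (lg _ (by omega)) NQ hD hφ
  have t0' := mono (pw_le Y1 (Nat.le_succ A)) t0
  obtain ⟨κ, _, _, S1, s1, t1, g1⟩ := hI (Y ^ (A + 1)) q N Q Q' (Fin R) ι φ S0
    (le_trans (by linarith) (up _ (by omega))) q1 (hq.trans (up _ (by omega)))
    (by rw [← pow_mul]; exact lg _ (by omega)) NQ NQ' t0'
  rw [← pow_mul] at t1
  have t1' := mono (pw_le Y1 m1) t1
  obtain ⟨S2, s2, t2, g2, h2⟩ := hT (Y ^ ((A + 1) * (B + 1))) q N Q Q' κ ι φ S1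
    (le_trans (by linarith) (up _ (by omega))) q1 (hq.trans (up _ (by omega)))
    (by rw [← pow_mul]; exact lg _ (by omega)) NQ t1' g1
  rw [← pow_mul] at t2
  have t2' := mono (pw_le Y1 m2) t2
  obtain ⟨L, Ω1, F, f1, f2, f3, f4, f5, f6, f7⟩ := hF (Y ^ ((A + 1) * (B + 1) * (D + 1))) q N Q Q' κ ι
    φ S2 (le_trans (by linarith) (up _ (by omega))) q1 (hq.trans (up _ (by omega)))
    (by rw [← pow_mul]; exact lg _ (by omega)) NQ t2' g2 h2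
  rw [← pow_mul] at f2 f4
  have hc : Y ^ ((A + 1) * (B + 1) * (D + 1) * E) ≤ Y ^ C := pw_le Y1 (by omega)
  exact ⟨L, Ω1, F, f1, f2.trans hc, f3.trans (s2.trans (s1.trans s0)), f4.mono hc, f5, f6, f7⟩

theorem gkh_of (h0 : ∀ j, GKH j → ST0 j) (hI : ITER) (hT : TH) (hF : ∀ j, GKH j → FIN j) :
    ∀ j, GKH j
  | 0 => gkh_zero
  | j + 1 => gkh_step (h0 j (gkh_of h0 hI hT hF j)) hI hT (hF j (gkh_of h0 hI hT hF j))

end Vale.Agent.P057T.Gkh
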