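import Vale.Agent.P057T.Gkh.Defs
import Vale.Agent.P057T.Gkh.Cube

/-! Base points with all hybrids. -/

set_option linter.all false

open Finset
open scoped BigOperators

namespace Vale.Agent.P057T.Gkh

open Vale.Agent.P057L

namespace CubA

theorem sb_eq {j q : ℕ} (J : Finset (Fin j)) (w x : Pt j q) : sb J w x = Jᶜ.piecewise w x := by
  funext i
  by_cases h : i ∈ J
  · rw [piecewise_eq_of_notMem _ _ _ (by simpa using h)]
    exact if_pos h
  · rw [piecewise_eq_of_mem _ _ _ (by simpa using h)]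
    exact if_neg h

theorem card_bz (q N : ℕ) : ((bz q N).card : ℝ) = (N : ℝ) ^ q := by simp [bz, rg]

theorem card_bp (j q N : ℕ) : ((bp j q N).card : ℝ) = (N : ℝ) ^ (j * q) := by
  simp [bp, bz, rg, ← pow_mul, mul_comm]

theorem bz_ne (q N : ℕ) (hN : 1 ≤ N) : (bz q N).Nonempty := by
  rw [← card_pos, ← Nat.cast_pos (α := ℝ), card_bz]
  have : (0 : ℝ) < N := by exact_mod_cast hN
  positivity

theorem cube0 (j q N : ℕ) (Y : ℝ) (S : Finset (Pt j q)) (hN : 1 ≤ N) (hS : Dn S N Y) :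
    ∃ w ∈ S, ∃ S1 ⊆ S, Dn S1 N ((2 ^ j : ℕ) * Y) ∧ ∀ x ∈ S1, ∀ J, sb J w x ∈ S := by
  have e : ((bz q N).card : ℝ) ^ j = (N : ℝ) ^ (j * q) := by
    rw [card_bz, ← pow_mul, mul_comm]
  obtain ⟨w, -, S1, h1, h2, h3⟩ := Cube.cube (bz q N) (bz_ne q N hN) univ S (Real.exp (-Y)) hS.1
    (Real.exp_nonneg _) (by rw [e]; exact hS.2)
  rw [e, card_univ, Fintype.card_fin, ← Real.exp_nat_mul] at h2
  have hN' : (0 : ℝ) < N := by exact_mod_cast hN
  have h4 : S1.Nonempty := by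
    rw [← card_pos, ← Nat.cast_pos (α := ℝ)]
    exact lt_of_lt_of_le (by positivity) h2
  obtain ⟨x, hx⟩ := h4
  refine ⟨w, by simpa using h3 x hx univ Subset.rfl, S1, h1, ⟨h1.trans hS.1, ?_⟩,
    fun x hx J => ?_⟩
  · rw [← mul_neg]
    exact h2
  · rw [sb_eq]
    exact h3 x hx _ (subset_univ _)

end CubA

theorem cube : CUBE := fun j =>
  ⟨2 ^ j, fun Y q N S _ hN hS => CubA.cube0 j q N Y S hN hS⟩

theorem gw : GW := by
  classical
  intro j
  refine ⟨2 * (2 ^ j + 1), fun Y q N β B I U hY hN hB hU h => ?_⟩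
  have hY1 : 1 ≤ Y := by
    refine le_trans ?_ hY
    have : 1 ≤ 2 * (2 ^ j + 1) := Nat.succ_le_of_lt (by positivity)
    exact_mod_cast this
  have hN' : (0 : ℝ) < N := by exact_mod_cast hN
  have hb : (0 : ℝ) < B.card := by exact_mod_cast hB.card_pos
  let c : Pt j q → ℝ := fun x => ((B.filter fun b => (x, b) ∈ U).card : ℝ)
  have hc : ∀ T : Finset (Pt j q), (((T ×ˢ B).filter fun u => u ∈ U).card : ℝ) = ∑ x ∈ T, c x := by
    intro T
    simp only [c, card_filter]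
    push_cast
    rw [sum_product]
  have h1 : (U.card : ℝ) = ∑ x ∈ bp j q N, c x := by
    rw [← hc, filter_mem_eq_inter, inter_eq_right.2 hU]
  have d2 : Real.exp (-(2 * Y)) ≤ Real.exp (-Y) / 2 := by
    have : (2 : ℝ) ≤ Real.exp Y := by linarith [Real.add_one_le_exp Y]
    rw [le_div_iff₀ (by norm_num), show -Y = -(2 * Y) + Y by ring, Real.exp_add]
    exact mul_le_mul_of_nonneg_left this (Real.exp_nonneg _)
  let Pop := (bp j q N).filter fun x => Real.exp (-Y) / 2 * B.card ≤ c x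
  have h2 : Real.exp (-Y) / 2 * (N : ℝ) ^ (j * q) * B.card ≤ ∑ x ∈ Pop, c x := by
    have a := sum_filter_add_sum_filter_not (bp j q N)
      (fun x => Real.exp (-Y) / 2 * B.card ≤ c x) c
    have b : ∑ x ∈ (bp j q N).filter (fun x => ¬ Real.exp (-Y) / 2 * B.card ≤ c x), c x ≤
        (N : ℝ) ^ (j * q) * (Real.exp (-Y) / 2 * B.card) := by
      refine (sum_le_card_nsmul _ _ (Real.exp (-Y) / 2 * B.card) fun x hx =>
        (not_le.1 (mem_filter.1 hx).2).le).trans ?_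
      rw [nsmul_eq_mul, ← CubA.card_bp]
      refine mul_le_mul_of_nonneg_right ?_ (by positivity)
      exact_mod_cast card_filter_le _ _
    show _ ≤ ∑ x ∈ (bp j q N).filter _, c x
    linarith
  have h3 : ∑ x ∈ Pop, c x = ∑ p ∈ B, ((Pop.filter fun x => (x, p) ∈ U).card : ℝ) := by
    simp only [c, card_filter]
    push_cast
    rw [sum_comm]
  obtain ⟨p, -, hp⟩ : ∃ p ∈ B, Real.exp (-Y) / 2 * (N : ℝ) ^ (j * q) ≤
      ((Pop.filter fun x => (x, p) ∈ U).card : ℝ) := by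
    apply exists_le_of_sum_le hB
    rw [sum_const, nsmul_eq_mul, ← h3, mul_comm]
    exact h2
  obtain ⟨w, -, S1, hS1, hd, hh⟩ := CubA.cube0 j q N (2 * Y) (Pop.filter fun x => (x, p) ∈ U) hN
    ⟨(filter_subset _ _).trans (filter_subset _ _),
      le_trans (mul_le_mul_of_nonneg_right d2 (by positivity)) hp⟩
  refine ⟨w, p, ?_⟩
  have h4 : ((S1 ×ˢ B).filter fun u => u ∈ U) ⊆
      U.filter fun u => ∀ J ⊆ I, (sb J w u.1, p) ∈ U := by
    intro u hu
    rw [mem_filter, mem_product] at hu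
    exact mem_filter.2 ⟨hu.2, fun J _ => (mem_filter.1 (hh _ hu.1.1 J)).2⟩
  refine le_trans ?_ (Nat.cast_le.2 (card_le_card h4))
  rw [hc]
  have h5 : (S1.card : ℝ) * (Real.exp (-Y) / 2 * B.card) ≤ ∑ x ∈ S1, c x := by
    rw [← nsmul_eq_mul]
    exact card_nsmul_le_sum _ _ _ fun x hx => (mem_filter.1 (mem_filter.1 (hS1 hx)).1).2
  refine le_trans ?_ h5
  have e : Real.exp (-(((2 * (2 ^ j + 1) : ℕ) : ℝ) * Y)) =
      Real.exp (-(((2 ^ j : ℕ) : ℝ) * (2 * Y))) * Real.exp (-(2 * Y)) := by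
    rw [← Real.exp_add]
    congr 1
    push_cast
    ring
  rw [e]
  calc Real.exp (-(((2 ^ j : ℕ) : ℝ) * (2 * Y))) * Real.exp (-(2 * Y)) * (N : ℝ) ^ (j * q) * B.card
      = Real.exp (-(((2 ^ j : ℕ) : ℝ) * (2 * Y))) * (N : ℝ) ^ (j * q) *
        (Real.exp (-(2 * Y)) * B.card) := by ring
    _ ≤ _ := mul_le_mul hd.2 (mul_le_mul_of_nonneg_right d2 hb.le) (by positivity) (by positivity)

end Vale.Agent.P057T.Gkh
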