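import Vale.Agent.P057T.Gkh.Defs

/-! The end of the step. -/

set_option linter.all false

open Finset
open scoped BigOperators

namespace Vale.Agent.P057T.Gkh

open Vale.Agent.P057Z Vale.Agent.P057L

noncomputable section

namespace FinA

variable {j q : ℕ}

lemma rp_add {Q : ℕ} {a b : ZMod Q} {s t : ℝ} (h : Rp Q a s) (h' : Rp Q b t) :
    Rp Q (a + b) (s + t) := by
  obtain ⟨n, hn, rfl⟩ := h
  obtain ⟨m, hm, rfl⟩ := h'
  refine ⟨n + m, by push_cast; rw [hn, hm], by push_cast; ring⟩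

lemma rp_smul {Q : ℕ} {a : ZMod Q} {s : ℝ} (m : ℤ) (h : Rp Q a s) :
    Rp Q (m • a) ((m : ℝ) * s) := by
  obtain ⟨n, hn, rfl⟩ := h
  refine ⟨m * n, by push_cast; rw [hn, zsmul_eq_mul], by push_cast; ring⟩

lemma rp_sum {Q : ℕ} {α : Type} (s : Finset α) (a : α → ZMod Q) (t : α → ℝ)
    (h : ∀ i ∈ s, Rp Q (a i) (t i)) : Rp Q (∑ i ∈ s, a i) (∑ i ∈ s, t i) := by
  classical
  induction s using Finset.induction_on with
  | empty => exact ⟨0, by simp, by simp⟩
  | insert i s hi ih =>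
    rw [sum_insert hi, sum_insert hi]
    exact rp_add (h i (mem_insert_self _ _)) (ih fun k hk => h k (mem_insert_of_mem hk))

lemma rp_zd {Q : ℕ} {α ι : Type} [Fintype α] (v : α → ℤ) (θ : α → ι → ZMod Q) (a : ι) (t : α → ℝ)
    (h : ∀ i, Rp Q (θ i a) (t i)) : Rp Q (zd v θ a) (∑ i, (v i : ℝ) * t i) := by
  have e : zd v θ a = ∑ i, v i • θ i a := by
    unfold zd
    rw [Finset.sum_apply]
    rfl
  rw [e]
  exact rp_sum _ _ _ fun i _ => rp_smul _ (h i)

lemma dn_mono {Ω : Finset (Pt j q)} {N : ℕ} {Y Y' : ℝ} (h : Dn Ω N Y) (hY : Y ≤ Y') : Dn Ω N Y' := by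
  refine ⟨h.1, le_trans ?_ h.2⟩
  exact mul_le_mul_of_nonneg_right (Real.exp_le_exp.2 (by linarith)) (by positivity)

lemma mhi_cst {H : Type} [AddCommGroup H] {g : Pt j q → H} {X : Finset (Pt j q)} {i : Fin j}
    (h : Cst g X i) : MHi g X i := by
  intro W s t hs ht _
  exact Finset.sum_congr rfl fun a _ => h W _ _ (hs a) (ht a)

lemma mhi_sub {H : Type} [AddCommGroup H] {g : Pt j q → H} {X X' : Finset (Pt j q)} {i : Fin j}
    (h : MHi g X i) (hX : X' ⊆ X) : MHi g X' i :=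
  fun W s t hs ht e => h W s t (fun a => hX (hs a)) (fun a => hX (ht a)) e

/-- changing the classes of T to the base point -/
lemma cst_sb {H : Type} {g : Pt j q → H} {X : Finset (Pt j q)} {t : Finset (Fin j)} {w x : Pt j q}
    (h : ∀ i ∈ t, Cst g X i) (hx : ∀ J, sb J w x ∈ X) (T : Finset (Fin j)) (hT : T ⊆ t) :
    g x = g (sb Tᶜ w x) := by
  induction T using Finset.induction_on with
  | empty =>
    have : sb (∅ : Finset (Fin j))ᶜ w x = x := by
      funext i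
      simp [sb]
    rw [this]
  | insert i T hi ih =>
    rw [ih (fun k hk => hT (mem_insert_of_mem hk))]
    have e1 : sb Tᶜ w x = Function.update (sb Tᶜ w x) i (x i) := by
      funext k
      by_cases hk : k = i
      · subst hk
        simp [sb, hi]
      · rw [Function.update_of_ne hk]
    have e2 : sb (insert i T)ᶜ w x = Function.update (sb Tᶜ w x) i (w i) := by
      funext k
      by_cases hk : k = i
      · subst hk
        simp [sb]
      · rw [Function.update_of_ne hk]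
        simp [sb, hk]
    have := h i (hT (mem_insert_self _ _)) (sb Tᶜ w x) (x i) (w i) (by rw [← e1]; exact hx _)
      (by rw [← e2]; exact hx _)
    rw [← e1, ← e2] at this
    exact this

open Classical in
/-- a popular value of the first class -/
lemma pop (hB : BAS) {N : ℕ} {Y : ℝ} {Ω : Finset (Pt (j + 1) q)} (hN : 1 ≤ N) (hD : Dn Ω N Y) :
    ∃ (y0 : Vz q) (X : Finset (Pt j q)), Dn X N (Y + 1) ∧
      ∀ x ∈ X, cn y0 x ∈ Ω ∧ Real.exp (-(Y + 1)) * (N : ℝ) ^ q ≤ (fb Ω N x).card := by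
  obtain ⟨h1, h2, h3, h4, -⟩ := hB
  have hN0 : (0 : ℝ) < N := by exact_mod_cast hN
  set δ : ℝ := Real.exp (-(Y + 1)) with hδ
  have hδ0 : 0 < δ := Real.exp_pos _
  have h2δ : 2 * δ ≤ Real.exp (-Y) := by
    have e : Real.exp (-Y) = Real.exp 1 * δ := by
      rw [hδ, ← Real.exp_add]
      congr 1
      ring
    have : (2 : ℝ) ≤ Real.exp 1 := by linarith [Real.add_one_le_exp (1 : ℝ)]
    rw [e]
    exact mul_le_mul_of_nonneg_right this hδ0.le
  set X0 := (bp j q N).filter fun x => δ * (N : ℝ) ^ q ≤ (fb Ω N x).card with hX0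
  have hsum : (Ω.card : ℝ) = ∑ x ∈ bp j q N, ((fb Ω N x).card : ℝ) := by
    rw [h3 j q N Ω hD.1]
    push_cast
    rfl
  have hsplit := Finset.sum_filter_add_sum_filter_not (bp j q N)
    (fun x => δ * (N : ℝ) ^ q ≤ (fb Ω N x).card) (fun x => ((fb Ω N x).card : ℝ))
  have hlow : ∑ x ∈ (bp j q N).filter (fun x => ¬ δ * (N : ℝ) ^ q ≤ (fb Ω N x).card),
      ((fb Ω N x).card : ℝ) ≤ δ * (N : ℝ) ^ ((j + 1) * q) := by
    calc _ ≤ ∑ x ∈ (bp j q N).filter (fun x => ¬ δ * (N : ℝ) ^ q ≤ (fb Ω N x).card),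
          δ * (N : ℝ) ^ q := Finset.sum_le_sum fun x hx => (not_le.1 (mem_filter.1 hx).2).le
      _ ≤ ∑ x ∈ bp j q N, δ * (N : ℝ) ^ q :=
          Finset.sum_le_sum_of_subset_of_nonneg (filter_subset _ _) fun _ _ _ => by positivity
      _ = δ * (N : ℝ) ^ ((j + 1) * q) := by
          rw [sum_const, h2, nsmul_eq_mul]
          push_cast
          ring
  have hbig : δ * (N : ℝ) ^ ((j + 1) * q) ≤ ∑ x ∈ X0, ((fb Ω N x).card : ℝ) := by
    have h5 := hD.2
    have h6 : 2 * δ * (N : ℝ) ^ ((j + 1) * q) ≤ Real.exp (-Y) * (N : ℝ) ^ ((j + 1) * q) :=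
      mul_le_mul_of_nonneg_right h2δ (by positivity)
    rw [hsum, ← hsplit] at h5
    linarith
  have hsw : ∑ x ∈ X0, ((fb Ω N x).card : ℝ) =
      ∑ y ∈ bz q N, ((X0.filter fun x => cn y x ∈ Ω).card : ℝ) := by
    have e1 : ∀ x, ((fb Ω N x).card : ℝ) = ∑ y ∈ bz q N, if cn y x ∈ Ω then (1 : ℝ) else 0 := by
      intro x
      unfold fb
      rw [Finset.sum_boole]
    have e2 : ∀ y, ((X0.filter fun x => cn y x ∈ Ω).card : ℝ) =
        ∑ x ∈ X0, if cn y x ∈ Ω then (1 : ℝ) else 0 := by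
      intro y
      rw [Finset.sum_boole]
    simp only [e1, e2]
    exact Finset.sum_comm
  have hne : (bz q N).Nonempty := by
    rw [← Finset.card_pos, (h1 q N).1]
    positivity
  have hav : ∑ y ∈ bz q N, δ * (N : ℝ) ^ (j * q) ≤
      ∑ y ∈ bz q N, ((X0.filter fun x => cn y x ∈ Ω).card : ℝ) := by
    rw [← hsw]
    refine le_trans (le_of_eq ?_) hbig
    rw [sum_const, (h1 q N).1, nsmul_eq_mul]
    push_cast
    ring
  obtain ⟨y0, -, hy0⟩ := Finset.exists_le_of_sum_le hne hav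
  refine ⟨y0, X0.filter fun x => cn y0 x ∈ Ω, ⟨fun x hx => ?_, hy0⟩, fun x hx => ?_⟩
  · exact (mem_filter.1 (mem_filter.1 hx).1).1
  · exact ⟨(mem_filter.1 hx).2, (mem_filter.1 (mem_filter.1 hx).1).2⟩

open Classical in
/-- the points over a dense set with dense fibres -/
lemma ovr (hB : BAS) {N : ℕ} {Y Z : ℝ} {Ω : Finset (Pt (j + 1) q)} {X : Finset (Pt j q)}
    (hΩ : Ω ⊆ bp (j + 1) q N) (hX : Dn X N Z)
    (hf : ∀ x ∈ X, Real.exp (-Y) * (N : ℝ) ^ q ≤ (fb Ω N x).card) :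
    Dn (Ω.filter fun W => Fin.tail W ∈ X) N (Z + Y) := by
  obtain ⟨h1, h2, h3, h4, -⟩ := hB
  have hsub : (Ω.filter fun W : Pt (j + 1) q => (Fin.tail W : Pt j q) ∈ X) ⊆ bp (j + 1) q N :=
    (filter_subset _ _).trans hΩ
  refine ⟨hsub, ?_⟩
  rw [h3 j q N _ hsub]
  push_cast
  have e : ∀ x ∈ X, fb (Ω.filter fun W : Pt (j + 1) q => (Fin.tail W : Pt j q) ∈ X) N x = fb Ω N x := by
    intro x hx
    ext y
    unfold fb
    rw [mem_filter, mem_filter, mem_filter]
    have : (Fin.tail (cn y x) : Pt j q) = x := Fin.tail_cons _ _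
    rw [this]
    exact ⟨fun h => ⟨h.1, h.2.1⟩, fun h => ⟨h.1, h.2, hx⟩⟩
  calc Real.exp (-(Z + Y)) * (N : ℝ) ^ ((j + 1) * q)
      = (Real.exp (-Z) * (N : ℝ) ^ (j * q)) * (Real.exp (-Y) * (N : ℝ) ^ q) := by
        rw [neg_add, Real.exp_add]
        ring
    _ ≤ (X.card : ℝ) * (Real.exp (-Y) * (N : ℝ) ^ q) :=
        mul_le_mul_of_nonneg_right hX.2 (by positivity)
    _ = ∑ x ∈ X, Real.exp (-Y) * (N : ℝ) ^ q := by rw [sum_const, nsmul_eq_mul]
    _ ≤ ∑ x ∈ X, ((fb (Ω.filter fun W : Pt (j + 1) q => (Fin.tail W : Pt j q) ∈ X) N x).card : ℝ) :=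
        Finset.sum_le_sum fun x hx => by rw [e x hx]; exact hf x hx
    _ ≤ ∑ x ∈ bp j q N, ((fb (Ω.filter fun W : Pt (j + 1) q => (Fin.tail W : Pt j q) ∈ X) N x).card : ℝ) :=
        Finset.sum_le_sum_of_subset_of_nonneg hX.1 fun _ _ _ => by positivity

lemma twr_flat (hF : FRM) {α : Type} (s : List α) (f : α → List (Cd j q)) (h : ∀ a, Twr (f a)) :
    Twr (s.flatMap f) := by
  induction s with
  | nil => exact Twr.nil
  | cons a s ih =>
    rw [List.flatMap_cons]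
    exact (hF j q).2.2.2.1 _ _ (h a) ih

lemma len_flat {α β : Type} (s : List α) (f : α → List β) (n : ℕ) (h : ∀ a, (f a).length = n) :
    (s.flatMap f).length = s.length * n := by
  induction s with
  | nil => simp
  | cons a s ih =>
    rw [List.flatMap_cons, List.length_append, ih, h, List.length_cons]
    ring

/-- the stacked map -/
def stk {Q : ℕ} {κ ι : Type} (φ : Pt (j + 1) q → ι → ZMod Q) (S : Dat j q Q κ ι) (y0 : Vz q)
    (x : Pt j q) : Option (Fin q ⊕ κ) × ι → ZMod Q := fun p =>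
  match p.1 with
  | none => φ (cn y0 x) p.2
  | some (Sum.inl l) => S.θ x l p.2
  | some (Sum.inr r) => S.c x r p.2

lemma mh_stk (hB : BAS) {Q N Q' : ℕ} {κ ι : Type} [Fintype κ] {Y : ℝ}
    {φ : Pt (j + 1) q → ι → ZMod Q} {S : Dat j q Q κ ι} (hS : St Y N Q' φ S)
    (hG : ∀ t i, Gl S t i) (hθ : MH S.θ S.X) {y0 : Vz q} {X : Finset (Pt j q)}
    (hX : ∀ x ∈ X, cn y0 x ∈ S.Ω) : MH (stk φ S y0) X := by
  have hXS : X ⊆ S.X := fun x hx => hS.hX _ _ (hX x hx)
  have h0 : MH (fun x => φ (cn y0 x)) X := hB.2.2.2.2.2.2.2.1 j q _ φ S.Ω X y0 hS.mh hX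
  intro i W s t hs ht e
  have hc : ∀ r, MHi (fun x => S.c x r) X i := by
    intro r
    have := hG (S.ty r) i r rfl
    by_cases hi : i ∈ S.ty r
    · exact mhi_sub (mhi_cst (this.1 hi)) hXS
    · exact mhi_sub (this.2 hi) hXS
  funext p
  rw [Finset.sum_apply, Finset.sum_apply]
  obtain ⟨p, a⟩ := p
  rcases p with _ | l | r
  · have := congrFun (h0 i W s t hs ht e) a
    rw [Finset.sum_apply, Finset.sum_apply] at this
    exact this
  · have := congrFun (congrFun (mhi_sub (hθ i) hXS W s t hs ht e) l) a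
    rw [Finset.sum_apply, Finset.sum_apply, Finset.sum_apply, Finset.sum_apply] at this
    exact this
  · have := congrFun (hc r W s t hs ht e) a
    rw [Finset.sum_apply, Finset.sum_apply] at this
    exact this

lemma zero_nmem (t : Finset (Fin j)) : (0 : Fin (j + 1)) ∉ t.map (Fin.succEmb j) := by
  intro h
  obtain ⟨i, -, hi⟩ := mem_map.1 h
  exact Fin.succ_ne_zero i hi

/-- a difference in the first class times a form of the other classes -/
lemma frm_dif (hF : FRM) {L : List (Cd (j + 1) q)} {t : Finset (Fin (j + 1))}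
    {G : Pt (j + 1) q → ℝ} (h0 : (0 : Fin (j + 1)) ∉ t) (hG : Frm L t G) (y0 : Vz q) (l : Fin q) :
    Frm L (insert 0 t) (fun W => ((W 0 l - y0 l : ℤ) : ℝ) * G W) := by
  have h1 := Frm.ent 0 l h0 hG
  have h2 := Frm.mono (subset_insert 0 t) ((hF (j + 1) q).1 L t G (-(y0 l : ℝ)) hG)
  have e : (fun W : Pt (j + 1) q => ((W 0 l - y0 l : ℤ) : ℝ) * G W) =
      fun W => (W 0 l : ℝ) * G W + -(y0 l : ℝ) * G W := by
    funext W
    push_cast
    ring
  rw [e]
  exact Frm.add h1 h2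

end FinA

open FinA in
theorem fin (hB : BAS) (hF : FRM) (hC : CUBE) (j : ℕ) (hK : GKH j) : FIN j := by
  classical
  obtain ⟨C1, hK⟩ := hK
  obtain ⟨C2, hC⟩ := hC j
  refine ⟨2 * C1 + C2 + 4, ?_⟩
  intro Y q N Q Q' _ κ ι _ _ _ _ φ S hY hq hqY hN hNQ hS hG hθ
  push_cast at hY
  have hC1 : (0 : ℝ) ≤ C1 := Nat.cast_nonneg _
  have hC2 : (0 : ℝ) ≤ C2 := Nat.cast_nonneg _
  have hY4 : (4 : ℝ) ≤ Y := by linarith
  have hY1 : (1 : ℝ) ≤ Y := by linarith
  have hpw : ∀ a b : ℕ, a ≤ b → Y ^ a ≤ Y ^ b := fun a b h => pow_le_pow_right₀ hY1 h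
  have hN1 : 1 ≤ N := by
    rcases Nat.eq_zero_or_pos N with h | h
    · subst h
      have := one_le_pow₀ (n := 2 * C1 + C2 + 4) hY1
      simp at hN
      linarith
    · exact h
  have hY2 : Y + 1 ≤ Y ^ 2 := by nlinarith
  obtain ⟨y0, X0, hX0, hx0⟩ := pop hB hN1 hS.dn
  obtain ⟨L2, X1, F2, hT2, hl2, hs1, hD1, hcel2, hfr2, hrp⟩ :=
    hK (Y ^ 2) q N Q (Option (Fin q ⊕ κ) × ι) (stk φ S y0) X0 (by linarith) hq (by linarith)
      (by rw [← pow_mul]; exact le_trans (hpw _ _ (by omega)) hN) hNQ (dn_mono hX0 hY2)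
      (mh_stk hB hS hG hθ fun x hx => (hx0 x hx).1)
  rw [← pow_mul] at hl2 hD1
  have hYp : Y ≤ Y ^ (2 * C1 + 1) := by
    have := hpw 1 (2 * C1 + 1) (by omega)
    rwa [pow_one] at this
  obtain ⟨w, -, X2, hs2, hD2, hsb⟩ := hC (Y ^ (2 * C1 + 1)) q N X1 (by linarith) hN1
    (dn_mono hD1 (hpw _ _ (by omega)))
  have hXS : X1 ⊆ S.X := fun x hx => hS.hX _ _ (hx0 x (hs1 hx)).1
  obtain ⟨f1, f2, f3, f4, f5, -, -, f8, f9, f10, f11⟩ := hF j q
  set LC : List (Cd j q) := (univ : Finset κ).toList.flatMap fun r => cp (S.ty r)ᶜ w L2 with hLC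
  set L3 : List (Cd j q) := S.L ++ (L2 ++ LC) with hL3
  set P : κ → Pt (j + 1) q → ℝ := fun r W => dt (S.Ψ r (Fin.tail W)) (W 0 - y0) with hP
  set tp : κ → Finset (Fin (j + 1)) := fun r => insert 0 ((S.ty r).map (Fin.succEmb j)) with htp
  set L : List (Cd (j + 1) q) := (univ : Finset κ).toList.map (fun r => (tp r, P r)) ++ tl L3 with hL
  have hT3 : Twr L3 := f4 _ _ hS.twr (f4 _ _ hT2 (twr_flat hF _ _ fun r => f8 _ _ _ hT2))
  have s1 : S.L ⊆ L3 := List.subset_append_left _ _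
  have s2 : L2 ⊆ L3 := fun p hp => List.mem_append_right _ (List.mem_append_left _ hp)
  have s3 : ∀ r, cp (S.ty r)ᶜ w L2 ⊆ L3 := by
    intro r p hp
    refine List.subset_append_right _ _ (List.subset_append_right _ _ ?_)
    exact List.mem_flatMap.2 ⟨r, Finset.mem_toList.2 (mem_univ r), hp⟩
  have s4 : tl L3 ⊆ L := List.subset_append_right _ _
  have up : ∀ t G, Frm L3 t G →
      Frm L (t.map (Fin.succEmb j)) (fun W => G (Fin.tail W)) :=
    fun t G h => (hF (j + 1) q).2.2.1 _ _ _ _ s4 (f11 _ _ _ h)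
  have hPf : ∀ r, Frm (tl L3) (tp r) (P r) := by
    intro r
    have e : P r = fun W : Pt (j + 1) q => ∑ l, ((W 0 l - y0 l : ℤ) : ℝ) * S.Ψ r (Fin.tail W) l := by
      funext W
      simp only [hP, dt, Pi.sub_apply]
      exact Finset.sum_congr rfl fun l _ => mul_comm _ _
    rw [e]
    refine (hF (j + 1) q).2.1 _ _ _ univ
      (fun l (W : Pt (j + 1) q) => ((W 0 l - y0 l : ℤ) : ℝ) * S.Ψ r (Fin.tail W) l) fun l _ => ?_
    exact frm_dif hF (zero_nmem _) (f11 _ _ _ (f3 _ _ _ _ s1 (hS.frm r l))) y0 l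
  have hcn : ∀ W : Pt (j + 1) q, cn (W 0) (Fin.tail W) = W := fun W => Fin.cons_self_tail W
  refine ⟨L, S.Ω.filter fun W => Fin.tail W ∈ X2, fun a W => F2 (none, a) (Fin.tail W) +
      (∑ l, ((W 0 l - y0 l : ℤ) : ℝ) * F2 (some (Sum.inl l), a) (Fin.tail W) +
      ∑ r, (round (P r W) : ℝ) * F2 (some (Sum.inr r), a) (sb (S.ty r)ᶜ w (Fin.tail W))),
    ?_, ?_, filter_subset _ _, ?_, ?_, ?_, ?_⟩
  · exact (hF (j + 1) q).2.2.2.2.1 _ _ _ _ _ (f10 _ hT3) fun r _ => hPf r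
  · have e1 : LC.length = Fintype.card κ * L2.length := by
      rw [hLC, len_flat _ _ L2.length fun r => by simp [cp], Finset.length_toList, card_univ]
    have e2 : L.length = Fintype.card κ + (S.L.length + (L2.length + Fintype.card κ * L2.length)) := by
      rw [hL, List.length_append, List.length_map, Finset.length_toList, card_univ, tl,
        List.length_map, hL3, List.length_append, List.length_append, e1]
    rw [e2]
    push_cast
    have h1 := hS.hR
    have h2 := hS.hL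
    have h3 : (Fintype.card κ : ℝ) * L2.length ≤ Y ^ (2 * C1 + 1) := by
      rw [pow_succ']
      exact mul_le_mul h1 hl2 (Nat.cast_nonneg _) (by linarith)
    have h4 := hpw (2 * C1) (2 * C1 + 1) (by omega)
    have h5 : 4 * Y ^ (2 * C1 + 1) ≤ Y ^ (2 * C1 + 2) := by
      rw [pow_succ' Y (2 * C1 + 1)]
      exact mul_le_mul_of_nonneg_right hY4 (by positivity)
    have h6 := hpw (2 * C1 + 2) (2 * C1 + C2 + 4) (by omega)
    linarith
  · refine dn_mono (ovr hB hS.dn.1 hD2 fun x hx => (hx0 x (hs1 (hs2 hx))).2) ?_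
    have h1 : (C2 : ℝ) * Y ^ (2 * C1 + 1) ≤ Y ^ (2 * C1 + 2) := by
      rw [pow_succ' Y (2 * C1 + 1)]
      exact mul_le_mul_of_nonneg_right (by linarith) (by positivity)
    have h2 := hpw 2 (2 * C1 + 2) (by omega)
    have h5 : 4 * Y ^ (2 * C1 + 2) ≤ Y ^ (2 * C1 + 3) := by
      rw [pow_succ' Y (2 * C1 + 2)]
      exact mul_le_mul_of_nonneg_right hY4 (by positivity)
    have h6 := hpw (2 * C1 + 3) (2 * C1 + C2 + 4) (by omega)
    have h7 : 0 ≤ Y ^ (2 * C1 + 2) := by positivity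
    linarith
  · intro W hW p hp
    obtain ⟨hWΩ, hW2⟩ := mem_filter.1 hW
    have hx1 := hs2 hW2
    rcases List.mem_append.1 hp with hp | hp
    · obtain ⟨r, -, rfl⟩ := List.mem_map.1 hp
      exact hS.arc (Fin.tail W) (W 0) y0 (by rw [hcn]; exact hWΩ) (hx0 _ (hs1 hx1)).1 r
    · obtain ⟨p0, hp0, rfl⟩ := List.mem_map.1 hp
      rcases List.mem_append.1 hp0 with h | h
      · exact hS.cel _ (hXS hx1) p0 h
      · rcases List.mem_append.1 h with h | h
        · exact hcel2 _ hx1 p0 h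
        · obtain ⟨r, -, h⟩ := List.mem_flatMap.1 h
          obtain ⟨p1, hp1, rfl⟩ := List.mem_map.1 h
          exact hcel2 _ (hsb _ hW2 _) p1 hp1
  · intro a
    refine Frm.add (Frm.mono (subset_univ _) (up _ _ (f3 _ _ _ _ s2 (hfr2 _)))) (Frm.add ?_ ?_)
    · refine (hF (j + 1) q).2.1 _ _ _ univ
        (fun l (W : Pt (j + 1) q) => ((W 0 l - y0 l : ℤ) : ℝ) * F2 (some (Sum.inl l), a) (Fin.tail W))
        fun l _ => ?_
      exact Frm.mono (subset_univ _)
        (frm_dif hF (zero_nmem _) (up _ _ (f3 _ _ _ _ s2 (hfr2 _))) y0 l)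
    · refine (hF (j + 1) q).2.1 _ _ _ univ (fun r (W : Pt (j + 1) q) =>
        (round (P r W) : ℝ) * F2 (some (Sum.inr r), a) (sb (S.ty r)ᶜ w (Fin.tail W))) fun r _ => ?_
      have h1 := up _ _ (f3 _ _ _ _ (s3 r) (f9 _ _ _ (S.ty r)ᶜ w (hfr2 (some (Sum.inr r), a))))
      have hm : (tp r, P r) ∈ L :=
        List.mem_append_left _ (List.mem_map.2 ⟨r, Finset.mem_toList.2 (mem_univ r), rfl⟩)
      refine Frm.mono (subset_univ _) (Frm.brk (tp r, P r) hm ?_ h1)
      show Disjoint (insert 0 ((S.ty r).map (Fin.succEmb j))) _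
      rw [Finset.disjoint_insert_left]
      refine ⟨zero_nmem _, ?_⟩
      rw [Finset.disjoint_map, univ_inter]
      exact disjoint_compl_right
  · intro W hW a
    obtain ⟨hWΩ, hW2⟩ := mem_filter.1 hW
    have hx1 := hs2 hW2
    have hch := hS.ch (Fin.tail W) (W 0) y0 (by rw [hcn]; exact hWΩ) (hx0 _ (hs1 hx1)).1
    rw [hcn, sub_eq_iff_eq_add'] at hch
    have hc : S.c (Fin.tail W) = fun r => S.c (sb (S.ty r)ᶜ w (Fin.tail W)) r := by
      funext r
      exact cst_sb (g := fun x => S.c x r) (X := S.X) (t := S.ty r)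
        (fun i hi => (hG (S.ty r) i r rfl).1 hi) (fun J => hXS (hsb _ hW2 J)) _ subset_rfl
    rw [hch, hc, Pi.add_apply, Pi.add_apply]
    refine rp_add (hrp _ hx1 (none, a)) (rp_add ?_ ?_)
    · exact rp_zd (W 0 - y0) _ a _ fun l => hrp _ hx1 (some (Sum.inl l), a)
    · exact rp_zd (fun r => round (P r W)) _ a _ fun r => hrp _ (hsb _ hW2 _) (some (Sum.inr r), a)

end

end Vale.Agent.P057T.Gkh
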