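import Vale.Agent.P057T.Gkh.Defs

/-! All rounds. -/

set_option linter.all false

open Finset
open scoped BigOperators

namespace Vale.Agent.P057T.Gkh

open Vale.Agent.P057Z Vale.Agent.P057L

namespace Iter

theorem st_mono {j q Q : ℕ} {κ ι : Type} [Fintype κ] {Y Y' : ℝ} {N Q' : ℕ}
    {φ : Pt (j + 1) q → ι → ZMod Q} {S : Dat j q Q κ ι} (h : St Y N Q' φ S) (hY : Y ≤ Y') :
    St Y' N Q' φ S :=
  { h with
    hR := h.hR.trans hY
    hL := h.hL.trans hY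
    dn := ⟨h.dn.1, le_trans (by gcongr) h.dn.2⟩ }

/-- the goals of the set `D` can be reached -/
def Good (j : ℕ) (D : Finset (Finset (Fin j) × Fin j)) : Prop :=
  ∃ C : ℕ, ∀ (Y : ℝ) (q N Q Q' : ℕ) [Fact Q.Prime] [Fact Q'.Prime] (κ ι : Type)
    [Fintype κ] [DecidableEq κ] [Fintype ι] [DecidableEq ι] (φ : Pt (j + 1) q → ι → ZMod Q)
    (S : Dat j q Q κ ι),
    (C : ℝ) ≤ Y → 1 ≤ q → (q : ℝ) ≤ Y → Y ^ C ≤ Real.log N → N ≤ Q → N ≤ Q' → St Y N Q' φ S →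
    ∃ (κ' : Type) (_ : Fintype κ') (_ : DecidableEq κ') (S' : Dat j q Q κ' ι),
      S'.Ω ⊆ S.Ω ∧ St (Y ^ C) N Q' φ S' ∧ ∀ p ∈ D, Gl S' p.1 p.2

theorem good (hR : RND) (j : ℕ) (D : Finset (Finset (Fin j) × Fin j)) :
    (∀ p ∈ D, ∀ t, p.1 ⊂ t → (t, p.2) ∈ D) → Good j D := by
  classical
  obtain ⟨C2, h2⟩ := hR j
  induction D using Finset.induction_on_min_value (fun p : Finset (Fin j) × Fin j => p.1.card) with
  | empty =>
    intro _
    refine ⟨1, fun Y q N Q Q' _ _ κ ι _ _ _ _ φ S _ _ _ _ _ _ hS =>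
      ⟨κ, inferInstance, inferInstance, S, Subset.rfl, by rwa [pow_one], by simp⟩⟩
  | insert a s ha hmin ih =>
    intro hcl
    obtain ⟨C1, h1⟩ := ih fun p hp t ht => by
      rcases mem_insert.1 (hcl p (mem_insert_of_mem hp) t ht) with h | h
      · have h3 := hmin p hp
        have h4 := card_lt_card ht
        rw [← h] at h3
        exact absurd h3 (not_le.2 h4)
      · exact h
    refine ⟨(C1 + 1) * C2 + C1 + C2 + 1,
      fun Y q N Q Q' _ _ κ ι _ _ _ _ φ S hC hq hqY hN hQ hQ' hS => ?_⟩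
    have hle : ∀ c : ℕ, c ≤ (C1 + 1) * C2 + C1 + C2 + 1 → (c : ℝ) ≤ Y := fun c hc =>
      le_trans (by exact_mod_cast hc) hC
    have hY : 1 ≤ Y := by simpa using hle 1 (by omega)
    have hp : ∀ c : ℕ, c ≤ (C1 + 1) * C2 + C1 + C2 + 1 →
        Y ^ c ≤ Y ^ ((C1 + 1) * C2 + C1 + C2 + 1) := fun c hc => pow_le_pow_right₀ hY hc
    have hY1 : Y ≤ Y ^ (C1 + 1) := le_self_pow₀ hY (by omega)
    obtain ⟨κ1, _, _, S1, hs1, hS1, hG1⟩ := h1 Y q N Q Q' κ ι φ S (hle _ (by omega)) hq hqY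
      ((hp _ (by omega)).trans hN) hQ hQ' hS
    obtain ⟨S2, hs2, hS2, hG2, hG3⟩ := h2 (Y ^ (C1 + 1)) q N Q Q' κ1 ι φ S1 a.1 a.2
      ((hle _ (by omega)).trans hY1) hq (hqY.trans hY1)
      (by rw [← pow_mul]; exact (hp _ (by omega)).trans hN) hQ hQ'
      (st_mono hS1 (pow_le_pow_right₀ hY (by omega))) (fun t ht => by
        rcases mem_insert.1 (hcl a (mem_insert_self _ _) t ht) with h | h
        · exact absurd (congrArg Prod.fst h).symm ht.ne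
        · exact hG1 _ h)
    refine ⟨_, inferInstance, inferInstance, S2, hs2.trans hs1,
      st_mono hS2 (by rw [← pow_mul]; exact hp _ (by omega)), fun p hp' => ?_⟩
    rcases mem_insert.1 hp' with rfl | h
    · exact hG2
    · exact hG3 _ _ (fun hlt => absurd (hmin p h) (not_le.2 (card_lt_card hlt))) (hG1 p h)

end Iter

theorem iter (hR : RND) : ITER := fun j => by
  obtain ⟨C, h⟩ := Iter.good hR j univ fun _ _ _ _ => mem_univ _
  refine ⟨C, fun Y q N Q Q' _ _ κ ι _ _ _ _ φ S h1 h2 h3 h4 h5 h6 h7 => ?_⟩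
  obtain ⟨κ', i1, i2, S', h8, h9, h10⟩ := h Y q N Q Q' κ ι φ S h1 h2 h3 h4 h5 h6 h7
  exact ⟨κ', i1, i2, S', h8, h9, fun t i => h10 (t, i) (mem_univ _)⟩

end Vale.Agent.P057T.Gkh
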