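import Vale.Agent.P057T.Gkh.Defs
import Vale.Agent.P057T.Gkh.Lin

/-! The linear algebra of one round. -/

set_option linter.all false

open Finset
open scoped BigOperators

namespace Vale.Agent.P057T.Gkh

open Vale.Agent.P057L

theorem la : LA := by
  refine ⟨9, fun Y κ δ _ _ _ _ b D B e hY hκ hδ _ hb => ?_⟩
  have hY9 : (9 : ℝ) ≤ Y := by exact_mod_cast hY
  have Y1 : 1 ≤ Y := by linarith
  have Y4 : 4 ≤ Y := by linarith
  obtain ⟨n1, hn1, hn0, hn⟩ := Lin.ker1 b (fun d => d ∈ D) Y4 hδ hb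
  let u : δ → κ → ℤ := fun a r => if r ∈ B then ∑ a', n1 a a' * b a' (e r) else 0
  have p34 : Y ^ 3 + Y ≤ Y ^ 4 := by
    have a : Y ≤ Y ^ 3 := le_pw Y1 (by norm_num)
    have : Y ^ 4 = Y * Y ^ 3 := by ring
    nlinarith
  have Y44 : Y ≤ Y ^ 4 := le_pw Y1 (by norm_num)
  have hu : ∀ a r, |(u a r : ℝ)| ≤ Real.exp (Y ^ 4) := by
    intro a r
    simp only [u]
    split_ifs
    · rw [Int.cast_sum]
      refine (abs_sum_le_sum_abs _ _).trans ?_
      refine le_trans (sum_le_sum (g := fun a' => |(n1 a a' : ℝ)| * Real.exp Y) fun a' _ => ?_) ?_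
      · rw [Int.cast_mul, abs_mul]
        exact mul_le_mul_of_nonneg_left (hb _ _) (abs_nonneg _)
      · rw [← sum_mul]
        refine (mul_le_mul_of_nonneg_right (hn1 a) (Real.exp_nonneg _)).trans ?_
        rw [← Real.exp_add]
        exact Real.exp_le_exp.2 p34
    · simp [Real.exp_nonneg]
  obtain ⟨t, sel, w, D0, ht, hD0, hD, -, -, hs⟩ := Lin.crqR u (Y := Y ^ 4) (by linarith)
    (hκ.trans Y44) hu
  obtain ⟨emb⟩ : Nonempty (Fin t ↪ κ) :=
    Function.Embedding.nonempty_of_card_le (by rwa [Fintype.card_fin])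
  let n : κ → δ → ℤ := Function.extend emb (fun i => n1 (sel i)) 0
  let f : κ → κ → ℤ := Function.extend emb (fun i r => if r ∈ B then w i r else 0) 0
  let g : κ → κ → ℤ := fun s r =>
    if r ∈ B then (if r = s then D0 else 0) - ∑ i, u (sel i) s * w i r else 0
  have n_e : ∀ i, n (emb i) = n1 (sel i) := fun i => emb.injective.extend_apply _ _ i
  have n_o : ∀ s, (¬ ∃ i, emb i = s) → n s = 0 := fun s h => Function.extend_apply' _ _ s h
  have f_e : ∀ i, f (emb i) = fun r => if r ∈ B then w i r else 0 :=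
    fun i => emb.injective.extend_apply _ _ i
  have f_o : ∀ s, (¬ ∃ i, emb i = s) → f s = 0 := fun s h => Function.extend_apply' _ _ s h
  have p39 : Y ^ 3 ≤ Y ^ 9 := pw_le Y1 (by norm_num)
  have E39 : Real.exp (Y ^ 3) ≤ Real.exp (Y ^ 9) := Real.exp_le_exp.2 p39
  refine ⟨n, f, g, D0, hD0, hD.trans (Real.exp_le_exp.2 ?_), fun s a => ?_, fun s d hd => ?_,
    fun s r hr => ⟨?_, if_neg hr⟩, fun m r hr => ?_, fun Q _ ι τ hQ h0 hτ s hsB => ?_⟩
  · have : Y ^ 9 = Y * (Y ^ 4) ^ 2 := by ring
    rw [this]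
    exact mul_le_mul_of_nonneg_right (by linarith) (by positivity)
  · by_cases h : ∃ i, emb i = s
    · obtain ⟨i, rfl⟩ := h
      rw [n_e]
      exact (single_le_sum (f := fun a' => |(n1 (sel i) a' : ℝ)|) (fun _ _ => abs_nonneg _)
        (mem_univ a)).trans ((hn1 _).trans E39)
    · rw [n_o s h]
      simp [Real.exp_nonneg]
  · by_cases h : ∃ i, emb i = s
    · obtain ⟨i, rfl⟩ := h
      rw [n_e]
      exact hn0 _ d hd
    · rw [n_o s h]
      simp
  · by_cases h : ∃ i, emb i = s
    · obtain ⟨i, rfl⟩ := h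
      rw [f_e]
      exact if_neg hr
    · rw [f_o s h]
      rfl
  · have a : ∑ i, w i r * ∑ r' ∈ B, u (sel i) r' * m r' =
        ∑ s, f s r * (∑ r' ∈ B, (∑ a, n s a * b a (e r')) * m r') := by
      refine Fintype.sum_of_injective emb emb.injective _ _ (fun s h => ?_) fun i => ?_
      · rw [f_o s h]
        simp
      · rw [f_e, n_e]
        simp only [if_pos hr]
        congr 1
        exact sum_congr rfl fun r' hr' => by simp only [u, if_pos hr']
    have c : ∑ s ∈ B, g s r * m s = D0 * m r - ∑ i, w i r * ∑ r' ∈ B, u (sel i) r' * m r' := by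
      simp only [g, if_pos hr, sub_mul, sum_sub_distrib, ite_mul, zero_mul, sum_ite_eq, sum_mul,
        mul_sum]
      rw [sum_comm]
      congr 1
      exact sum_congr rfl fun i _ => sum_congr rfl fun s _ => by ring
    rw [← a, c]
    ring
  · have h1 : Lin.Sp b τ := Lin.dual_span b Y4 hδ hb Q (ι → ZMod Q) (E39.trans hQ) τ
      fun v hv ho => hτ v (fun d => (hv d).trans E39) ho
    obtain ⟨h, hh⟩ := hn Q (ι → ZMod Q) (E39.trans hQ) τ h1 h0
    have h2 : ∀ r, g s r • τ (e r) = ∑ a, (g s r * u a r) • h a := by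
      intro r
      by_cases hr : r ∈ B
      · rw [hh, smul_sum]
        exact sum_congr rfl fun a _ => by simp only [u, if_pos hr, mul_smul]
      · have : g s r = 0 := if_neg hr
        simp [this]
    simp only [zd, h2]
    rw [sum_comm]
    refine sum_eq_zero fun a _ => ?_
    rw [← sum_smul]
    have h3 : ∀ r, g s r * u a r =
        (if r = s then D0 * u a r else 0) - ∑ i, u (sel i) s * (w i r * u a r) := by
      intro r
      by_cases hr : r ∈ B
      · simp only [g, if_pos hr, sub_mul, ite_mul, zero_mul, sum_mul, mul_assoc]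
      · have : u a r = 0 := if_neg hr
        simp [this]
    have h4 := congrFun (hs a) s
    rw [Pi.smul_apply, Finset.sum_apply, smul_eq_mul] at h4
    have h5 : ∑ r, g s r * u a r = 0 := by
      simp only [h3, sum_sub_distrib, sum_ite_eq', mem_univ, if_true]
      rw [sum_comm, h4, sub_eq_zero]
      refine sum_congr rfl fun i _ => ?_
      rw [← mul_sum, Pi.smul_apply, smul_eq_mul, mul_comm]
      rfl
    rw [h5, zero_smul]

end Vale.Agent.P057T.Gkh
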