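import Vale.Agent.P057T.Gkh.Defs

/-! The signed sum of the charts on the common part of four fibres. -/

set_option linter.all false

open Finset
open scoped BigOperators

namespace Vale.Agent.P057T.Gkh

open Vale.Agent.P057Z Vale.Agent.P057L

noncomputable section

namespace ParH

variable {j q : ℕ}

theorem upd (x : Pt j q) (i : Fin j) (c : Vz q) :
    Function.update x i (x i + c) = x + ev i c := by
  funext k
  by_cases h : k = i
  · subst h; simp [ev]
  · simp [ev, h]

theorem pg {H : Type} [AddCommGroup H] {g : Pt j q → H} {S : Finset (Pt j q)} {i : Fin j}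
    (hM : MHi g S i) {x : Pt j q} {a b : Vz q} (h0 : x ∈ S) (h1 : x + ev i a ∈ S)
    (h2 : x + ev i b ∈ S) (h3 : x + ev i a + ev i b ∈ S) :
    g x + g (x + ev i a + ev i b) = g (x + ev i a) + g (x + ev i b) := by
  have e0 : Function.update x i (x i) = x := Function.update_eq_self i x
  have e3 : Function.update x i (x i + (a + b)) = x + ev i a + ev i b := by
    rw [upd, add_assoc, ev, ev, ev, Pi.single_add]
  have key := hM x ![x i, x i + (a + b), x i, x i, x i, x i]
    ![x i + a, x i + b, x i, x i, x i, x i]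
    (fun k => by
      fin_cases k
      · simpa using h0
      · show Function.update x i (x i + (a + b)) ∈ S
        rw [e3]; exact h3
      all_goals simpa using h0)
    (fun k => by
      fin_cases k
      · show Function.update x i (x i + a) ∈ S
        rw [upd]; exact h1
      · show Function.update x i (x i + b) ∈ S
        rw [upd]; exact h2
      all_goals simpa using h0)
    (by simp only [Fin.sum_univ_six, Matrix.cons_val]; abel)
  simp only [Fin.sum_univ_six, Matrix.cons_val, e0, e3, upd] at key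
  have := congrArg (fun z => z - (g x + g x + g x + g x)) key
  calc g x + g (x + ev i a + ev i b)
      = g x + g (x + ev i a + ev i b) + g x + g x + g x + g x - (g x + g x + g x + g x) := by abel
    _ = g (x + ev i a) + g (x + ev i b) + g x + g x + g x + g x - (g x + g x + g x + g x) := this
    _ = g (x + ev i a) + g (x + ev i b) := by abel

theorem cn_add (y : Vz q) (x : Pt j q) (i : Fin j) (c : Vz q) :
    cn y (x + ev i c) = cn y x + ev i.succ c := by
  funext k
  refine Fin.cases ?_ (fun k => ?_) k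
  · simp [cn, ev, Pi.single_apply, (Fin.succ_ne_zero i).symm]
  · simp [cn, ev, Pi.single_apply, Fin.succ_inj]

theorem rnd4 {d1 d2 d3 d4 : ℝ} (h : d1 + d4 = d2 + d3) (h1 : |d1 - round d1| ≤ 1 / 100)
    (h2 : |d2 - round d2| ≤ 1 / 100) (h3 : |d3 - round d3| ≤ 1 / 100)
    (h4 : |d4 - round d4| ≤ 1 / 100) : round d4 = round d2 + round d3 - round d1 := by
  rw [abs_le] at h1 h2 h3 h4
  have a1 : ((round d4 - (round d2 + round d3 - round d1) : ℤ) : ℝ) < 1 := by
    push_cast; linarith [h1.1, h1.2, h2.1, h2.2, h3.1, h3.2, h4.1, h4.2]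
  have a2 : (-1 : ℝ) < ((round d4 - (round d2 + round d3 - round d1) : ℤ) : ℝ) := by
    push_cast; linarith [h1.1, h1.2, h2.1, h2.2, h3.1, h3.2, h4.1, h4.2]
  have b1 : round d4 - (round d2 + round d3 - round d1) < 1 := by exact_mod_cast a1
  have b2 : -1 < round d4 - (round d2 + round d3 - round d1) := by exact_mod_cast a2
  omega

end ParH

open ParH in
theorem par (hF : FRM) : PAR := by
  classical
  intro j q N Q Q' κ ι _ Y φ S i x a b y y' hS hm
  obtain ⟨m0, m1, m2, m3⟩ := hm y (by simp)
  obtain ⟨n0, n1, n2, n3⟩ := hm y' (by simp)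
  have p1 : φ (cn y x) + φ (cn y (x + ev i a + ev i b)) =
      φ (cn y (x + ev i a)) + φ (cn y (x + ev i b)) := by
    have := pg (hS.mh i.succ) (x := cn y x) (a := a) (b := b) m0 (by rwa [← cn_add])
      (by rwa [← cn_add]) (by rwa [← cn_add, ← cn_add])
    rwa [← cn_add, ← cn_add, ← cn_add] at this
  have p2 : φ (cn y' x) + φ (cn y' (x + ev i a + ev i b)) =
      φ (cn y' (x + ev i a)) + φ (cn y' (x + ev i b)) := by
    have := pg (hS.mh i.succ) (x := cn y' x) (a := a) (b := b) n0 (by rwa [← cn_add])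
      (by rwa [← cn_add]) (by rwa [← cn_add, ← cn_add])
    rwa [← cn_add, ← cn_add, ← cn_add] at this
  have c0 := hS.ch _ _ _ m0 n0
  have c1 := hS.ch _ _ _ m1 n1
  have c2 := hS.ch _ _ _ m2 n2
  have c3 := hS.ch _ _ _ m3 n3
  have a0 := hS.arc _ _ _ m0 n0
  have a1 := hS.arc _ _ _ m1 n1
  have a2 := hS.arc _ _ _ m2 n2
  have a3 := hS.arc _ _ _ m3 n3
  have x0 := hS.hX _ _ m0
  have x1 := hS.hX _ _ m1
  have x2 := hS.hX _ _ m2
  have x3 := hS.hX _ _ m3
  obtain ⟨-, -, -, -, -, f6, f7, -⟩ := hF j q
  have e1 : zd (y - y') (S.θ x - S.θ (x + ev i a) - S.θ (x + ev i b) +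
      S.θ (x + ev i a + ev i b)) = zd (y - y') (S.θ x) - zd (y - y') (S.θ (x + ev i a)) -
      zd (y - y') (S.θ (x + ev i b)) + zd (y - y') (S.θ (x + ev i a + ev i b)) := by
    simp only [zd, Pi.add_apply, Pi.sub_apply, smul_add, smul_sub, sum_add_distrib,
      sum_sub_distrib]
  have e2 : zd (fun p => round (dt (fq S i x a b p) (y - y'))) (tau S i x a b) =
      zd (fun r => round (dt (S.Ψ r x) (y - y'))) (S.c x) -
      zd (fun r => round (dt (S.Ψ r (x + ev i a)) (y - y'))) (S.c (x + ev i a)) -
      zd (fun r => round (dt (S.Ψ r (x + ev i b)) (y - y'))) (S.c (x + ev i b)) +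
      zd (fun r => round (dt (S.Ψ r (x + ev i a + ev i b)) (y - y')))
        (S.c (x + ev i a + ev i b)) := by
    simp only [zd]
    rw [← sum_sub_distrib, ← sum_sub_distrib, ← sum_add_distrib, Fintype.sum_prod_type_right]
    refine sum_congr rfl fun r _ => ?_
    rw [Fin.sum_univ_three]
    by_cases hi : i ∈ S.ty r
    · have hp : ∀ l, S.Ψ r x l + S.Ψ r (x + ev i a + ev i b) l =
          S.Ψ r (x + ev i a) l + S.Ψ r (x + ev i b) l := fun l =>
        pg (g := fun x => S.Ψ r x l) (f7 S.L _ _ S.X hS.twr (hS.frm r l) hS.cel i) x0 x1 x2 x3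
      have hd : dt (S.Ψ r x) (y - y') + dt (S.Ψ r (x + ev i a + ev i b)) (y - y') =
          dt (S.Ψ r (x + ev i a)) (y - y') + dt (S.Ψ r (x + ev i b)) (y - y') := by
        simp only [dt]
        rw [← sum_add_distrib, ← sum_add_distrib]
        refine sum_congr rfl fun l _ => ?_
        rw [← add_mul, ← add_mul, hp l]
      have hr := rnd4 hd (a0 r) (a1 r) (a2 r) (a3 r)
      simp only [tau, fq, hi, if_true, Matrix.cons_val, hr]
      simp only [smul_sub, sub_smul, add_smul]
      abel
    · have hc : ∀ c : Pt j q, (∀ k, k ≠ i → c k = x k) → S.Ψ r c = S.Ψ r x := fun c hc =>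
        funext fun l => f6 S.L _ _ c x hS.twr (hS.frm r l) fun k hk =>
          hc k (fun h => hi (h ▸ hk))
      have h1 : S.Ψ r (x + ev i a) = S.Ψ r x := hc _ fun k hk => by simp [ev, hk]
      have h2 : S.Ψ r (x + ev i b) = S.Ψ r x := hc _ fun k hk => by simp [ev, hk]
      have h3 : S.Ψ r (x + ev i a + ev i b) = S.Ψ r x := hc _ fun k hk => by simp [ev, hk]
      simp only [tau, fq, hi, if_false, Matrix.cons_val, h1, h2, h3]
      simp only [smul_sub, smul_add, smul_zero]
      abel
  rw [e1, e2]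
  have : (φ (cn y x) - φ (cn y' x)) - (φ (cn y (x + ev i a)) - φ (cn y' (x + ev i a))) -
      (φ (cn y (x + ev i b)) - φ (cn y' (x + ev i b))) +
      (φ (cn y (x + ev i a + ev i b)) - φ (cn y' (x + ev i a + ev i b))) = 0 := by
    have := congrArg₂ (fun u v => u - v) p1 p2
    rw [← sub_eq_zero] at this
    rw [← this]; abel
  rw [c0, c1, c2, c3] at this
  rw [← this]; abel

end

end Vale.Agent.P057T.Gkh
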