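import Vale.Agent.P057T.Gkh.Defs
import Vale.Agent.P057L.Num

/-! Row QD: short relations for real frequencies with a prime denominator. -/

set_option linter.all false

open Finset
open scoped BigOperators

namespace Vale.Agent.P057T.Gkh

open Vale.Agent.P057Z Vale.Agent.P057L

theorem qd (hV : VAN) (hC : COVR) : QD := by
  obtain ⟨A, hV⟩ := hV
  obtain ⟨B, hC⟩ := hC
  refine ⟨(A + 1) * B + A + B + 16, fun Y q N Q Q' _ _ κ ι _ _ Ψ Z θ c hY hq hR hN NQ NQ' hΨ hZ hZc
    h => ?_⟩
  push_cast at hY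
  have A0 : (0 : ℝ) ≤ A := Nat.cast_nonneg _
  have B0 : (0 : ℝ) ≤ B := Nat.cast_nonneg _
  have Y8 : 16 ≤ Y := by nlinarith
  have Y1 : 1 ≤ Y := by linarith
  set C := (A + 1) * B + A + B + 16 with hCd
  have YC : 0 < Y ^ C := by positivity
  have N1 : 1 ≤ N := one_le_of_log YC hN
  have N0 : (0 : ℝ) < N := by exact_mod_cast N1
  have Qp : 0 < Q' := (Fact.out : Q'.Prime).pos
  have Q0 : (0 : ℝ) < Q' := by exact_mod_cast Qp
  haveI : NeZero Q' := ⟨Qp.ne'⟩
  choose n hn using hΨ
  set γ : κ → Fin q → ZMod Q' := fun r l => (n r l : ZMod Q') with hγ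
  set k : κ → Fin q → ℤ := fun r l => n r l / Q' with hk
  have hval : ∀ r l, Ψ r l = ((γ r l).val : ℝ) / Q' + k r l := by
    intro r l
    have e1 : (((γ r l).val : ℕ) : ℤ) = n r l % Q' := ZMod.val_intCast _
    have e2 : n r l = n r l % Q' + Q' * k r l := (Int.emod_add_mul_ediv _ _).symm
    have e3 : (n r l : ℝ) = ((γ r l).val : ℝ) + Q' * k r l := by
      rw [← e1] at e2
      exact_mod_cast e2
    rw [hn, e3]; field_simp
  have e4 : Real.exp (-Y) ≤ 1 / 4 := by
    rw [Real.exp_neg, one_div]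
    exact inv_anti₀ (by norm_num) (by linarith [Real.add_one_le_exp Y])
  have van := hV Y (1 / 4) q N N Q Q' κ ι γ Z (fun l => θ l + zd (fun r => k r l) c) c
    (by nlinarith) hq hR e4 le_rfl N1 le_rfl
    (by nlinarith [Real.add_one_le_exp Y])
    ((exp_le_of_log (by positivity) (le_trans (pw_le Y1 (by omega)) hN)).trans
      (by exact_mod_cast NQ)) hZ hZc
    (fun y hy y' hy' m hm => by
      obtain ⟨h1, h2⟩ := h y hy y' hy'
      have hr : ∀ r, round (dt (Ψ r) (y - y')) = m r + ∑ l, k r l * (y - y') l := by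
        intro r
        have a1 := h1 r
        have a2 := hm.2 r
        have a3 : dt (Ψ r) (y - y') = (∑ l, ((γ r l).val : ℝ) / Q' * ((y - y') l : ℤ)) +
            ((∑ l, k r l * (y - y') l : ℤ) : ℝ) := by
          rw [dt, Int.cast_sum, ← sum_add_distrib]
          refine sum_congr rfl fun l _ => ?_
          rw [hval, Int.cast_mul]; ring
        have a4 : |((round (dt (Ψ r) (y - y')) - (m r + ∑ l, k r l * (y - y') l) : ℤ) : ℝ)| < 1 := by
          rw [Int.cast_sub, Int.cast_add]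
          rw [abs_le] at a1 a2
          rw [abs_lt]
          constructor <;> linarith [a1.1, a1.2, a2.1, a2.2]
        have a5 : |round (dt (Ψ r) (y - y')) - (m r + ∑ l, k r l * (y - y') l)| < 1 := by
          exact_mod_cast a4
        have := Int.abs_lt_one_iff.1 a5
        linarith
      rw [← h2]
      simp only [hr, zd, smul_add, add_smul, sum_add_distrib, smul_sum, sum_smul, smul_smul]
      rw [sum_comm (s := univ) (t := univ) (f := fun l r => ((y - y') l * k r l) • c r)]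
      simp only [mul_comm]
      abel)
  have YA : Y ≤ Y ^ (A + 1) := le_pw Y1 (by omega)
  obtain ⟨b, b1, b2, b3⟩ := hC (Y ^ (A + 1)) (Real.exp (-Y ^ A)) q N Q' κ γ
    (by nlinarith) (by linarith) (by linarith)
    (Real.exp_le_exp.2 (neg_le_neg (pw_le Y1 (by omega))))
    (Real.exp_le_one_iff.2 (neg_nonpos.2 (by positivity)))
    (by rw [← pow_mul]; exact (pw_le Y1 (by omega)).trans hN) NQ'
  rw [← pow_mul] at b1 b2
  have hE : Real.exp (Y ^ ((A + 1) * B)) ≤ Real.exp (Y ^ C) :=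
    Real.exp_le_exp.2 (pw_le Y1 (by omega))
  refine ⟨b, fun a r => (b1 a r).trans hE, fun a l => ?_, fun v hv hb => b3 v (fun r => ?_) hb _ _ _ van⟩
  · set u : ZMod Q' := ∑ r, (b a r : ZMod Q') * γ r l with hu
    have e1 : ((∑ r, b a r * n r l - u.valMinAbs : ℤ) : ZMod Q') = 0 := by
      push_cast
      rw [hu]; simp [hγ]
    obtain ⟨t, ht⟩ := (ZMod.intCast_zmod_eq_zero_iff_dvd _ _).1 e1
    refine ⟨t, le_trans (le_of_eq ?_) ((b2 a l).trans (by gcongr))⟩
    have e2 : (∑ r, (b a r : ℝ) * n r l) - (u.valMinAbs : ℝ) = Q' * t := by exact_mod_cast ht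
    have e3 : ∑ r, (b a r : ℝ) * Ψ r l - t = (u.valMinAbs : ℝ) / Q' := by
      simp only [hn, ← mul_div_assoc, ← sum_div]
      field_simp
      linarith
    rw [e3, nm, abs_div, abs_of_pos Q0]
  · have a3 := mul_pw_le (by linarith : (0 : ℝ) ≤ Y) (by linarith : (2 : ℝ) ≤ Y) A
    have a4 : Y ^ (A + 1) + Y ^ 1 ≤ Y ^ C := add_pw_le (by linarith) (by omega) (by omega)
    rw [pow_one] at a4
    have hW : 16 ≤ Real.exp (-Y ^ A) ^ 2 * Real.exp (Y ^ C) := by
      rw [← Real.exp_nat_mul, ← Real.exp_add]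
      push_cast
      linarith [Real.add_one_le_exp (2 * -Y ^ A + Y ^ C)]
    have hN' : (N : ℝ) ≤ Q' := by exact_mod_cast NQ'
    have e := Real.exp_pos (Y ^ C)
    have hv' := (hv r).trans hN'
    have : 16 * (v r : ℝ) ^ 2 * Real.exp (Y ^ C) ≤ Real.exp (-Y ^ A) ^ 2 * Q' * Real.exp (Y ^ C) := by
      nlinarith
    exact le_of_mul_le_mul_right this e

end Vale.Agent.P057T.Gkh
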