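import Vale.Agent.P057T.Gkh.Defs

/-! Short boxes and narrow arcs by two pigeonhole steps. -/

set_option linter.all false

open Finset
open scoped BigOperators

namespace Vale.Agent.P057T.Gkh

open Vale.Agent.P057Z Vale.Agent.P057L

theorem rf_pig {α β : Type} [DecidableEq β] (Ω : Finset α) (T : Finset β) (hT : T.Nonempty)
    (c : α → β) (hc : ∀ a ∈ Ω, c a ∈ T) :
    ∃ v, (Ω.card : ℝ) ≤ T.card * (Ω.filter fun a => c a = v).card := by
  obtain ⟨v, hv, hmax⟩ := T.exists_max_image (fun v => (Ω.filter fun a => c a = v).card) hT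
  refine ⟨v, ?_⟩
  have h1 : Ω.card = ∑ b ∈ T, (Ω.filter fun a => c a = b).card :=
    Finset.card_eq_sum_card_fiberwise (fun a ha => hc a ha)
  have h2 : Ω.card ≤ T.card * (Ω.filter fun a => c a = v).card := by
    rw [h1]
    calc ∑ b ∈ T, (Ω.filter fun a => c a = b).card
        ≤ ∑ _b ∈ T, (Ω.filter fun a => c a = v).card := Finset.sum_le_sum fun b hb => hmax b hb
      _ = _ := by rw [Finset.sum_const, smul_eq_mul]
  exact_mod_cast h2

theorem rf_col {α γ : Type} [Fintype γ] (Ω : Finset α) (M : ℕ) (hM : 1 ≤ M) (u : α → γ → ℝ)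
    (hu : ∀ a ∈ Ω, ∀ g, 0 ≤ u a g ∧ u a g < 1) :
    ∃ (Ω' : Finset α) (s : γ → ℝ), Ω' ⊆ Ω ∧ (Ω.card : ℝ) ≤ (M : ℝ) ^ Fintype.card γ * Ω'.card ∧
      ∀ a ∈ Ω', ∀ g, 0 ≤ u a g - s g ∧ u a g - s g ≤ 1 / M := by
  classical
  have hM0 : (0 : ℝ) < M := by exact_mod_cast hM
  obtain ⟨v, hv⟩ := rf_pig Ω (Fintype.piFinset fun _ : γ => range M)
    (Fintype.piFinset_nonempty.2 fun _ => ⟨0, mem_range.2 hM⟩)
    (fun a g => ⌊(M : ℝ) * u a g⌋₊) (by
      intro a ha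
      rw [Fintype.mem_piFinset]
      intro g
      rw [mem_range, Nat.floor_lt (mul_nonneg hM0.le (hu a ha g).1)]
      have := (hu a ha g).2
      nlinarith)
  refine ⟨Ω.filter fun a => (fun g => ⌊(M : ℝ) * u a g⌋₊) = v, fun g => (v g : ℝ) / M,
    filter_subset _ _, ?_, ?_⟩
  · rw [Fintype.card_piFinset] at hv
    simpa using hv
  · intro a ha g
    rw [mem_filter] at ha
    have h1 : ⌊(M : ℝ) * u a g⌋₊ = v g := congrFun ha.2 g
    have h0 : 0 ≤ (M : ℝ) * u a g := mul_nonneg hM0.le (hu a ha.1 g).1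
    have h2 := Nat.floor_le h0
    have h3 := Nat.lt_floor_add_one ((M : ℝ) * u a g)
    rw [h1] at h2 h3
    constructor
    · rw [sub_nonneg, div_le_iff₀ hM0]; linarith
    · rw [sub_le_iff_le_add, ← add_div, le_div_iff₀ hM0]; linarith

theorem rf : RF := by
  intro j
  refine ⟨5, ?_⟩
  intro Y q N κ _ Ψ Ω hC hq hκ hN hD
  have hY : (5 : ℝ) ≤ Y := by exact_mod_cast hC
  have hY5 : 1 ≤ Y ^ 5 := one_le_pow₀ (by linarith)
  have hN1 : 1 ≤ N := by
    rcases Nat.eq_zero_or_pos N with h | h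
    · rw [h] at hN; simp at hN; linarith
    · exact h
  have hN0 : (0 : ℝ) < N := by exact_mod_cast hN1
  set M : ℕ := ⌈Real.exp Y⌉₊ with hMdef
  have hM1 : Real.exp Y ≤ M := Nat.le_ceil _
  have hE1 : 1 ≤ Real.exp Y := Real.one_le_exp (by linarith)
  have hM : 1 ≤ M := by
    have : (1 : ℝ) ≤ M := hE1.trans hM1
    exact_mod_cast this
  have hM0 : (0 : ℝ) < M := by exact_mod_cast hM
  have hM2 : (M : ℝ) ≤ Real.exp (Y + 1) := by
    have h1 : (M : ℝ) < Real.exp Y + 1 := Nat.ceil_lt_add_one (Real.exp_pos Y).le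
    have h2 : (2 : ℝ) ≤ Real.exp 1 := by
      have := Real.add_one_le_exp (1 : ℝ); linarith
    rw [Real.exp_add]
    nlinarith
  have hinv : 1 / (M : ℝ) ≤ Real.exp (-Y) := by
    rw [Real.exp_neg, ← one_div]
    exact one_div_le_one_div_of_le (Real.exp_pos Y) hM1
  have hbox : ∀ W ∈ Ω, ∀ l, 0 ≤ W 0 l ∧ W 0 l < N := by
    intro W hW l
    have h1 := hD.1 hW
    rw [bp, Fintype.mem_piFinset] at h1
    have h2 := h1 0
    rw [bz, Fintype.mem_piFinset] at h2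
    have h3 := h2 l
    rw [rg, mem_Ico] at h3
    exact h3
  obtain ⟨Ω1, s1, h1s, h1c, h1⟩ := rf_col Ω M hM (fun W (l : Fin q) => (W 0 l : ℝ) / N) (by
    intro W hW l
    obtain ⟨a, b⟩ := hbox W hW l
    have a' : (0 : ℝ) ≤ W 0 l := by exact_mod_cast a
    have b' : ((W 0 l : ℤ) : ℝ) < N := by exact_mod_cast b
    exact ⟨div_nonneg a' hN0.le, (div_lt_one hN0).2 b'⟩)
  have hΩ : (0 : ℝ) < Ω.card := lt_of_lt_of_le (by positivity) hD.2
  have hne : Ω1.Nonempty := by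
    rw [← card_pos]
    rcases Nat.eq_zero_or_pos Ω1.card with h | h
    · rw [h] at h1c; simp at h1c; rw [h1c] at hΩ; simp at hΩ
    · exact h
  obtain ⟨W0, hW0⟩ := hne
  obtain ⟨Ω2, s, h2s, h2c, h2⟩ := rf_col Ω1 M hM
    (fun W (r : κ) => Int.fract (dt (Ψ r (Fin.tail W)) (W 0 - W0 0)))
    (fun W _ r => ⟨Int.fract_nonneg _, Int.fract_lt_one _⟩)
  refine ⟨Ω2, W0 0, s, h2s.trans h1s, ⟨(h2s.trans h1s).trans hD.1, ?_⟩, ?_⟩
  · have hq' : (M : ℝ) ^ Fintype.card (Fin q) ≤ Real.exp (Y * (Y + 1)) := by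
      rw [Fintype.card_fin]
      calc (M : ℝ) ^ q ≤ Real.exp (Y + 1) ^ q := pow_le_pow_left₀ hM0.le hM2 q
        _ = Real.exp (q * (Y + 1)) := (Real.exp_nat_mul _ _).symm
        _ ≤ _ := Real.exp_le_exp.2 (mul_le_mul_of_nonneg_right hq (by linarith))
    have hκ' : (M : ℝ) ^ Fintype.card κ ≤ Real.exp (Y * (Y + 1)) := by
      calc (M : ℝ) ^ Fintype.card κ ≤ Real.exp (Y + 1) ^ Fintype.card κ :=
            pow_le_pow_left₀ hM0.le hM2 _
        _ = Real.exp (Fintype.card κ * (Y + 1)) := (Real.exp_nat_mul _ _).symm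
        _ ≤ _ := Real.exp_le_exp.2 (mul_le_mul_of_nonneg_right hκ (by linarith))
    have hc1 : (0 : ℝ) ≤ Ω1.card := Nat.cast_nonneg _
    have hc2 : (0 : ℝ) ≤ Ω2.card := Nat.cast_nonneg _
    have e1 : (Ω.card : ℝ) ≤ Real.exp (Y * (Y + 1)) * (Real.exp (Y * (Y + 1)) * Ω2.card) :=
      h1c.trans (mul_le_mul hq' (h2c.trans (mul_le_mul_of_nonneg_right hκ' hc2)) hc1
        (Real.exp_pos _).le)
    have e2 : Y + 2 * (Y * (Y + 1)) ≤ Y ^ 5 := by
      have a : 5 * Y ^ 2 ≤ Y ^ 3 := by nlinarith [sq_nonneg Y]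
      have b : Y ^ 3 ≤ Y ^ 5 := pow_le_pow_right₀ (by linarith) (by norm_num)
      nlinarith
    have e3 : Real.exp (-Y ^ 5) * (Real.exp (Y * (Y + 1)) * Real.exp (Y * (Y + 1))) ≤
        Real.exp (-Y) := by
      rw [← Real.exp_add, ← Real.exp_add]
      exact Real.exp_le_exp.2 (by linarith)
    have hP : (0 : ℝ) < (N : ℝ) ^ ((j + 1) * q) := by positivity
    have hE : 0 < Real.exp (Y * (Y + 1)) * Real.exp (Y * (Y + 1)) := by positivity
    have e4 := hD.2.trans e1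
    refine le_of_mul_le_mul_left ?_ hE
    calc Real.exp (Y * (Y + 1)) * Real.exp (Y * (Y + 1)) *
          (Real.exp (-Y ^ 5) * (N : ℝ) ^ ((j + 1) * q))
        = Real.exp (-Y ^ 5) * (Real.exp (Y * (Y + 1)) * Real.exp (Y * (Y + 1))) *
          (N : ℝ) ^ ((j + 1) * q) := by ring
      _ ≤ Real.exp (-Y) * (N : ℝ) ^ ((j + 1) * q) := mul_le_mul_of_nonneg_right e3 hP.le
      _ ≤ _ := by rw [mul_assoc]; exact e4
  · intro y x hW
    have e0 : cn y x 0 = y := rfl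
    have et : Fin.tail (cn y x) = x := rfl
    constructor
    · intro l
      obtain ⟨a1, a2⟩ := h1 _ (h2s hW) l
      obtain ⟨b1, b2⟩ := h1 _ hW0 l
      rw [e0] at a1 a2
      have c : |(y l : ℝ) / N - (W0 0 l : ℝ) / N| ≤ Real.exp (-Y) := by
        rw [abs_le]; constructor <;> linarith
      rw [← sub_div, abs_div, abs_of_pos hN0, div_le_iff₀ hN0] at c
      push_cast
      exact c
    · intro r
      obtain ⟨a1, a2⟩ := h2 _ hW r
      rw [e0, et] at a1 a2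
      refine (round_le _ ⌊dt (Ψ r x) (y - W0 0)⌋).trans ?_
      have e : dt (Ψ r x) (y - W0 0) - s r - (⌊dt (Ψ r x) (y - W0 0)⌋ : ℝ) =
          Int.fract (dt (Ψ r x) (y - W0 0)) - s r := by
        rw [Int.fract]; ring
      rw [e, abs_of_nonneg a1]
      exact a2.trans hinv

end Vale.Agent.P057T.Gkh
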