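import Vale.Agent.P057T.Gkh.Defs
import Vale.Agent.P057L.Bas
import Vale.Agent.P057L.Exd

/-! One round of the global structure theorem. -/

set_option linter.all false

open Finset
open scoped BigOperators

namespace Vale.Agent.P057T.Gkh

open Vale.Agent.P057Z Vale.Agent.P057L

noncomputable section

namespace Rnd

variable {j q : ℕ}

theorem zd_ap {α ι : Type} [Fintype α] {Q : ℕ} (v : α → ℤ) (θ : α → ι → ZMod Q) (a : ι) :
    zd v θ a = ∑ r, (v r : ZMod Q) * θ r a := by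
  simp [zd, Finset.sum_apply, zsmul_eq_mul]

theorem alg {κ F : Type} [Fintype κ] [DecidableEq κ] [Field F] (P : κ → Prop) [DecidablePred P]
    (f g : κ → κ → F) (D : F) (m e c : κ → F) (hD : D ≠ 0)
    (h0 : ∀ s r, ¬ P r → f s r = 0 ∧ g s r = 0)
    (h1 : ∀ r, P r → D * m r = ∑ s, f s r * e s + ∑ s ∈ univ.filter P, g s r * m s) :
    ∑ r, m r * c r = ∑ s, e s * (D⁻¹ * ∑ r, f s r * c r) +
      ∑ r, m r * (if P r then D⁻¹ * ∑ r', g r r' * c r' else c r) := by
  have e1 : ∀ r, m r * c r = D⁻¹ * ((∑ s, f s r * e s) * c r) +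
      (D⁻¹ * ((∑ s ∈ univ.filter P, g s r * m s) * c r) + if P r then 0 else m r * c r) := by
    intro r
    by_cases h : P r
    · rw [if_pos h, add_zero, ← mul_add, ← add_mul, ← h1 r h]
      field_simp
    · rw [if_neg h]
      simp [(h0 _ r h).1, (h0 _ r h).2]
  have e2 : ∀ r, m r * (if P r then D⁻¹ * ∑ r', g r r' * c r' else c r) =
      (if P r then m r * (D⁻¹ * ∑ r', g r r' * c r') else 0) + if P r then 0 else m r * c r := by
    intro r
    by_cases h : P r <;> simp [h]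
  rw [sum_congr rfl fun r _ => e1 r, sum_congr rfl fun r _ => e2 r, sum_add_distrib,
    sum_add_distrib, sum_add_distrib]
  have a1 : ∑ r, D⁻¹ * ((∑ s, f s r * e s) * c r) = ∑ s, e s * (D⁻¹ * ∑ r, f s r * c r) := by
    simp only [sum_mul, mul_sum]
    rw [sum_comm]
    exact sum_congr rfl fun s _ => sum_congr rfl fun r _ => by ring
  have a2 : ∑ r, D⁻¹ * ((∑ s ∈ univ.filter P, g s r * m s) * c r) =
      ∑ r, if P r then m r * (D⁻¹ * ∑ r', g r r' * c r') else 0 := by
    rw [← sum_filter]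
    simp only [sum_mul, mul_sum]
    rw [sum_comm]
    exact sum_congr rfl fun s _ => sum_congr rfl fun r _ => by ring
  rw [a1, a2]

theorem dt_sub (a : Fin q → ℝ) (y y' yc : Vz q) :
    dt a (y - y') = dt a (y - yc) - dt a (y' - yc) := by
  simp only [dt, ← sum_sub_distrib, Pi.sub_apply]
  exact sum_congr rfl fun l _ => by push_cast; ring

theorem arc2 {a : Fin q → ℝ} {y y' yc : Vz q} {s ε : ℝ}
    (h : |dt a (y - yc) - s - round (dt a (y - yc) - s)| ≤ ε)
    (h' : |dt a (y' - yc) - s - round (dt a (y' - yc) - s)| ≤ ε) :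
    |dt a (y - y') - round (dt a (y - y'))| ≤ 2 * ε := by
  refine (round_le _ (round (dt a (y - yc) - s) - round (dt a (y' - yc) - s))).trans ?_
  rw [dt_sub a y y' yc]
  push_cast
  rw [abs_le] at h h' ⊢
  constructor <;> linarith [h.1, h.2, h'.1, h'.2]

theorem key {κ : Type} [Fintype κ] (I : Finset (Fin j)) (E : κ → ℤ) (Ψ : κ → Fin q → ℝ)
    (Φ : Finset (Fin j) → Fin q → ℝ) (a v : Fin q → ℤ) (M ε N : ℝ) (hN : 0 < N) (hM : 0 ≤ M)
    (hε : 0 ≤ ε) (hE : ∀ r, |(E r : ℝ)| ≤ M) (hI : ∀ l, Φ I l = ∑ r, (E r : ℝ) * Ψ r l)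
    (hid : ∀ l, |∑ J ∈ I.powerset, (-1 : ℝ) ^ (I \ J).card * Φ J l - a l| ≤ M / N)
    (hv : ∀ l, |(v l : ℝ)| ≤ ε * N) (h1 : ∀ r, |dt (Ψ r) v - round (dt (Ψ r) v)| ≤ ε)
    (h2 : ∀ J ∈ I.powerset.erase I, |dt (Φ J) v - round (dt (Φ J) v)| ≤ ε)
    (hs : (Fintype.card κ * M + 2 ^ j + q * M) * ε < 1) :
    (E ⬝ᵥ fun r => round (dt (Ψ r) v)) = ∑ l, a l * v l -
      ∑ J ∈ I.powerset.erase I, (-1 : ℤ) ^ (I \ J).card * round (dt (Φ J) v) := by
  have b1 : |∑ J ∈ I.powerset, (-1 : ℝ) ^ (I \ J).card * dt (Φ J) v - ∑ l, (a l : ℝ) * v l| ≤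
      q * M * ε := by
    have : ∑ J ∈ I.powerset, (-1 : ℝ) ^ (I \ J).card * dt (Φ J) v - ∑ l, (a l : ℝ) * v l =
        ∑ l, (∑ J ∈ I.powerset, (-1 : ℝ) ^ (I \ J).card * Φ J l - a l) * v l := by
      simp only [dt, mul_sum, sub_mul, sum_mul, sum_sub_distrib]
      rw [sum_comm]
      simp only [mul_assoc]
    rw [this]
    refine (abs_sum_le_sum_abs _ _).trans ?_
    have : ∀ l ∈ (univ : Finset (Fin q)),
        |(∑ J ∈ I.powerset, (-1 : ℝ) ^ (I \ J).card * Φ J l - a l) * v l| ≤ M * ε := by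
      intro l _
      rw [abs_mul]
      calc _ ≤ M / N * (ε * N) := mul_le_mul (hid l) (hv l) (abs_nonneg _) (by positivity)
        _ = M * ε := by field_simp
    refine (sum_le_sum this).trans ?_
    simp [mul_assoc]
  have b2 : |dt (Φ I) v - ∑ r, (E r : ℝ) * round (dt (Ψ r) v)| ≤ Fintype.card κ * M * ε := by
    have : dt (Φ I) v - ∑ r, (E r : ℝ) * round (dt (Ψ r) v) =
        ∑ r, (E r : ℝ) * (dt (Ψ r) v - round (dt (Ψ r) v)) := by
      simp only [mul_sub, sum_sub_distrib]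
      congr 1
      simp only [dt, hI, sum_mul, mul_sum]
      rw [sum_comm]
      simp only [mul_assoc]
    rw [this]
    refine (abs_sum_le_sum_abs _ _).trans ?_
    have : ∀ r ∈ (univ : Finset κ), |(E r : ℝ) * (dt (Ψ r) v - round (dt (Ψ r) v))| ≤ M * ε := by
      intro r _
      rw [abs_mul]
      exact mul_le_mul (hE r) (h1 r) (abs_nonneg _) hM
    refine (sum_le_sum this).trans ?_
    simp [mul_assoc]
  have b3 : |∑ J ∈ I.powerset.erase I, (-1 : ℝ) ^ (I \ J).card * dt (Φ J) v -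
      ∑ J ∈ I.powerset.erase I, (-1 : ℝ) ^ (I \ J).card * round (dt (Φ J) v)| ≤ 2 ^ j * ε := by
    rw [← sum_sub_distrib]
    refine (abs_sum_le_sum_abs _ _).trans ?_
    have : ∀ J ∈ I.powerset.erase I, |(-1 : ℝ) ^ (I \ J).card * dt (Φ J) v -
        (-1 : ℝ) ^ (I \ J).card * round (dt (Φ J) v)| ≤ ε := by
      intro J hJ
      rw [← mul_sub, abs_mul, abs_pow, abs_neg, abs_one, one_pow, one_mul]
      exact h2 J hJ
    refine (sum_le_sum this).trans ?_
    rw [sum_const, nsmul_eq_mul]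
    refine mul_le_mul_of_nonneg_right ?_ hε
    have h3 : (I.powerset.erase I).card ≤ 2 ^ j := by
      refine (card_erase_le).trans ?_
      rw [card_powerset]
      exact Nat.pow_le_pow_right (by norm_num) (by simpa using card_le_univ I)
    exact_mod_cast h3
  have b4 : ∑ J ∈ I.powerset, (-1 : ℝ) ^ (I \ J).card * dt (Φ J) v = dt (Φ I) v +
      ∑ J ∈ I.powerset.erase I, (-1 : ℝ) ^ (I \ J).card * dt (Φ J) v := by
    rw [← add_sum_erase _ _ (mem_powerset_self I)]
    simp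
  have b5 : |(((E ⬝ᵥ fun r => round (dt (Ψ r) v)) - (∑ l, a l * v l -
      ∑ J ∈ I.powerset.erase I, (-1 : ℤ) ^ (I \ J).card * round (dt (Φ J) v)) : ℤ) : ℝ)| < 1 := by
    simp only [dotProduct]
    push_cast
    rw [b4] at b1
    rw [abs_le] at b1 b2 b3
    rw [abs_lt]
    constructor <;> nlinarith [b1.1, b1.2, b2.1, b2.2, b3.1, b3.2]
  have b6 : |(E ⬝ᵥ fun r => round (dt (Ψ r) v)) - (∑ l, a l * v l -
      ∑ J ∈ I.powerset.erase I, (-1 : ℤ) ^ (I \ J).card * round (dt (Φ J) v))| < 1 := by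
    exact_mod_cast b5
  have := Int.abs_lt_one_iff.1 b6
  linarith

theorem dn_res {N : ℕ} {Ω : Finset (Pt (j + 1) q)} {X : Finset (Pt j q)} {A : ℝ}
    (hΩ : Ω ⊆ bp (j + 1) q N) (hX : Dn X N A)
    (hf : ∀ x ∈ X, Real.exp (-A) * (N : ℝ) ^ q ≤ (fb Ω N x).card) :
    Dn (open Classical in Ω.filter fun W => Fin.tail W ∈ X) N (2 * A) := by
  classical
  refine ⟨(filter_subset _ _).trans hΩ, ?_⟩
  rw [Bas.card_fb N _ ((filter_subset _ _).trans hΩ)]
  push_cast
  have h1 : ∀ x ∈ X, Real.exp (-A) * (N : ℝ) ^ q ≤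
      ((fb (Ω.filter fun W => Fin.tail W ∈ X) N x).card : ℝ) := by
    intro x hx
    refine (hf x hx).trans ?_
    have : fb Ω N x ⊆ fb (Ω.filter fun W => Fin.tail W ∈ X) N x := by
      intro y hy
      simp only [fb, mem_filter] at hy ⊢
      exact ⟨hy.1, hy.2, by simpa [cn] using hx⟩
    exact_mod_cast card_le_card this
  calc Real.exp (-(2 * A)) * (N : ℝ) ^ ((j + 1) * q)
      = (Real.exp (-A) * (N : ℝ) ^ (j * q)) * (Real.exp (-A) * (N : ℝ) ^ q) := by
        rw [show -(2 * A) = -A + -A by ring, Real.exp_add, add_mul, one_mul, pow_add]; ring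
    _ ≤ X.card * (Real.exp (-A) * (N : ℝ) ^ q) :=
        mul_le_mul_of_nonneg_right hX.2 (by positivity)
    _ = ∑ x ∈ X, Real.exp (-A) * (N : ℝ) ^ q := by rw [sum_const, nsmul_eq_mul]
    _ ≤ ∑ x ∈ X, ((fb (Ω.filter fun W => Fin.tail W ∈ X) N x).card : ℝ) := sum_le_sum h1
    _ ≤ _ := sum_le_sum_of_subset_of_nonneg hX.1 fun _ _ _ => Nat.cast_nonneg _

theorem twr_flat (hF : FRM) {L : List (Cd j q)} (hL : Twr L) (w : Pt j q)
    (s : List (Finset (Fin j))) : Twr (s.flatMap fun J => cp J w L) := by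
  induction s with
  | nil => exact Twr.nil
  | cons J s ih =>
    rw [List.flatMap_cons]
    exact (hF j q).2.2.2.1 _ _ ((hF j q).2.2.2.2.2.2.2.1 L J w hL) ih

theorem len_flat {L : List (Cd j q)} (w : Pt j q) (s : List (Finset (Fin j))) :
    (s.flatMap fun J => cp J w L).length = s.length * L.length := by
  induction s with
  | nil => simp
  | cons J s ih =>
    rw [List.flatMap_cons, List.length_append, ih]
    simp [cp, add_mul, add_comm]

theorem lin_cst {κ ι : Type} [Fintype κ] {Q : ℕ} {c : Pt j q → κ → ι → ZMod Q}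
    {X : Finset (Pt j q)} {i : Fin j} (g : κ → ℤ) (h : ∀ r, g r ≠ 0 → Cst (fun x => c x r) X i) :
    Cst (fun x => zd g (c x)) X i := by
  intro x a b ha hb
  simp only [zd]
  refine sum_congr rfl fun r _ => ?_
  by_cases e : g r = 0
  · simp [e]
  · have := h r e x a b ha hb
    simp only at this
    rw [this]

theorem lin_mh {κ ι : Type} [Fintype κ] {Q : ℕ} {c : Pt j q → κ → ι → ZMod Q}
    {X : Finset (Pt j q)} {i : Fin j} (g : κ → ℤ) (h : ∀ r, g r ≠ 0 → MHi (fun x => c x r) X i) :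
    MHi (fun x => zd g (c x)) X i := by
  intro W s t hs ht e
  simp only [zd]
  rw [sum_comm, sum_comm (s := (univ : Finset (Fin 6)))]
  refine sum_congr rfl fun r _ => ?_
  by_cases e0 : g r = 0
  · simp [e0]
  · have := h r e0 W s t hs ht e
    simp only at this
    rw [← smul_sum, ← smul_sum, this]

theorem sm_cst {ι : Type} {Q : ℕ} {c : Pt j q → ι → ZMod Q} {X X' : Finset (Pt j q)} {i : Fin j}
    (d : ZMod Q) (h : Cst c X i) (e : X' ⊆ X) : Cst (fun x => d • c x) X' i := by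
  intro x a b ha hb
  have := h x a b (e ha) (e hb)
  simp only
  rw [this]

theorem sm_mh {ι : Type} {Q : ℕ} {c : Pt j q → ι → ZMod Q} {X X' : Finset (Pt j q)} {i : Fin j}
    (d : ZMod Q) (h : MHi c X i) (e : X' ⊆ X) : MHi (fun x => d • c x) X' i := by
  intro W s t hs ht e'
  have := h W s t (fun a => e (hs a)) (fun a => e (ht a)) e'
  simp only
  rw [← smul_sum, ← smul_sum, this]

theorem num {A : ℝ} {j q R : ℕ} (h10 : 10 ≤ A) (hj : (2 : ℝ) ^ j ≤ A) (hq : (q : ℝ) ≤ A)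
    (hR : (R : ℝ) ≤ A) :
    (R * Real.exp A + 2 ^ j + q * Real.exp A) * (2 * Real.exp (-A ^ 2)) < 1 ∧
      2 * Real.exp (-A ^ 2) ≤ 1 / 100 := by
  have e1 : A ≤ Real.exp A := by linarith [Real.add_one_le_exp A]
  have e0 : 1 ≤ Real.exp A := by linarith
  have e2 : Real.exp (-A ^ 2) * (Real.exp A * Real.exp A * Real.exp A * Real.exp A *
      Real.exp A) ≤ 1 := by
    rw [← Real.exp_add, ← Real.exp_add, ← Real.exp_add, ← Real.exp_add, ← Real.exp_add]
    rw [← Real.exp_zero]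
    exact Real.exp_le_exp.2 (by nlinarith)
  have p := Real.exp_pos (-A ^ 2)
  set E := Real.exp A
  set ε := Real.exp (-A ^ 2)
  have hE : 10 ≤ E := by linarith
  have e3 : ε * (E * E) * 1000 ≤ 1 := by
    have : (1000 : ℝ) ≤ E * E * E := by nlinarith
    have h2 : 0 ≤ ε * (E * E) := by positivity
    nlinarith
  have e4 : R * E + 2 ^ j + q * E ≤ 3 * (E * E) := by nlinarith
  constructor
  · nlinarith
  · have : 100 ≤ E * E := by nlinarith
    nlinarith

end Rnd

open Rnd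

theorem rnd (hF : FRM) (hA : RA) (hR : RF) : RND := by
  classical
  intro j
  obtain ⟨C1, h1⟩ := hA j
  obtain ⟨C2, h2⟩ := hR j
  refine ⟨2 ^ j + 10 + C1 + C2 + 2 * (C1 + 1) * (C2 + 1), ?_⟩
  intro Y q N Q Q' _ _ κ ι _ _ _ _ φ S I i hC hq1 hq hN hQ hQ' hS hG
  have k1 : C1 ≤ 2 ^ j + 10 + C1 + C2 + 2 * (C1 + 1) * (C2 + 1) := by
    generalize 2 ^ j = u
    generalize 2 * (C1 + 1) * (C2 + 1) = v
    omega
  have k2 : (C1 + 1) * (2 * (C2 + 1)) ≤ 2 ^ j + 10 + C1 + C2 + 2 * (C1 + 1) * (C2 + 1) := by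
    generalize 2 ^ j = u
    rw [show (C1 + 1) * (2 * (C2 + 1)) = 2 * (C1 + 1) * (C2 + 1) by ring]
    generalize 2 * (C1 + 1) * (C2 + 1) = v
    omega
  set C := 2 ^ j + 10 + C1 + C2 + 2 * (C1 + 1) * (C2 + 1) with hCd
  have hC' : ((2 : ℝ) ^ j + 10 + C1 + C2 : ℝ) ≤ Y := by
    refine le_trans ?_ hC
    rw [hCd]; push_cast
    have : (0 : ℝ) ≤ 2 * ((C1 : ℝ) + 1) * ((C2 : ℝ) + 1) := by positivity
    linarith
  have p2 : (0 : ℝ) < 2 ^ j := by positivity
  have c1 : (0 : ℝ) ≤ C1 := Nat.cast_nonneg _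
  have c2 : (0 : ℝ) ≤ C2 := Nat.cast_nonneg _
  have hY1 : 1 ≤ Y := by linarith
  have mono : ∀ a b : ℕ, a ≤ b → Y ^ a ≤ Y ^ b := fun a b h => pow_le_pow_right₀ hY1 h
  obtain ⟨X', w, E, f, g, D0, hXX, hXd, hfb, hD, hE, h0, hid, hsb, hrel, hgl⟩ :=
    h1 Y q N Q Q' κ ι φ S I i (by linarith) hq1 hq ((mono _ _ k1).trans hN) hQ hQ' hS hG
  set A := Y ^ (C1 + 1) with hAd
  have hYA : Y ≤ A := by simpa using mono 1 (C1 + 1) (by omega)
  have hA1 : Y ^ C1 ≤ A := mono _ _ (by omega)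
  have hA10 : 10 ≤ A := by linarith
  have hAA : (2 ^ j + 2) * A ≤ A ^ 2 := by nlinarith
  have hA2 : (A ^ 2) ^ (C2 + 1) ≤ Y ^ C := by
    rw [hAd, ← pow_mul, ← pow_mul]
    exact mono _ _ (by first | exact k2 | (rw [mul_assoc]; exact k2))
  have hA21 : 1 ≤ A ^ 2 := by nlinarith
  have hA3 : (A ^ 2) ^ C2 ≤ Y ^ C := (pow_le_pow_right₀ hA21 (by omega)).trans hA2
  have hA4 : A ^ 2 ≤ Y ^ C := by
    refine le_trans ?_ hA2
    simpa using pow_le_pow_right₀ hA21 (show 1 ≤ C2 + 1 by omega)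
  have hN0 : (0 : ℝ) < N := by
    rcases Nat.eq_zero_or_pos N with h | h
    · subst h
      simp at hN
      linarith [one_le_pow₀ hY1 (n := C)]
    · exact_mod_cast h
  choose! a ha using hrel
  let Φ : κ → Finset (Fin j) → Pt j q → Fin q → ℝ :=
    fun s J x l => ∑ r, (E s r : ℝ) * S.Ψ r (sb J w x) l
  let Ψ' : κ ⊕ κ × Finset (Fin j) → Pt j q → Fin q → ℝ :=
    Sum.elim S.Ψ fun p x l => if p.2 ⊂ I then Φ p.1 p.2 x l else 0
  have hd1 := dn_res hS.dn.1 hXd hfb
  have hcard : (Fintype.card (κ ⊕ κ × Finset (Fin j)) : ℝ) ≤ A ^ 2 := by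
    have := hS.hR
    have k0 : (0 : ℝ) ≤ Fintype.card κ := Nat.cast_nonneg _
    simp only [Fintype.card_sum, Fintype.card_prod, Fintype.card_finset, Fintype.card_fin]
    push_cast
    nlinarith
  obtain ⟨Ω', yc, s0, hΩ', hd', hrf⟩ := h2 (A ^ 2) q N _ Ψ' _ (by nlinarith) (by nlinarith) hcard
    (hA3.trans hN) (ExdA.Dn_mono hd1 (by nlinarith))
  have hΩS : Ω' ⊆ S.Ω := hΩ'.trans (filter_subset _ _)
  have hx' : ∀ y x, cn y x ∈ Ω' → x ∈ X' := fun y x h => by
    simpa [cn] using (mem_filter.1 (hΩ' h)).2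
  obtain ⟨n1, n2⟩ := num (j := j) (q := q) (R := Fintype.card κ) hA10 (by linarith) (by linarith)
    (hS.hR.trans hYA)
  let d : ZMod Q := (D0 : ZMod Q)⁻¹
  let S' : Dat j q Q (κ ⊕ κ × Finset (Fin j)) ι :=
    { Ω := Ω', X := X', L := S.L ++ I.powerset.toList.flatMap fun J => cp J w S.L
      ty := Sum.elim S.ty Prod.snd, Ψ := Ψ'
      θ := fun x l => S.θ x l + ∑ s, a x s l • d • zd (f s) (S.c x)
      c := fun x => Sum.elim (fun r => if S.ty r = I then d • zd (g r) (S.c x) else S.c x r)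
        fun p => if p.2 ⊂ I then (-(-1 : ℤ) ^ (I \ p.2).card) • d • zd (f p.1) (S.c x) else 0 }
  have harc : ∀ x y y', cn y x ∈ Ω' → cn y' x ∈ Ω' → ∀ r,
      |dt (Ψ' r x) (y - y') - round (dt (Ψ' r x) (y - y'))| ≤ 2 * Real.exp (-A ^ 2) :=
    fun x y y' h h' r => arc2 ((hrf y x h).2 r) ((hrf y' x h').2 r)
  have zc : ∀ (X : Finset (Pt j q)) i', Cst (fun _ : Pt j q => (0 : ι → ZMod Q)) X i' :=
    fun X i' x a b _ _ => rfl
  have zm : ∀ (X : Finset (Pt j q)) i', MHi (fun _ : Pt j q => (0 : ι → ZMod Q)) X i' :=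
    fun X i' W s t _ _ _ => rfl
  refine ⟨S', hΩS, ⟨hcard.trans hA4, ?_, ExdA.Dn_mono hd' hA3, fun i' => ExdA.MHi_mono (hS.mh i') hΩS, hx',
    (hF j q).2.2.2.1 _ _ hS.twr (twr_flat hF hS.twr w _), ?_, ?_, ?_,
    fun x y y' h h' r => (harc x y y' h h' r).trans n2, ?_⟩, ?_, ?_⟩
  · refine le_trans ?_ hA4
    have l0 : (0 : ℝ) ≤ S.L.length := Nat.cast_nonneg _
    have l1 := hS.hL
    have l2 : (2 : ℝ) ^ I.card ≤ 2 ^ j :=
      pow_le_pow_right₀ (by norm_num) (by simpa using card_le_univ I)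
    simp only [S', List.length_append, len_flat, length_toList, card_powerset]
    push_cast
    nlinarith
  · rintro (r | ⟨s, J⟩) l
    · exact (hF j q).2.2.1 _ _ _ _ (List.subset_append_left _ _) (hS.frm r l)
    · by_cases hJ : J ⊂ I
      · simp only [S', Ψ', Sum.elim_inr, if_pos hJ, Φ]
        refine (hF j q).2.1 _ _ _ _ _ fun r _ => ?_
        by_cases hr : S.ty r = I
        · refine (hF j q).1 _ _ _ _ ?_
          have := (hF j q).2.2.2.2.2.2.2.2.1 _ _ _ J w (hS.frm r l)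
          rw [hr, inter_eq_right.2 hJ.subset] at this
          refine (hF j q).2.2.1 _ _ _ _ ?_ this
          intro p hp
          refine List.mem_append_right _ (List.mem_flatMap.2 ⟨J, ?_, hp⟩)
          simpa using hJ.subset
        · simp only [(h0 s r hr).1, Int.cast_zero, zero_mul]
          exact Frm.cst _ 0
      · simp only [S', Ψ', Sum.elim_inr, if_neg hJ]
        exact Frm.cst _ 0
  · intro x hx p hp
    rcases List.mem_append.1 hp with h | h
    · exact hS.cel x (hXX hx) p h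
    · obtain ⟨J, hJ, hp⟩ := List.mem_flatMap.1 h
      obtain ⟨p', hp', rfl⟩ := List.mem_map.1 hp
      exact hS.cel _ (hsb x hx J (by simpa using hJ)) p' hp'
  · rintro x hx (r | ⟨s, J⟩) l
    · exact hS.rat x (hXX hx) r l
    · by_cases hJ : J ⊂ I
      · simp only [S', Ψ', Sum.elim_inr, if_pos hJ, Φ]
        choose n hn using fun r => hS.rat _ (hsb x hx J hJ.subset) r l
        refine ⟨∑ r, E s r * n r, ?_⟩
        push_cast
        rw [sum_div]
        exact sum_congr rfl fun r _ => by rw [hn r]; ring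
      · exact ⟨0, by simp [S', Ψ', hJ]⟩
  · intro x y y' h h'
    have hx := hx' y x h
    rw [hS.ch x y y' (hΩS h) (hΩS h')]
    have hk : ∀ s, (E s ⬝ᵥ fun r => round (dt (S.Ψ r x) (y - y'))) = ∑ l, a x s l * (y - y') l -
        ∑ J ∈ I.powerset.erase I, (-1 : ℤ) ^ (I \ J).card * round (dt (Φ s J x) (y - y')) := by
      intro s
      refine key I (E s) (fun r => S.Ψ r x) (fun J => Φ s J x) (a x s) (y - y') (Real.exp A)
        (2 * Real.exp (-A ^ 2)) N hN0 (Real.exp_pos _).le (by positivity)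
        (fun r => (hE s r).trans (Real.exp_le_exp.2 hA1)) ?_ ?_ ?_
        (fun r => harc x y y' h h' (Sum.inl r)) ?_ n1
      · intro l
        refine sum_congr rfl fun r _ => ?_
        by_cases hr : S.ty r = I
        · rw [(hF j q).2.2.2.2.2.1 S.L _ _ (sb I w x) x hS.twr (hS.frm r l)
            fun i' hi' => by simp [sb, hr ▸ hi']]
        · simp [(h0 s r hr).1]
      · intro l
        exact (ha x hx s l).trans
          (div_le_div_of_nonneg_right (Real.exp_le_exp.2 hA1) hN0.le)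
      · intro l
        have u1 := (hrf y x h).1 l
        have u2 := (hrf y' x h').1 l
        simp only [Pi.sub_apply]
        push_cast at u1 u2 ⊢
        rw [abs_le] at u1 u2 ⊢
        constructor <;> linarith [u1.1, u1.2, u2.1, u2.2]
      · intro J hJ
        have hJ' : J ⊂ I := by
          rw [mem_erase, mem_powerset] at hJ
          exact ssubset_of_subset_of_ne hJ.2 hJ.1
        have := harc x y y' h h' (Sum.inr (s, J))
        simpa only [Ψ', Sum.elim_inr, if_pos hJ'] using this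
    funext b
    set v := y - y' with hv
    set m : κ → ℤ := fun r => round (dt (S.Ψ r x) v) with hm
    have al := alg (fun r => S.ty r = I) (fun s r => (f s r : ZMod Q)) (fun s r => (g s r : ZMod Q))
      (D0 : ZMod Q) (fun r => (m r : ZMod Q)) (fun s => ((E s ⬝ᵥ m : ℤ) : ZMod Q))
      (fun r => S.c x r b) hD (fun s r hr => by simp [(h0 s r hr).2.1, (h0 s r hr).2.2])
      (fun r hr => by exact_mod_cast congrArg (Int.cast : ℤ → ZMod Q) (hid m r hr))
    have t1 : ∀ s, ∑ J : Finset (Fin j), ((round (dt (Ψ' (Sum.inr (s, J)) x) v) : ℤ) : ZMod Q) *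
        S'.c x (Sum.inr (s, J)) b = -(((∑ J ∈ I.powerset.erase I,
          (-1 : ℤ) ^ (I \ J).card * round (dt (Φ s J x) v) : ℤ) : ZMod Q) *
          (d * ∑ r, (f s r : ZMod Q) * S.c x r b)) := by
      intro s
      have : I.powerset.erase I = univ.filter fun J => J ⊂ I := by
        ext J
        simp [Finset.ssubset_iff_subset_ne, and_comm]
      rw [this, sum_filter]
      push_cast
      rw [sum_mul, ← sum_neg_distrib]
      refine sum_congr rfl fun J _ => ?_
      by_cases hJ : J ⊂ I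
      · have u : S'.c x (Sum.inr (s, J)) b = ((-(-1 : ℤ) ^ (I \ J).card : ℤ) : ZMod Q) *
            (d * ∑ r, (f s r : ZMod Q) * S.c x r b) := by
          simp only [S', Sum.elim_inr, if_pos hJ]
          rw [Pi.smul_apply, Pi.smul_apply, zd_ap, smul_eq_mul, zsmul_eq_mul]
        rw [u]
        simp only [Ψ', Sum.elim_inr, if_pos hJ]
        push_cast
        ring
      · simp [S', hJ]
    have t2 : ∀ r, S'.c x (Sum.inl r) b =
        if S.ty r = I then d * ∑ r', (g r r' : ZMod Q) * S.c x r' b else S.c x r b := by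
      intro r
      by_cases hr : S.ty r = I <;> simp [S', hr, zd_ap]
    have t3 : ∀ l, S'.θ x l b = S.θ x l b +
        ∑ s, (a x s l : ZMod Q) * (d * ∑ r, (f s r : ZMod Q) * S.c x r b) := by
      intro l
      simp only [S', Pi.add_apply, Finset.sum_apply]
      congr 1
      refine sum_congr rfl fun s _ => ?_
      rw [Pi.smul_apply, Pi.smul_apply, zd_ap, smul_eq_mul, zsmul_eq_mul]
    simp only [Pi.add_apply, zd_ap, Fintype.sum_sum_type, Fintype.sum_prod_type]
    show _ = _ + (∑ r, (m r : ZMod Q) * S'.c x (Sum.inl r) b + ∑ s, ∑ J : Finset (Fin j),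
      ((round (dt (Ψ' (Sum.inr (s, J)) x) v) : ℤ) : ZMod Q) * S'.c x (Sum.inr (s, J)) b)
    simp only [t1, t2, t3]
    show _ + ∑ r, (m r : ZMod Q) * S.c x r b = _
    rw [al]
    simp only [hk]
    push_cast
    simp only [mul_add, sum_add_distrib, sub_mul, sum_sub_distrib, sum_neg_distrib]
    have t4 : ∑ l, (v l : ZMod Q) * ∑ s, (a x s l : ZMod Q) *
        (d * ∑ r, (f s r : ZMod Q) * S.c x r b) = ∑ s, (∑ l, (a x s l : ZMod Q) * v l) *
        (d * ∑ r, (f s r : ZMod Q) * S.c x r b) := by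
      simp only [sum_mul]
      rw [sum_comm]
      refine sum_congr rfl fun l _ => ?_
      rw [mul_sum]
      exact sum_congr rfl fun s _ => by ring
    rw [t4]
    ring
  · rintro (r | ⟨s, J⟩) hr
    · have hr' : S.ty r = I := hr
      simp only [S', Sum.elim_inl, if_pos hr']
      exact ⟨fun hi => sm_cst d ((hgl r hr').1 hi) subset_rfl,
        fun hi => sm_mh d ((hgl r hr').2 hi) subset_rfl⟩
    · have hJ : ¬ J ⊂ I := by
        have : J = I := hr
        rw [this]; exact ssubset_irrefl _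
      simp only [S', Sum.elim_inr, if_neg hJ]
      exact ⟨fun _ => zc _ _, fun _ => zm _ _⟩
  · rintro t i' ht hg (r | ⟨s, J⟩) hr
    · have hr' : S.ty r = t := hr
      by_cases hI : S.ty r = I
      · have tI : t = I := hr'.symm.trans hI
        subst tI
        simp only [S', Sum.elim_inl, if_pos hI]
        have nz : ∀ r', g r r' ≠ 0 → S.ty r' = t := fun r' h => by
          by_contra h'
          exact h (h0 r r' h').2.2
        exact ⟨fun hi => sm_cst d (lin_cst _ fun r' h => (hg r' (nz r' h)).1 hi) hXX,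
          fun hi => sm_mh d (lin_mh _ fun r' h => (hg r' (nz r' h)).2 hi) hXX⟩
      · simp only [S', Sum.elim_inl, if_neg hI]
        exact ⟨fun hi x a b ha hb => (hg r hr').1 hi x a b (hXX ha) (hXX hb),
          fun hi => ExdA.MHi_mono ((hg r hr').2 hi) hXX⟩
    · have hJ : ¬ J ⊂ I := by
        have : J = t := hr
        rw [this]; exact ht
      simp only [S', Sum.elim_inr, if_neg hJ]
      exact ⟨fun _ => zc _ _, fun _ => zm _ _⟩

end

end Vale.Agent.P057T.Gkh
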