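import Vale.Agent.P057T.Gkh.Defs
import Vale.Agent.P057L.Bas
import Mathlib.NumberTheory.Bertrand

/-! The first state. -/

set_option linter.all false

open Finset
open scoped BigOperators

namespace Vale.Agent.P057T.Gkh

open Vale.Agent.P057Z Vale.Agent.P057L

theorem st0_dn {j q N : ℕ} {Ω : Finset (Pt j q)} {Y Y' : ℝ} (h : Dn Ω N Y) (hY : Y ≤ Y') :
    Dn Ω N Y' := by
  refine ⟨h.1, le_trans ?_ h.2⟩
  exact mul_le_mul_of_nonneg_right (Real.exp_le_exp.2 (by linarith)) (by positivity)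

theorem st0_round (x : ℝ) (K : ℤ) (h : |x - K| ≤ 1 / 100) : round x = K := by
  have h1 := abs_sub_round x
  have h2 : |((round x - K : ℤ) : ℝ)| < 1 := by
    push_cast
    rw [abs_le] at h h1
    rw [abs_lt]
    constructor <;> linarith [h.1, h.2, h1.1, h1.2]
  have h3 : |round x - K| < 1 := by exact_mod_cast h2
  have := Int.abs_lt_one_iff.1 h3
  omega

theorem st0_int {R Q : ℕ} [Fact Q.Prime] (σ : Fin R → ℤ) (g : Fin R → ZMod Q) (t : ℝ)
    (h : Rp Q (∑ r, σ r • g r) t) :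
    ∃ n : ℤ, (∑ r, (σ r : ℝ) * (((g r).val : ℝ) / Q)) - t = n := by
  obtain ⟨n0, h1, h2⟩ := h
  have hQ : (Q : ℝ) ≠ 0 := by
    have := (Fact.out : Q.Prime).pos
    positivity
  have h3 : ((∑ r, σ r * ((g r).val : ℤ) - n0 : ℤ) : ZMod Q) = 0 := by
    push_cast
    rw [h1]
    simp only [ZMod.natCast_val, ZMod.cast_id', id_eq, zsmul_eq_mul]
    simp
  rw [ZMod.intCast_zmod_eq_zero_iff_dvd] at h3
  obtain ⟨n, hn⟩ := h3
  refine ⟨n, ?_⟩
  have h4 : ((∑ r, σ r * ((g r).val : ℤ) - n0 : ℤ) : ℝ) = ((Q : ℤ) * n : ℤ) := by rw [hn]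
  push_cast at h4
  rw [h2]
  have h5 : (∑ r, (σ r : ℝ) * (((g r).val : ℝ) / Q)) = (∑ r, (σ r : ℝ) * ((g r).val : ℝ)) / Q := by
    rw [sum_div]
    exact sum_congr rfl fun r _ => by ring
  rw [h5, ← sub_div, div_eq_iff hQ]
  simp only [ZMod.natCast_val] at h4 ⊢
  rw [h4]
  ring

theorem st0 (hFRM : FRM) (hRF : RF) (hPET : PET) (j : ℕ) (hG : GKH j) : ST0 j := by
  classical
  obtain ⟨C1, h1⟩ := hPET j
  obtain ⟨C2, h2⟩ := hG
  obtain ⟨C3, h3⟩ := hRF j
  obtain ⟨-, -, b3, b4, -⟩ := bas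
  set A : ℕ := (C1 + 1) * C2 + C1 + 2 with hA
  refine ⟨A * C3 + A + C2 + C3 + 9, ?_⟩
  intro Y q N Q _ ι _ _ φ Ω hC hq1 hq hN hQ hD hM
  set C : ℕ := A * C3 + A + C2 + C3 + 9 with hCd
  have hCY : (A * C3 + A + C2 + C3 + 9 : ℝ) ≤ Y := by
    have : ((A * C3 + A + C2 + C3 + 9 : ℕ) : ℝ) ≤ Y := hC
    push_cast at this
    exact this
  have hAr : (A : ℝ) = (C1 + 1) * C2 + C1 + 2 := by rw [hA]; push_cast; ring
  have p1 : (0 : ℝ) ≤ A * C3 := by positivity
  have p2 : (0 : ℝ) ≤ (C1 + 1) * C2 := by positivity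
  have p3 : (0 : ℝ) ≤ C1 := by positivity
  have p4 : (0 : ℝ) ≤ C2 := by positivity
  have p5 : (0 : ℝ) ≤ C3 := by positivity
  have hY9 : 9 ≤ Y := by linarith
  have hY1 : 1 ≤ Y := by linarith
  have pw : ∀ a b : ℕ, a ≤ b → Y ^ a ≤ Y ^ b := fun a b h => pow_le_pow_right₀ hY1 h
  have pY : ∀ a : ℕ, 1 ≤ a → Y ≤ Y ^ a := fun a h => by simpa using pw 1 a h
  have hN1 : 1 ≤ N := by
    rcases Nat.eq_zero_or_pos N with h | h
    · subst h
      simp at hN
      have := pY C (by omega)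
      linarith
    · exact h
  obtain ⟨Q', hQp, hQ1, hQ2⟩ := Nat.exists_prime_lt_and_le_two_mul (4 * N) (by omega)
  haveI : Fact Q'.Prime := ⟨hQp⟩
  obtain ⟨R, T, γ, σ, θ, c', X, hR, hT, hTN, hσ, hX, hMX, hch⟩ :=
    h1 Y q N Q Q' ι φ Ω (by linarith) hq ((pw _ _ (by omega)).trans hN) hQ hQ1.le (by omega) hD hM
  have e2 : (Y ^ (C1 + 1)) ^ C2 = Y ^ ((C1 + 1) * C2) := by rw [← pow_mul]
  obtain ⟨L, X1, F, hTw, hL, hX1, hD1, hCel, hF, hRp⟩ :=
    h2 (Y ^ (C1 + 1)) q N Q' (Fin R × Fin q) (fun x p => zd (σ p.1) (γ x) p.2) X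
      (by linarith [pY (C1 + 1) (by omega)]) hq1 (hq.trans (pY _ (by omega)))
      (by rw [e2]; exact (pw _ _ (by omega)).trans hN) (by omega)
      (st0_dn hX (pw _ _ (by omega))) hMX
  rw [e2] at hL hD1
  set Y1 := Y ^ C1 with hY1d
  set Y2 := Y ^ ((C1 + 1) * C2) with hY2d
  have hY3 : Y2 + 2 * Y1 + 6 ≤ Y ^ A := by
    have a1 : Y1 ≤ Y ^ (A - 1) := pw _ _ (by omega)
    have a2 : Y2 ≤ Y ^ (A - 1) := pw _ _ (by omega)
    have a3 : 1 ≤ Y ^ (A - 1) := one_le_pow₀ hY1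
    have a4 : Y ^ A = Y ^ (A - 1) * Y := by rw [← pow_succ]; congr 1
    rw [a4]
    nlinarith
  have hY10 : 0 ≤ Y1 := by positivity
  have hY20 : 0 ≤ Y2 := by positivity
  let Ω0 : Finset (Pt (j + 1) q) := Ω.filter fun W => (Fin.tail W : Pt j q) ∈ X1
  have hΩ0 : Ω0 ⊆ Ω := filter_subset _ _
  have hD0 : Dn Ω0 N (Y ^ A) := by
    refine ⟨hΩ0.trans hD.1, ?_⟩
    rw [b3 j q N Ω0 (hΩ0.trans hD.1)]
    push_cast
    have s1 : ∑ x ∈ X1, ((fb Ω0 N x).card : ℝ) ≤ ∑ x ∈ bp j q N, ((fb Ω0 N x).card : ℝ) :=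
      sum_le_sum_of_subset_of_nonneg hD1.1 fun _ _ _ => by positivity
    have s2 : ∑ x ∈ X1, Real.exp (-Y1) * (N : ℝ) ^ q ≤ ∑ x ∈ X1, ((fb Ω0 N x).card : ℝ) := by
      refine sum_le_sum fun x hx => ?_
      have : fb Ω0 N x = fb Ω N x := by
        ext y
        constructor
        · intro h
          exact mem_filter.2 ⟨(mem_filter.1 h).1, hΩ0 (mem_filter.1 h).2⟩
        · intro h
          exact mem_filter.2 ⟨(mem_filter.1 h).1, mem_filter.2 ⟨(mem_filter.1 h).2, hx⟩⟩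
      rw [this]
      exact (hch x (hX1 hx)).1
    rw [sum_const, nsmul_eq_mul] at s2
    have s3 := mul_le_mul_of_nonneg_right hD1.2
      (show 0 ≤ Real.exp (-Y1) * (N : ℝ) ^ q by positivity)
    have s4 : Real.exp (-Y ^ A) ≤ Real.exp (-Y2) * Real.exp (-Y1) := by
      rw [← Real.exp_add]
      exact Real.exp_le_exp.2 (by linarith)
    calc Real.exp (-Y ^ A) * (N : ℝ) ^ ((j + 1) * q)
        ≤ (Real.exp (-Y2) * Real.exp (-Y1)) * (N : ℝ) ^ ((j + 1) * q) :=
          mul_le_mul_of_nonneg_right s4 (by positivity)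
      _ = Real.exp (-Y2) * (N : ℝ) ^ (j * q) * (Real.exp (-Y1) * (N : ℝ) ^ q) := by
          rw [add_mul, one_mul, pow_add]; ring
      _ ≤ _ := by linarith
  have e3 : (Y ^ A) ^ C3 = Y ^ (A * C3) := by rw [← pow_mul]
  obtain ⟨Ω', yc, s, hΩ', hD', hbox⟩ :=
    h3 (Y ^ A) q N (Fin R) (fun r x l => ((γ x r l).val : ℝ) / Q') Ω0
      (by linarith [pY A (by omega)]) (hq.trans (pY _ (by omega)))
      (by rw [Fintype.card_fin]; linarith)
      (by rw [e3]; exact (pw _ _ (by omega)).trans hN) hD0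
  rw [e3] at hD'
  have hmem : ∀ y x, cn y x ∈ Ω' → x ∈ X1 ∧ y ∈ fb Ω N x := by
    intro y x h
    have h0 := mem_filter.1 (hΩ' h)
    refine ⟨by simpa [cn] using h0.2, ?_⟩
    exact mem_filter.2 ⟨((b4 j q N y x).1 (hD.1 h0.1)).1, h0.1⟩
  let a : Pt j q → Fin R → Fin q → ℝ := fun x r l => ((γ x r l).val : ℝ) / Q'
  let n : Pt j q → Fin R → Fin q → ℤ := fun x u l =>
    round ((∑ r, (σ u r : ℝ) * a x r l) - F (u, l) x)
  have hn : ∀ x ∈ X1, ∀ u l, (n x u l : ℝ) = (∑ r, (σ u r : ℝ) * a x r l) - F (u, l) x := by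
    intro x hx u l
    have hr := hRp x hx (u, l)
    have hz : zd (σ u) (γ x) l = ∑ r, σ u r • γ x r l := by
      simp only [zd, Finset.sum_apply, Pi.smul_apply]
    simp only [hz] at hr
    obtain ⟨k, hk⟩ := st0_int (σ u) (fun r => γ x r l) _ hr
    have hk' : (∑ r, (σ u r : ℝ) * a x r l) - F (u, l) x = k := hk
    simp only [n]
    rw [hk', round_intCast]
  have hε1 : 2 * Real.exp (-Y ^ A) ≤ Real.exp (-Y1) * Real.exp (-Y1) := by
    have : (2 : ℝ) ≤ Real.exp 6 := by linarith [Real.add_one_le_exp (6 : ℝ)]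
    calc 2 * Real.exp (-Y ^ A) ≤ Real.exp 6 * Real.exp (-Y ^ A) :=
          mul_le_mul_of_nonneg_right this (by positivity)
      _ ≤ _ := by
          rw [← Real.exp_add, ← Real.exp_add]
          exact Real.exp_le_exp.2 (by linarith)
  have hε0 : Real.exp (-Y1) ≤ 1 := Real.exp_le_one_iff.2 (by linarith)
  have hε2 : (R : ℝ) * (Real.exp Y1 * (2 * Real.exp (-Y ^ A))) ≤ 1 / 100 := by
    have t1 : (200 : ℝ) ≤ Real.exp 6 := by
      have : (5 / 2 : ℝ) ≤ Real.exp 1 := by linarith [Real.exp_one_gt_d9]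
      have h6 : Real.exp 6 = Real.exp 1 ^ 6 := by rw [← Real.exp_nat_mul]; norm_num
      rw [h6]
      calc (200 : ℝ) ≤ (5 / 2) ^ 6 := by norm_num
        _ ≤ _ := pow_le_pow_left₀ (by norm_num) this 6
    have t2 : (R : ℝ) ≤ Real.exp Y1 := by linarith [Real.add_one_le_exp Y1]
    have t3 : Real.exp Y1 * Real.exp Y1 * Real.exp 6 * Real.exp (-Y ^ A) ≤ 1 := by
      rw [← Real.exp_add, ← Real.exp_add, ← Real.exp_add]
      exact Real.exp_le_one_iff.2 (by linarith)
    have t4 : 0 < Real.exp Y1 := Real.exp_pos _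
    have t5 : 0 < Real.exp (-Y ^ A) := Real.exp_pos _
    have t6 : (R : ℝ) * (Real.exp Y1 * Real.exp (-Y ^ A)) * 200 ≤
        Real.exp Y1 * (Real.exp Y1 * Real.exp (-Y ^ A)) * Real.exp 6 :=
      mul_le_mul (mul_le_mul_of_nonneg_right t2 (by positivity)) t1 (by norm_num) (by positivity)
    nlinarith
  have key : ∀ x y y', cn y x ∈ Ω' → cn y' x ∈ Ω' →
      (∀ l, |(((y - y') l : ℤ) : ℝ)| ≤ Real.exp (-Y1) * T) ∧
      ∀ r, |dt (a x r) (y - y') - round (dt (a x r) (y - y'))| ≤ 2 * Real.exp (-Y ^ A) := by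
    intro x y y' hy hy'
    obtain ⟨u1, u2⟩ := hbox y x hy
    obtain ⟨v1, v2⟩ := hbox y' x hy'
    constructor
    · intro l
      have w1 := u1 l
      have w2 := v1 l
      have w3 : |(((y - y') l : ℤ) : ℝ)| ≤ 2 * Real.exp (-Y ^ A) * N := by
        simp only [Pi.sub_apply]
        push_cast at w1 w2 ⊢
        rw [abs_le] at w1 w2 ⊢
        constructor <;> linarith [w1.1, w1.2, w2.1, w2.2]
      have w4 : Real.exp (-Y1) * N ≤ T := by
        have := mul_le_mul_of_nonneg_left hT (Real.exp_pos (-Y1)).le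
        have e : Real.exp (-Y1) * (T * Real.exp Y1) = T := by
          rw [mul_left_comm, ← Real.exp_add]; simp
        linarith
      calc _ ≤ 2 * Real.exp (-Y ^ A) * N := w3
        _ ≤ Real.exp (-Y1) * Real.exp (-Y1) * N := mul_le_mul_of_nonneg_right hε1 (by positivity)
        _ = Real.exp (-Y1) * (Real.exp (-Y1) * N) := by ring
        _ ≤ _ := mul_le_mul_of_nonneg_left w4 (by positivity)
    · intro r
      have w1 := u2 r
      have w2 := v2 r
      have e : dt (a x r) (y - y') = (dt (a x r) (y - yc) - s r) - (dt (a x r) (y' - yc) - s r) := by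
        simp only [dt, Pi.sub_apply]
        push_cast
        rw [sub_sub_sub_cancel_right, ← sum_sub_distrib]
        exact sum_congr rfl fun l _ => by ring
      refine (round_le _ (round (dt (a x r) (y - yc) - s r) -
        round (dt (a x r) (y' - yc) - s r))).trans ?_
      rw [e]
      push_cast
      change |dt (a x r) (y - yc) - s r - _| ≤ _ at w1
      change |dt (a x r) (y' - yc) - s r - _| ≤ _ at w2
      rw [abs_le] at w1 w2 ⊢
      constructor <;> linarith [w1.1, w1.2, w2.1, w2.2]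
  have key2 : ∀ x y y', cn y x ∈ Ω' → cn y' x ∈ Ω' → ∀ u,
      |dt (fun l => F (u, l) x) (y - y') -
        ((σ u ⬝ᵥ (fun r => round (dt (a x r) (y - y'))) - ∑ l, n x u l * (y - y') l : ℤ) : ℝ)| ≤
        1 / 100 := by
    intro x y y' hy hy' u
    have k2 := (key x y y' hy hy').2
    have hx := (hmem y x hy).1
    have e : dt (fun l => F (u, l) x) (y - y') -
        ((σ u ⬝ᵥ (fun r => round (dt (a x r) (y - y'))) - ∑ l, n x u l * (y - y') l : ℤ) : ℝ) =
        ∑ r, (σ u r : ℝ) * (dt (a x r) (y - y') - round (dt (a x r) (y - y'))) := by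
      have e1 : ∑ r, (σ u r : ℝ) * dt (a x r) (y - y') =
          dt (fun l => F (u, l) x) (y - y') + ∑ l, (n x u l : ℝ) * ((y - y') l : ℤ) := by
        simp only [dt, mul_sum]
        rw [sum_comm, ← sum_add_distrib]
        refine sum_congr rfl fun l _ => ?_
        rw [hn x hx u l, sub_mul, sum_mul]
        simp only [mul_assoc]
        ring
      simp only [mul_sub, sum_sub_distrib]
      rw [e1]
      simp only [dotProduct]
      push_cast
      ring
    rw [e]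
    refine (abs_sum_le_sum_abs _ _).trans (le_trans ?_ hε2)
    have : ∑ r : Fin R, |(σ u r : ℝ) * (dt (a x r) (y - y') - round (dt (a x r) (y - y')))| ≤
        ∑ r : Fin R, Real.exp Y1 * (2 * Real.exp (-Y ^ A)) := by
      refine sum_le_sum fun r _ => ?_
      rw [abs_mul]
      exact mul_le_mul (hσ u r) (k2 r) (abs_nonneg _) (by positivity)
    simpa using this
  refine ⟨Q', inferInstance, R, ⟨Ω', X1, L, fun _ => univ, fun u x l => F (u, l) x,
    fun x l => θ x l + ∑ u, n x u l • c' x u, c'⟩, by omega, hΩ'.trans hΩ0, ?_⟩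
  refine ⟨?_, ?_, ?_, ?_, ?_, hTw, fun r l => hF (r, l), hCel, ?_, ?_, ?_⟩
  · rw [Fintype.card_fin]; exact hR.trans (pw _ _ (by omega))
  · exact hL.trans (pw _ _ (by omega))
  · exact st0_dn hD' (pw _ _ (by omega))
  · intro i W s t hs ht
    exact hM i W s t (fun b => hΩ0 (hΩ' (hs b))) (fun b => hΩ0 (hΩ' (ht b)))
  · intro y x h
    exact (hmem y x h).1
  · intro x hx r l
    obtain ⟨k, -, hk⟩ := hRp x hx (r, l)
    exact ⟨k, hk⟩
  · intro x y y' hy hy' u
    have k := key2 x y y' hy hy' u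
    show |dt (fun l => F (u, l) x) (y - y') - round (dt (fun l => F (u, l) x) (y - y'))| ≤ _
    rw [st0_round _ _ k]
    exact k
  · intro x y y' hy hy'
    have k := key x y y' hy hy'
    have hx := hmem y x hy
    have hx' := hmem y' x hy'
    have hc := (hch x (hX1 hx.1)).2 y hx.2 y' hx'.2 (fun r => round (dt (a x r) (y - y')))
      ⟨k.1, fun r => (k.2 r).trans (hε1.trans (by nlinarith [Real.exp_pos (-Y1)]))⟩
    show _ = zd (y - y') (fun l => θ x l + ∑ u, n x u l • c' x u) +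
      zd (fun u => round (dt (fun l => F (u, l) x) (y - y'))) (c' x)
    rw [hc]
    have e : (fun u => round (dt (fun l => F (u, l) x) (y - y'))) = fun u =>
        σ u ⬝ᵥ (fun r => round (dt (a x r) (y - y'))) - ∑ l, n x u l * (y - y') l := by
      funext u
      exact st0_round _ _ (key2 x y y' hy hy' u)
    rw [e]
    simp only [zd, smul_add, sum_add_distrib, sub_smul, sum_sub_distrib, smul_sum, sum_smul]
    have e2 : ∑ l, ∑ u, (y - y') l • n x u l • c' x u =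
        ∑ u, ∑ l, (n x u l * (y - y') l) • c' x u := by
      rw [sum_comm]
      refine sum_congr rfl fun u _ => sum_congr rfl fun l _ => ?_
      rw [mul_comm, mul_smul]
    rw [e2]
    abel

end Vale.Agent.P057T.Gkh
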