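import Vale.Agent.P057T.Gkh.Defs
import Vale.Agent.P057L.Num
import Vale.Agent.P057L.Exd

/-! Row TH: the linear part becomes a multi-homomorphism. -/

set_option linter.all false

open Finset
open scoped BigOperators

namespace Vale.Agent.P057T.Gkh

open Vale.Agent.P057Z Vale.Agent.P057L

namespace ThA

variable {j q : ℕ}

theorem add_ev (x : Pt j q) (i : Fin j) (a : Vz q) :
    Function.update x i (x i + a) = x + ev i a := by
  funext k
  by_cases h : k = i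
  · subst h; simp [ev]
  · simp [ev, h]

theorem add_ev2 (x : Pt j q) (i : Fin j) (a b : Vz q) :
    Function.update x i (x i + a + b) = x + ev i a + ev i b := by
  funext k
  by_cases h : k = i
  · subst h; simp [ev]
  · simp [ev, h]

theorem pgm {H : Type} [AddCommGroup H] {g : Pt j q → H} {X : Finset (Pt j q)} {i : Fin j}
    (h : MHi g X i) {x : Pt j q} {a b : Vz q} (h0 : x ∈ X) (h1 : x + ev i a ∈ X)
    (h2 : x + ev i b ∈ X) (h3 : x + ev i a + ev i b ∈ X) :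
    g x - g (x + ev i a) - g (x + ev i b) + g (x + ev i a + ev i b) = 0 := by
  have e0 : Function.update x i (x i) = x := Function.update_eq_self _ _
  have := h x ![x i, x i + a + b, x i, x i, x i, x i] ![x i + a, x i + b, x i, x i, x i, x i]
    (fun c => by fin_cases c <;> simp [add_ev2, h0, h3])
    (fun c => by fin_cases c <;> simp [add_ev, h0, h1, h2])
    (by simp only [Fin.sum_univ_six]; simp; abel)
  simp only [Fin.sum_univ_six] at this
  simp [add_ev, add_ev2] at this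
  rw [← sub_eq_zero.2 this]
  abel

theorem two {N : ℕ} {Z : Finset (Vz q)} (hZ : Z ⊆ bz q N) (l : Fin q) (h : N ^ q < Z.card * N) :
    ∃ y ∈ Z, ∃ n : ℤ, n ≠ y l ∧ Function.update y l n ∈ Z := by
  classical
  by_contra hc
  push Not at hc
  have h1 : (Z ×ˢ rg N).card ≤ (bz q N).card := by
    refine card_le_card_of_injOn (fun p => Function.update p.1 l p.2) (fun p hp => ?_) ?_
    · obtain ⟨a1, a2⟩ := mem_product.1 (mem_coe.1 hp)
      refine mem_coe.2 (Fintype.mem_piFinset.2 fun k => ?_)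
      by_cases e : k = l
      · subst e; simpa using a2
      · simpa [e] using Fintype.mem_piFinset.1 (hZ a1) k
    · rintro ⟨y, n⟩ hp ⟨y', n'⟩ hp' e
      have a1 := (mem_product.1 (mem_coe.1 hp)).1
      have a2 := (mem_product.1 (mem_coe.1 hp')).1
      have e1 : n = n' := by simpa using congrFun e l
      have e2 : Function.update y l (y' l) = y' := by
        funext k
        by_cases ek : k = l
        · subst ek; simp
        · simpa [ek] using congrFun e k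
      have e3 : y' l = y l := by
        by_contra hne
        exact hc y a1 (y' l) hne (e2.symm ▸ a2)
      rw [e3, Function.update_eq_self] at e2
      exact Prod.ext e2 e1
  rw [card_product, (bas.1 q N).1] at h1
  have : (rg N).card = N := by simp [rg]
  rw [this] at h1
  omega

theorem kill {N Q : ℕ} [Fact Q.Prime] {ι : Type} {Z : Finset (Vz q)} (hZ : Z ⊆ bz q N)
    (h : N ^ q < Z.card * N) (hQ : N ≤ Q) {Θ : Fin q → ι → ZMod Q}
    (h0 : ∀ y ∈ Z, ∀ y' ∈ Z, zd (y - y') Θ = 0) : Θ = 0 := by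
  funext l a
  obtain ⟨y, hy, n, hn, hu⟩ := two hZ l h
  have h1 := h0 _ hu _ hy
  unfold zd at h1
  rw [sum_eq_single l (fun i _ hi => by simp [hi]) (fun h => (h (mem_univ _)).elim)] at h1
  have h2 := congrFun h1 a
  simp only [Pi.sub_apply, Function.update_self, Pi.smul_apply, zsmul_eq_mul, Pi.zero_apply] at h2
  rcases mul_eq_zero.1 h2 with h3 | h3
  · have b1 := mem_Ico.1 (Fintype.mem_piFinset.1 (hZ hy) l)
    have b2 := mem_Ico.1 (Fintype.mem_piFinset.1 (hZ hu) l)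
    simp only [Function.update_self] at b2
    have b4 := (ZMod.intCast_zmod_eq_zero_iff_dvd _ _).1 h3
    exact (hn (sub_eq_zero.1 (Int.eq_zero_of_abs_lt_dvd b4 (abs_lt.2 (by omega))))).elim
  · exact h3

variable {Q : ℕ} {κ ι : Type}

theorem tau0 {S : Dat j q Q κ ι} (hG : ∀ t i, Gl S t i) {i : Fin j} {x : Pt j q} {a b : Vz q}
    (h0 : x ∈ S.X) (h1 : x + ev i a ∈ S.X) (h2 : x + ev i b ∈ S.X)
    (h3 : x + ev i a + ev i b ∈ S.X) : tau S i x a b = 0 := by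
  funext ⟨s, r⟩
  unfold tau
  have e0 : Function.update x i (x i) = x := Function.update_eq_self _ _
  by_cases h : i ∈ S.ty r
  · have c := (hG _ i r rfl).1 h x
    have c1 := c (x i) (x i + a + b) (by rwa [e0]) (by rwa [add_ev2])
    have c2 := c (x i + a + b) (x i + a) (by rwa [add_ev2]) (by rwa [add_ev])
    have c3 := c (x i + a + b) (x i + b) (by rwa [add_ev2]) (by rwa [add_ev])
    simp only [e0, add_ev, add_ev2] at c1 c2 c3
    simp only [if_pos h]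
    fin_cases s
    · exact sub_eq_zero.2 c1
    · exact sub_eq_zero.2 c2
    · exact sub_eq_zero.2 c3
  · have c := pgm ((hG _ i r rfl).2 h) h0 h1 h2 h3
    simp only [if_neg h]
    fin_cases s
    · exact c
    · rfl
    · rfl

/-- restriction of a state -/
def res (S : Dat j q Q κ ι) (Ω' : Finset (Pt (j + 1) q)) (X' : Finset (Pt j q)) : Dat j q Q κ ι :=
  { S with Ω := Ω', X := X' }

theorem st_res [Fintype κ] {Y Y' : ℝ} {N Q' : ℕ} {φ : Pt (j + 1) q → ι → ZMod Q}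
    {S : Dat j q Q κ ι} (h : St Y N Q' φ S) (hY : Y ≤ Y') {Ω' : Finset (Pt (j + 1) q)}
    {X' : Finset (Pt j q)} (h1 : Ω' ⊆ S.Ω) (h2 : X' ⊆ S.X) (h3 : Dn Ω' N Y')
    (h4 : ∀ y x, cn y x ∈ Ω' → x ∈ X') : St Y' N Q' φ (res S Ω' X') :=
  ⟨h.hR.trans hY, h.hL.trans hY, h3, fun i => ExdA.MHi_mono (h.mh i) h1, h4, h.twr, h.frm,
    fun x hx => h.cel x (h2 hx), fun x hx => h.rat x (h2 hx),
    fun x y y' a b => h.arc x y y' (h1 a) (h1 b), fun x y y' a b => h.ch x y y' (h1 a) (h1 b)⟩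

theorem gl_res {S : Dat j q Q κ ι} {t : Finset (Fin j)} {i : Fin j} (h : Gl S t i)
    (Ω' : Finset (Pt (j + 1) q)) {X' : Finset (Pt j q)} (h2 : X' ⊆ S.X) : Gl (res S Ω' X') t i :=
  fun r hr => ⟨fun hi x a b ha hb => (h r hr).1 hi x a b (h2 ha) (h2 hb),
    fun hi => ExdA.MHi_mono ((h r hr).2 hi) h2⟩

theorem th1 (hP : POOR) (hA : PAR) (hD : EXD) (j : ℕ) : ∃ C : ℕ, ∀ (Y : ℝ) (q N Q Q' : ℕ)
    [Fact Q.Prime] (κ ι : Type) [Fintype κ] [DecidableEq κ] [Fintype ι] [DecidableEq ι]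
    (φ : Pt (j + 1) q → ι → ZMod Q) (S : Dat j q Q κ ι) (i : Fin j),
    (C : ℝ) ≤ Y → (q : ℝ) ≤ Y → Y ^ C ≤ Real.log N → N ≤ Q → St Y N Q' φ S →
    (∀ t i, Gl S t i) → ∃ (Ω' : Finset (Pt (j + 1) q)) (X' : Finset (Pt j q)), Ω' ⊆ S.Ω ∧
      X' ⊆ S.X ∧ Dn Ω' N (Y ^ C) ∧ (∀ y x, cn y x ∈ Ω' → x ∈ X') ∧ MHi S.θ X' i := by
  classical
  obtain ⟨Cp, hp⟩ := hP j
  obtain ⟨Cd, hd⟩ := hD j
  refine ⟨(Cp + 2) * Cd + Cp + Cd + 2, fun Y q N Q Q' _ κ ι _ _ _ _ φ S i hY hq hN hQ hS hG => ?_⟩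
  push_cast at hY
  have p0 : (0 : ℝ) ≤ Cp := Nat.cast_nonneg _
  have d0 : (0 : ℝ) ≤ Cd := Nat.cast_nonneg _
  have m0 : (0 : ℝ) ≤ (Cp + 2) * Cd := by positivity
  have Y2 : (2 : ℝ) ≤ Y := by linarith
  have Y1 : (1 : ℝ) ≤ Y := by linarith
  have y0 : (0 : ℝ) < Y ^ Cp := by positivity
  have n1 : Y ^ Cp + Y ^ 0 ≤ Real.log N := (add_pw_le Y2 (by omega) (by omega)).trans hN
  rw [pow_zero] at n1
  have N1 : 1 ≤ N := one_le_of_log (by linarith) n1
  have N0 : (0 : ℝ) < N := by exact_mod_cast N1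
  have n2 := exp_le_of_log (by linarith) n1
  obtain ⟨X0, x1, x2⟩ := hp Y q N S.Ω (by linarith) hq N1 hS.dn
  let A := (bp j q N).filter fun x => x ∈ S.X ∧
    Real.exp (-Y ^ Cp) * (N : ℝ) ^ q ≤ (fb S.Ω N x).card
  let G : Pt j q → Finset (Vz q × Vz q) := fun x => (sz q N ×ˢ sz q N).filter fun p =>
    Real.exp (-Y ^ Cp) * (N : ℝ) ^ q ≤ (fb S.Ω N x ∩ fb S.Ω N (x + ev i p.1) ∩
      fb S.Ω N (x + ev i p.2) ∩ fb S.Ω N (x + ev i p.1 + ev i p.2)).card
  let θ' : Pt j q → Fin q × ι → ZMod Q := fun x p => S.θ x p.1 p.2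
  have g1 : ∀ x, ∀ p ∈ G x, Pg θ' A x (ev i p.1) (ev i p.2) := by
    intro x p hp
    have a1 := (mem_filter.1 hp).2
    set Z := fb S.Ω N x ∩ fb S.Ω N (x + ev i p.1) ∩ fb S.Ω N (x + ev i p.2) ∩
      fb S.Ω N (x + ev i p.1 + ev i p.2) with hZ
    have z : ∀ y ∈ Z, y ∈ fb S.Ω N x ∧ y ∈ fb S.Ω N (x + ev i p.1) ∧
        y ∈ fb S.Ω N (x + ev i p.2) ∧ y ∈ fb S.Ω N (x + ev i p.1 + ev i p.2) := fun y hy => by
      simpa only [hZ, mem_inter, and_assoc] using hy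
    have a2 : N ^ q < Z.card * N := by
      have b1 : 1 < Real.exp (-Y ^ Cp) * N := by
        refine lt_of_lt_of_le ?_ (mul_le_mul_of_nonneg_left n2 (Real.exp_pos _).le)
        rw [← Real.exp_add]
        exact Real.one_lt_exp_iff.2 (by linarith)
      have b2 : (0 : ℝ) < (N : ℝ) ^ q := by positivity
      have b3 : (N : ℝ) ^ q < Z.card * N := by nlinarith
      exact_mod_cast b3
    obtain ⟨y0, hy0⟩ : Z.Nonempty := by
      rw [← card_pos]
      by_contra hc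
      have : Z.card = 0 := by omega
      rw [this] at a2
      omega
    have mA : ∀ u, Z ⊆ fb S.Ω N u → u ∈ A := fun u hu => by
      have b1 := (mem_fb.1 (hu hy0)).2
      exact mem_filter.2 ⟨((Bas.mem_cn N _ _).1 (hS.dn.1 b1)).2, hS.hX _ _ b1,
        a1.trans (Nat.cast_le.2 (card_le_card hu))⟩
    have m0 := mA _ fun y hy => (z y hy).1
    have m1 := mA _ fun y hy => (z y hy).2.1
    have m2 := mA _ fun y hy => (z y hy).2.2.1
    have m3 := mA _ fun y hy => (z y hy).2.2.2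
    have t0 := tau0 hG (mem_filter.1 m0).2.1 (mem_filter.1 m1).2.1 (mem_filter.1 m2).2.1
      (mem_filter.1 m3).2.1
    have k := kill (Z := Z) (fun y hy => (mem_fb.1 (z y hy).1).1) a2 hQ
      (Θ := S.θ x - S.θ (x + ev i p.1) - S.θ (x + ev i p.2) + S.θ (x + ev i p.1 + ev i p.2))
      (fun y hy y' hy' => by
        have := hA j q N Q Q' κ ι Y φ S i x p.1 p.2 y y' hS (fun u hu => by
          have hu' : u ∈ Z := by
            rcases hu with rfl | rfl
            · exact hy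
            · exact hy'
          exact ⟨(mem_fb.1 (z u hu').1).2, (mem_fb.1 (z u hu').2.1).2,
            (mem_fb.1 (z u hu').2.2.1).2, (mem_fb.1 (z u hu').2.2.2).2⟩)
        rw [t0] at this
        simpa [zd] using this)
    refine ⟨m0, m1, m2, m3, funext fun s => ?_⟩
    have := congrFun (congrFun k s.1) s.2
    simp only [Pi.add_apply, Pi.sub_apply, Pi.zero_apply] at this
    simp only [θ', Pi.add_apply]
    linear_combination this
  have g2 : Real.exp (-Y ^ (Cp + 2)) ≤ env θ' A N i := by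
    unfold env
    rw [le_div_iff₀ (by positivity)]
    refine le_trans ?_ (Nat.cast_le.2 (card_le_card_of_injOn (s := X0.sigma G)
      (fun p => (p.1, p.2)) (fun p hp => ?_) ?_))
    · rw [card_sigma]
      push_cast
      refine le_trans ?_ (sum_le_sum fun x hx => by convert (x2 x hx).2 i)
      rw [sum_const, nsmul_eq_mul, pow_add (N : ℝ)]
      refine le_trans ?_ (mul_le_mul_of_nonneg_right x1.2 (by positivity))
      have b1 : Real.exp (-Y ^ (Cp + 2)) ≤ Real.exp (-Y ^ Cp) * Real.exp (-Y ^ Cp) := by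
        rw [← Real.exp_add]
        have := add_pw_le Y2 (a := Cp) (b := Cp) (c := Cp + 2) (by omega) (by omega)
        exact Real.exp_le_exp.2 (by linarith)
      calc _ ≤ Real.exp (-Y ^ Cp) * Real.exp (-Y ^ Cp) * ((N : ℝ) ^ (j * q) * (N : ℝ) ^ (2 * q)) := by
            gcongr
        _ = _ := by ring
    · obtain ⟨b1, b2⟩ := mem_sigma.1 (mem_coe.1 hp)
      exact mem_coe.2 (mem_filter.2 ⟨mem_product.2 ⟨(g1 _ _ b2).1, (mem_filter.1 b2).1⟩,
        g1 _ _ b2⟩)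
    · rintro ⟨x, y⟩ - ⟨x', y'⟩ - h
      obtain ⟨rfl, rfl⟩ := Prod.mk.inj h
      rfl
  have y3 : Y ≤ Y ^ (Cp + 2) := le_pw Y1 (by omega)
  obtain ⟨E, e1, e2, e3⟩ := hd (Y ^ (Cp + 2)) q N Q (Fin q × ι) θ' A i (by linarith) (by linarith)
    N1 (filter_subset _ _) g2
  rw [← pow_mul] at e2
  let Ω' := S.Ω.filter fun W => P057L.tl W ∈ E
  have o1 : Ω' ⊆ bp (j + 1) q N := (filter_subset _ _).trans hS.dn.1
  refine ⟨Ω', E, filter_subset _ _, fun x hx => (mem_filter.1 (e1 hx)).2.1, ⟨o1, ?_⟩,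
    fun y x h => by simpa only [tl_cn] using (mem_filter.1 h).2, fun W s t hs ht hst => ?_⟩
  · rw [Bas.card_fb N Ω' o1]
    refine le_trans ?_ (Nat.cast_le.2 (sum_le_sum_of_subset e2.1))
    push_cast
    refine le_trans ?_ (sum_le_sum (f := fun _ => Real.exp (-Y ^ Cp) * (N : ℝ) ^ q) fun x hx =>
      (mem_filter.1 (e1 hx)).2.2.trans (Nat.cast_le.2 (card_le_card fun y hy =>
        mem_fb.2 ⟨(mem_fb.1 hy).1, mem_filter.2 ⟨(mem_fb.1 hy).2, by simpa only [tl_cn] using hx⟩⟩)))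
    rw [sum_const, nsmul_eq_mul, add_mul j, one_mul, pow_add (N : ℝ)]
    refine le_trans ?_ (mul_le_mul_of_nonneg_right e2.2 (by positivity))
    have b1 : Real.exp (-Y ^ ((Cp + 2) * Cd + Cp + Cd + 2)) ≤
        Real.exp (-Y ^ ((Cp + 2) * Cd)) * Real.exp (-Y ^ Cp) := by
      rw [← Real.exp_add]
      have := add_pw_le Y2 (a := (Cp + 2) * Cd) (b := Cp) (c := (Cp + 2) * Cd + Cp + Cd + 2)
        (by omega) (by omega)
      exact Real.exp_le_exp.2 (by linarith)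
    calc _ ≤ Real.exp (-Y ^ ((Cp + 2) * Cd)) * Real.exp (-Y ^ Cp) *
          ((N : ℝ) ^ (j * q) * (N : ℝ) ^ q) := by gcongr
      _ = _ := by ring
  · funext l a
    have := congrFun (e3 W s t hs ht hst) (l, a)
    simpa only [θ', Finset.sum_apply] using this

theorem thl (hP : POOR) (hA : PAR) (hD : EXD) (j : ℕ) (l : List (Fin j)) : ∃ C : ℕ, ∀ (Y : ℝ)
    (q N Q Q' : ℕ) [Fact Q.Prime] (κ ι : Type) [Fintype κ] [DecidableEq κ] [Fintype ι]
    [DecidableEq ι] (φ : Pt (j + 1) q → ι → ZMod Q) (S : Dat j q Q κ ι),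
    (C : ℝ) ≤ Y → (q : ℝ) ≤ Y → Y ^ C ≤ Real.log N → N ≤ Q → St Y N Q' φ S →
    (∀ t i, Gl S t i) → ∃ (Ω' : Finset (Pt (j + 1) q)) (X' : Finset (Pt j q)), Ω' ⊆ S.Ω ∧
      X' ⊆ S.X ∧ Y ≤ Y ^ C ∧ Dn Ω' N (Y ^ C) ∧ (∀ y x, cn y x ∈ Ω' → x ∈ X') ∧
      ∀ i ∈ l, MHi S.θ X' i := by
  induction l with
  | nil =>
    exact ⟨1, fun Y q N Q Q' _ κ ι _ _ _ _ φ S _ _ _ _ hS _ => ⟨S.Ω, S.X, subset_rfl, subset_rfl,
      (pow_one Y).ge, (pow_one Y).symm ▸ hS.dn, hS.hX, fun _ h => by simp at h⟩⟩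
  | cons i l ih =>
    obtain ⟨C2, h2⟩ := ih
    obtain ⟨C1, h1⟩ := th1 hP hA hD j
    refine ⟨C2 * C1 + C1 + C2 + 1, fun Y q N Q Q' _ κ ι _ _ _ _ φ S hY hq hN hQ hS hG => ?_⟩
    push_cast at hY
    have p0 : (0 : ℝ) ≤ C1 := Nat.cast_nonneg _
    have d0 : (0 : ℝ) ≤ C2 := Nat.cast_nonneg _
    have m0 : (0 : ℝ) ≤ C2 * C1 := by positivity
    have Y1 : (1 : ℝ) ≤ Y := by linarith
    obtain ⟨Ω1, X1, a1, a2, a3, a4, a5, a6⟩ := h2 Y q N Q Q' κ ι φ S (by linarith) hq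
      ((pw_le Y1 (by omega)).trans hN) hQ hS hG
    obtain ⟨Ω2, X2, b1, b2, b4, b5, b6⟩ := h1 (Y ^ C2) q N Q Q' κ ι φ (res S Ω1 X1) i
      (by linarith) (by linarith) (by rw [← pow_mul]; exact (pw_le Y1 (by omega)).trans hN) hQ
      (st_res hS a3 a1 a2 a4 a5) (fun t i => gl_res (hG t i) _ a2)
    rw [← pow_mul] at b4
    refine ⟨Ω2, X2, b1.trans a1, b2.trans a2, le_pw Y1 (by omega), b4.mono (pw_le Y1 (by omega)),
      b5, fun i' hi => ?_⟩
    rcases List.mem_cons.1 hi with rfl | hi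
    · exact b6
    · exact ExdA.MHi_mono (a6 i' hi) b2

end ThA

theorem th (hP : POOR) (hA : PAR) (hD : EXD) : TH := by
  intro j
  obtain ⟨C, h⟩ := ThA.thl hP hA hD j (List.finRange j)
  refine ⟨C, fun Y q N Q Q' _ κ ι _ _ _ _ φ S hY _ hq hN hQ hS hG => ?_⟩
  obtain ⟨Ω1, X1, a1, a2, a3, a4, a5, a6⟩ := h Y q N Q Q' κ ι φ S hY hq hN hQ hS hG
  exact ⟨ThA.res S Ω1 X1, a1, ThA.st_res hS a3 a1 a2 a4 a5, fun t i => ThA.gl_res (hG t i) _ a2,
    fun i => a6 i (List.mem_finRange i)⟩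

end Vale.Agent.P057T.Gkh
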