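import Vale.Agent.P057L.All0
import Vale.Agent.P057T.Gkh.All0
import Vale.Agent.P057T.Gkh.Cub
import Vale.Agent.P057T.Gkh.Fin
import Vale.Agent.P057T.Gkh.Frm
import Vale.Agent.P057T.Gkh.Iter
import Vale.Agent.P057T.Gkh.La
import Vale.Agent.P057T.Gkh.Par
import Vale.Agent.P057T.Gkh.Qd
import Vale.Agent.P057T.Gkh.Rf
import Vale.Agent.P057T.Gkh.Rnd
import Vale.Agent.P057T.Gkh.Rq
import Vale.Agent.P057T.Gkh.St0
import Vale.Agent.P057T.Gkh.Th

/-! Assembly of all rows but one. -/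

namespace Vale.Agent.P057T.Gkh

open Vale.Agent.P057L

theorem rq0 : RQ := rq (poor bas) (par frm) (qd van (covr ker crq))

theorem gkh_ra (hA : FRM → RQ → LA → GW → EXD → RA) : ∀ j, GKH j :=
  gkh_of (st0 frm rf All.pet0) (iter (rnd frm (hA frm rq0 la gw (exd exg)) rf))
    (th (poor bas) (par frm) (exd exg)) (fin bas frm cube)

end Vale.Agent.P057T.Gkh
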