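import Vale.Agent.P057T.Gkh.Defs
import Vale.Agent.P057T.Gkh.Lin

/-! Linear algebra of one round. -/

set_option linter.all false

open Finset
open scoped BigOperators

namespace Vale.Agent.P057T.Gkh.H30

open Vale.Agent.P057Z Vale.Agent.P057L Vale.Agent.P057T.Lin

theorem la : LA := by
  refine ⟨10, fun Y κ δ _ _ _ _ b D B e hY hκ hδ he hb => ?_⟩
  classical
  have hY' : (10 : ℝ) ≤ Y := by exact_mod_cast hY
  have hY4 : 4 ≤ Y := by linarith
  have Y1 : 1 ≤ Y := by linarith
  obtain ⟨n', hn', hD', hS⟩ := ker1 b (fun d => d ∈ D) hY4 hδ hb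
  let b' : δ → δ → ℤ := fun a r => ∑ a', n' a a' * b a' r
  let f' : δ → κ → ℤ := fun a r => if r ∈ B then b' a (e r) else 0
  have y2 : 100 ≤ Y ^ 2 := by nlinarith
  have y13 : Y ≤ Y ^ 3 := le_self_pow₀ Y1 (by norm_num)
  have y3 : Y ^ 3 + Y ≤ Y ^ 4 := by
    have : Y ^ 4 = Y * Y ^ 3 := by ring
    nlinarith
  have y4 : Y ≤ Y ^ 4 := le_self_pow₀ Y1 (by norm_num)
  have hb' : ∀ a r, |(b' a r : ℝ)| ≤ Real.exp (Y ^ 4) := by
    intro a r
    simp only [b']
    rw [Int.cast_sum]
    refine (abs_sum_le_sum_abs _ _).trans ?_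
    have : ∀ a' ∈ (univ : Finset δ), |((n' a a' * b a' r : ℤ) : ℝ)| ≤
        |(n' a a' : ℝ)| * Real.exp Y := by
      intro a' _
      rw [Int.cast_mul, abs_mul]
      exact mul_le_mul_of_nonneg_left (hb a' r) (abs_nonneg _)
    refine (sum_le_sum this).trans ?_
    rw [← sum_mul]
    refine (mul_le_mul_of_nonneg_right (hn' a) (Real.exp_pos _).le).trans ?_
    rw [← Real.exp_add]
    exact Real.exp_le_exp.2 y3
  have hf' : ∀ a r, |(f' a r : ℝ)| ≤ Real.exp (Y ^ 4) := by
    intro a r
    simp only [f']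
    split_ifs
    · exact hb' a _
    · simp [Real.exp_nonneg]
  obtain ⟨t, sel, w, D0, ht, D00, hD0, -, -, hs⟩ :=
    crqR (Y := Y ^ 4) f' (by linarith) (by linarith) hf'
  obtain ⟨u⟩ : Nonempty (Fin t ↪ κ) :=
    Function.Embedding.nonempty_of_card_le (by simpa using ht)
  have y10 : 2 * (Y ^ 4) ^ 2 ≤ Y ^ 10 := by
    have : Y ^ 10 = Y ^ 2 * (Y ^ 4) ^ 2 := by ring
    rw [this]
    exact mul_le_mul_of_nonneg_right (by linarith) (by positivity)
  have y310 : Y ^ 3 ≤ Y ^ 10 := pow_le_pow_right₀ Y1 (by norm_num)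
  let n : κ → δ → ℤ := fun s a => ∑ i, if u i = s then n' (sel i) a else 0
  let f : κ → κ → ℤ := fun s r => if r ∈ B then ∑ i, (if u i = s then w i r else 0) else 0
  let g : κ → κ → ℤ := fun s r =>
    if r ∈ B then (if s = r then D0 else 0) - ∑ i, w i r * f' (sel i) s else 0
  have hnu : ∀ i, n (u i) = n' (sel i) := by
    intro i
    funext a
    simp only [n]
    rw [sum_eq_single i]
    · simp
    · intro i' _ h
      rw [if_neg fun h' => h (u.injective h')]
    · simp
  have hn0 : ∀ s, (∀ i, u i ≠ s) → n s = 0 := by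
    intro s h
    funext a
    simp only [n]
    exact sum_eq_zero fun i _ => if_neg (h i)
  refine ⟨n, f, g, D0, D00, hD0.trans (Real.exp_le_exp.2 y10), fun s a => ?_, fun s d hd => ?_,
    fun s r hr => ⟨if_neg hr, if_neg hr⟩, fun m r hr => ?_, fun Q _ ι τ hQ h0 hv s hs' => ?_⟩
  · by_cases h : ∃ i, u i = s
    · obtain ⟨i, rfl⟩ := h
      rw [hnu]
      exact (single_le_sum (f := fun a' => |(n' (sel i) a' : ℝ)|) (fun _ _ => abs_nonneg _)
        (mem_univ a)).trans ((hn' _).trans (Real.exp_le_exp.2 y310))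
    · rw [hn0 s (fun i hi => h ⟨i, hi⟩)]
      simp [Real.exp_nonneg]
  · by_cases h : ∃ i, u i = s
    · obtain ⟨i, rfl⟩ := h
      rw [hnu]
      exact hD' _ d hd
    · rw [hn0 s (fun i hi => h ⟨i, hi⟩)]
      simp
  · have e1 : ∑ s, f s r * (∑ r' ∈ B, (∑ a, n s a * b a (e r')) * m r') =
        ∑ i, w i r * ∑ r' ∈ B, f' (sel i) r' * m r' := by
      simp only [f, if_pos hr, sum_mul, ite_mul, zero_mul]
      rw [sum_comm]
      refine sum_congr rfl fun i _ => ?_
      rw [sum_ite_eq, if_pos (mem_univ _), hnu]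
      congr 1
      refine sum_congr rfl fun r' hr' => ?_
      simp only [f', if_pos hr', b', sum_mul]
    have e2 : ∑ s ∈ B, g s r * m s = D0 * m r - ∑ i, w i r * ∑ r' ∈ B, f' (sel i) r' * m r' := by
      simp only [g, if_pos hr, sub_mul, sum_sub_distrib, ite_mul, zero_mul]
      rw [sum_ite_eq', if_pos hr]
      congr 1
      simp only [sum_mul, mul_sum]
      rw [sum_comm]
      refine sum_congr rfl fun i _ => sum_congr rfl fun s _ => ?_
      ring
    rw [e1, e2]
    ring
  · have hQ3 : Real.exp (Y ^ 3) ≤ Q := (Real.exp_le_exp.2 y310).trans hQ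
    have h1 : Sp b τ := dual_span b hY4 hδ hb Q (ι → ZMod Q) hQ3 τ fun v h1 h2 =>
      hv v (fun d => (h1 d).trans (Real.exp_le_exp.2 y310)) h2
    obtain ⟨h, hh⟩ := hS Q (ι → ZMod Q) hQ3 τ h1 h0
    have h2 : ∀ r ∈ B, τ (e r) = ∑ a, f' a r • h a := by
      intro r hr
      rw [hh]
      simp only [f', if_pos hr, b']
    have h3 : ∀ r, g s r • τ (e r) = ∑ a, (g s r * f' a r) • h a := by
      intro r
      by_cases hr : r ∈ B
      · rw [h2 r hr, smul_sum]
        simp only [mul_smul]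
      · simp only [g, if_neg hr, zero_smul, zero_mul, sum_const_zero]
    simp only [zd, h3]
    rw [sum_comm]
    refine sum_eq_zero fun a _ => ?_
    rw [← sum_smul]
    have h4 : ∑ r, g s r * f' a r = 0 := by
      have h5 : ∀ r, g s r * f' a r =
          (if s = r then D0 * f' a r else 0) - ∑ i, (w i r * f' a r) * f' (sel i) s := by
        intro r
        by_cases hr : r ∈ B
        · simp only [g, if_pos hr, sub_mul, ite_mul, zero_mul, sum_mul]
          congr 1
          exact sum_congr rfl fun i _ => by ring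
        · have : f' a r = 0 := if_neg hr
          simp [this]
      simp only [h5, sum_sub_distrib]
      rw [sum_ite_eq, if_pos (mem_univ _), sum_comm, sub_eq_zero]
      have h6 := congrFun (hs a) s
      rw [Pi.smul_apply, Finset.sum_apply, smul_eq_mul] at h6
      rw [h6]
      refine sum_congr rfl fun i _ => ?_
      rw [Pi.smul_apply, smul_eq_mul, dotProduct, sum_mul]
    rw [h4, zero_smul]

end Vale.Agent.P057T.Gkh.H30
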